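-- Row 350 (S0554): common definitions. See findings topic row350-plan for the whole blueprint.
import Mathlib
import Crest.Prelude.Def_QueryComplexity

set_option autoImplicit false

namespace Crest.Agent.QuartSep

open Finset BigOperators

/-! ## Bit vectors and the Hadamard matrix -/

/-- Index set of size `N = 2^ν`. -/
abbrev Vec (ν : ℕ) : Type := Fin ν → Bool

/-- The sign of a bit: `false ↦ 1`, `true ↦ -1`. -/
def sgn (b : Bool) : ℝ := if b then -1 else 1

/-- The square of a sign is one. -/
theorem sgn_sq (b : Bool) : sgn b ^ 2 = 1 := by cases b <;> simp [sgn]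

/-- The character `χ(u,v) = (-1)^{u·v}`. -/
def chi {ν : ℕ} (u v : Vec ν) : ℝ := ∏ i, sgn (u i && v i)

/-- `N = 2^ν` as a real number. -/
def sizeR (ν : ℕ) : ℝ := (2 : ℝ) ^ ν

/-- The Hadamard matrix entry `N^{-1/2} χ(u,v)`. -/
noncomputable def hadamard {ν : ℕ} (u v : Vec ν) : ℝ := chi u v / Real.sqrt (sizeR ν)

/-- The Hadamard transform of a real vector. -/
noncomputable def hadamardT {ν : ℕ} (w : Vec ν → ℝ) : Vec ν → ℝ :=
  fun u => ∑ v, hadamard u v * w v

/-- The chain state built from a list of sign vectors `[d₀, d₁, …, d_{k-1}]`: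
`chain [] = H e₀` (the uniform unit vector) and `chain (d :: ds) = H (d · chain ds)`.
So `chain [d₀,…,d_{k-1}] = H D₀ H D₁ ⋯ H D_{k-1} H e₀`; it makes `k` phase queries. -/
noncomputable def chain {ν : ℕ} : List (Vec ν → ℝ) → Vec ν → ℝ
  | [] => fun _ => 1 / Real.sqrt (sizeR ν)
  | d :: ds => hadamardT (fun l => d l * chain ds l)

/-- The sign vectors of an instance `x : Fin k → Vec ν → Bool`, block `0` first. -/
noncomputable def blocks {k ν : ℕ} (x : Fin k → Vec ν → Bool) : List (Vec ν → ℝ) :=
  List.ofFn (fun a : Fin k => fun l => sgn (x a l))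

/-- The state `ψ(x) = H D₀ H D₁ ⋯ H D_{k-1} H e₀` of an instance. Its coordinate `s`, written `β`
in the blueprint, is the amplitude that points to cell `s`. -/
noncomputable def psi {k ν : ℕ} (x : Fin k → Vec ν → Bool) : Vec ν → ℝ := chain (blocks x)

/-! ## Decision trees over an arbitrary index type -/

/-- Decision trees over an arbitrary index type (the Prelude's trees are over `Fin n`). -/
inductive DT (I : Type) : Type where
  | answer (b : Bool) : DT I
  | read (i : I) (ifFalse ifTrue : DT I) : DT I

namespace DT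

variable {I : Type}

/-- Evaluation of a decision tree. -/
def eval (x : I → Bool) : DT I → Bool
  | answer b => b
  | read i t₀ t₁ => if x i then t₁.eval x else t₀.eval x

/-- Depth of a decision tree. -/
def depth : DT I → ℕ
  | answer _ => 0
  | read _ t₀ t₁ => max t₀.depth t₁.depth + 1

/-- The Prelude's tree, with reads relabelled through `e`. -/
def ofDTree {n : ℕ} (e : Fin n → I) : Crest.MathPhysics.Query.DTree n → DT I
  | .answer b => answer b
  | .read i t₀ t₁ => read (e i) (ofDTree e t₀) (ofDTree e t₁)

/-- Realises the auto-generated equation lemmas here, once, so that the modules importing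
this file do not each generate their own copy (the checker treats the copies as a collision). -/
theorem force_equation_lemmas : True := by
  have := @eval.eq_def
  have := @eval.eq_1
  have := @eval.eq_2
  have := @depth.eq_def
  have := @depth.eq_1
  have := @depth.eq_2
  trivial

end DT

/-- As for `DT.force_equation_lemmas`. -/
theorem force_equation_lemmas_sgn : True := by
  have := @sgn.eq_1
  have := @hadamardT.eq_1
  trivial

/-! ## Dual-adversary representations -/

/-- `Rep Px Py E A B`: the matrix `E x y`, on pairs with `Px x`, `Py y`, is a filtered Gram matrix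
`E x y = ∑ i, [x i ≠ y i] ⟪u x i, v y i⟫`, with `∑ i, ‖u x i‖² ≤ A x` and `∑ i, ‖v y i‖² ≤ B y`.
Note `u x` depends on `x` only and `v y` on `y` only. -/
def Rep {I : Type} [Fintype I] (Px Py : (I → Bool) → Prop) (E : (I → Bool) → (I → Bool) → ℝ)
    (A B : (I → Bool) → ℝ) : Prop :=
  ∃ (D : Type) (_ : Fintype D) (u v : (I → Bool) → I → D → ℝ),
    (∀ x y, Px x → Py y →
      ∑ i, (if x i ≠ y i then ∑ c, u x i c * v y i c else 0) = E x y) ∧
    (∀ x, Px x → ∑ i, ∑ c, u x i c ^ 2 ≤ A x) ∧
    (∀ y, Py y → ∑ i, ∑ c, v y i c ^ 2 ≤ B y)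

end Crest.Agent.QuartSep
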