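/-
Row 350 (S0554), module Adversary (plan #879, section 2a).

Dual adversary vectors give a quantum query algorithm in the exact model of
`Crest.MathPhysics.Query.QuantumComputes`.

Structure:
* `exists_matrix_of_isometry`, `exists_unitary_ext`, `exists_reflection`: unitary matrices from
  Hilbert space isometries.
* `sim`: an algorithm on a finite work space `Z` whose queries are diagonal sign operators
  is a `QuantumComputes` algorithm.
* `iterate`: the time-register algorithm: `Avg = (q+1)⁻¹ ∑_{t ≤ q} U^t e₀`.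
* `adversary`: the final statement.
-/
import Crest.Agent.Lib.QuartSep.Basic

set_option autoImplicit false

open Crest.MathPhysics.Query
open scoped BigOperators Kronecker

namespace Crest.Agent.QuartSep.Adv

section Unitary

variable {I : Type*} [Fintype I] [DecidableEq I]

/-- Every isometry of `EuclideanSpace ℂ I` is given by a unitary matrix. -/
lemma exists_matrix_of_isometry (f : EuclideanSpace ℂ I ≃ₗᵢ[ℂ] EuclideanSpace ℂ I) :
    ∃ M : Matrix I I ℂ, M ∈ Matrix.unitaryGroup I ℂ ∧
      ∀ c : I → ℂ, M.mulVec c = (f (WithLp.toLp 2 c)).ofLp := by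
  classical
  refine ⟨(EuclideanSpace.basisFun I ℂ).toBasis.toMatrix ((EuclideanSpace.basisFun I ℂ).map f),
    OrthonormalBasis.toMatrix_orthonormalBasis_mem_unitary _ _, ?_⟩
  intro c
  have hc : WithLp.toLp 2 c = ∑ j, c j • (EuclideanSpace.basisFun I ℂ) j := by
    ext i
    simp [EuclideanSpace.basisFun_apply, Finset.sum_apply, Pi.single_apply]
  funext i
  rw [hc, map_sum]
  simp [Matrix.mulVec, dotProduct, Module.Basis.toMatrix_apply, mul_comm]

/-- Orthonormal families indexed by `Z` (with an injection `Z → I`) are conjugate under an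
isometry. -/
lemma exists_isometry_ext {Z : Type*} (j : Z → I) (hj : Function.Injective j)
    (a b : Z → EuclideanSpace ℂ I) (ha : Orthonormal ℂ a) (hb : Orthonormal ℂ b) :
    ∃ f : EuclideanSpace ℂ I ≃ₗᵢ[ℂ] EuclideanSpace ℂ I, ∀ z, f (a z) = b z := by
  classical
  have key : ∀ c : Z → EuclideanSpace ℂ I, Orthonormal ℂ c →
      ∃ B : OrthonormalBasis I ℂ (EuclideanSpace ℂ I), ∀ z, B (j z) = c z := by
    intro c hc
    have hcard : Module.finrank ℂ (EuclideanSpace ℂ I) = Fintype.card I := by simp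
    have hv : Orthonormal ℂ ((Set.range j).restrict (Function.extend j c 0)) := by
      rw [orthonormal_iff_ite] at hc ⊢
      rintro ⟨_, z, rfl⟩ ⟨_, z', rfl⟩
      change inner ℂ (Function.extend j c 0 (j z)) (Function.extend j c 0 (j z')) = _
      rw [hj.extend_apply, hj.extend_apply, hc z z']
      simp [Subtype.ext_iff, hj.eq_iff]
    obtain ⟨B, hB⟩ := hv.exists_orthonormalBasis_extension_of_card_eq hcard
    refine ⟨B, fun z => ?_⟩
    rw [hB (j z) ⟨z, rfl⟩, hj.extend_apply]
  obtain ⟨B₁, hB₁⟩ := key a ha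
  obtain ⟨B₂, hB₂⟩ := key b hb
  refine ⟨B₁.equiv B₂ (Equiv.refl I), fun z => ?_⟩
  rw [← hB₁ z, ← hB₂ z]
  simp

/-- Matrix form of `exists_isometry_ext`. -/
lemma exists_unitary_ext {Z : Type*} (j : Z → I) (hj : Function.Injective j)
    (a b : Z → EuclideanSpace ℂ I) (ha : Orthonormal ℂ a) (hb : Orthonormal ℂ b) :
    ∃ M : Matrix I I ℂ, M ∈ Matrix.unitaryGroup I ℂ ∧
      ∀ z, M.mulVec (a z).ofLp = (b z).ofLp := by
  obtain ⟨f, hf⟩ := exists_isometry_ext j hj a b ha hb
  obtain ⟨M, hM, hM'⟩ := exists_matrix_of_isometry f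
  refine ⟨M, hM, fun z => ?_⟩
  rw [hM', ← hf z]

/-- Reflection: a unitary negating a set `P` of vectors and fixing everything orthogonal to `P`. -/
lemma exists_reflection (P : Set (I → ℂ)) :
    ∃ R : Matrix I I ℂ, R ∈ Matrix.unitaryGroup I ℂ ∧ (∀ v ∈ P, R.mulVec v = -v) ∧
      ∀ w : I → ℂ, (∀ v ∈ P, star v ⬝ᵥ w = 0) → R.mulVec w = w := by
  classical
  let K : Submodule ℂ (EuclideanSpace ℂ I) := Submodule.span ℂ ((fun v => WithLp.toLp 2 v) '' P)
  obtain ⟨R, hR, hR'⟩ := exists_matrix_of_isometry (Kᗮ.reflection)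
  refine ⟨R, hR, ?_, ?_⟩
  · intro v hv
    rw [hR']
    have hmem : WithLp.toLp 2 v ∈ K := Submodule.subset_span ⟨v, hv, rfl⟩
    rw [Submodule.reflection_mem_subspace_orthogonal_precomplement_eq_neg hmem]
    rfl
  · intro w hw
    rw [hR']
    have hmem : WithLp.toLp 2 w ∈ Kᗮ := by
      rw [Submodule.mem_orthogonal]
      intro u hu
      refine Submodule.span_induction ?_ ?_ ?_ ?_ hu
      · rintro _ ⟨v, hv, rfl⟩
        have := hw v hv
        simpa [EuclideanSpace.inner_eq_star_dotProduct, dotProduct_comm] using this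
      · simp
      · intro x y _ _ hx hy
        rw [inner_add_left, hx, hy, add_zero]
      · intro c x _ hx
        rw [inner_smul_left, hx, mul_zero]
    rw [Submodule.reflection_mem_subspace_eq_self hmem]

end Unitary

section Sim

/-- The sign of a bit. -/
def sg (b : Bool) : ℂ := if b then -1 else 1

@[simp] lemma sg_true : sg true = -1 := rfl
@[simp] lemma sg_false : sg false = 1 := rfl

lemma sg_mul_self (b : Bool) : sg b * sg b = 1 := by cases b <;> simp

lemma norm_sg (b : Bool) : ‖sg b‖ = 1 := by cases b <;> simp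

/-- Amplitude of the target qubit: `|+⟩` if `m` is false, `|−⟩` if `m` is true. -/
noncomputable def hv (m b : Bool) : ℂ := (if m && b then -1 else 1) / (Real.sqrt 2 : ℂ)

lemma norm_hv_sq (m b : Bool) : ‖hv m b‖ ^ 2 = 1 / 2 := by
  have h2 : ‖((Real.sqrt 2 : ℝ) : ℂ)‖ = Real.sqrt 2 := by
    rw [Complex.norm_real, Real.norm_of_nonneg (Real.sqrt_nonneg 2)]
  have h3 : ‖(if (m && b) = true then (-1 : ℂ) else 1)‖ = 1 := by
    split_ifs <;> simp
  unfold hv
  rw [norm_div, h2, h3, div_pow, Real.sq_sqrt (by norm_num)]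
  norm_num

variable {n w : ℕ} {Z : Type*} [Fintype Z] [DecidableEq Z]

/-- The frame vector `|idx z⟩ ⊗ |±⟩ ⊗ |z⟩`. -/
noncomputable def frame (e : Z ≃ Fin w) (idx : Z → Fin n) (mode : Z → Bool) (z : Z) :
    QIdx n w → ℂ :=
  fun p => if p.1 = idx z ∧ p.2.2 = e z then hv (mode z) p.2.1 else 0

/-- The sign picked up by a frame vector. -/
def phase (x : Fin n → Bool) (i : Fin n) (m : Bool) : ℂ := if m then sg (x i) else 1

lemma norm_phase (x : Fin n → Bool) (i : Fin n) (m : Bool) : ‖phase x i m‖ = 1 := by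
  unfold phase; split_ifs
  · exact norm_sg _
  · simp

lemma oracle_frame (e : Z ≃ Fin w) (idx : Z → Fin n) (mode : Z → Bool)
    (x : Fin n → Bool) (z : Z) :
    oracle x (frame e idx mode z) =
      fun p => phase x (idx z) (mode z) * frame e idx mode z p := by
  funext ⟨i, b, k⟩
  simp only [oracle, frame, phase]
  by_cases h : i = idx z ∧ k = e z
  · obtain ⟨rfl, rfl⟩ := h
    simp only [and_self, if_true]
    cases hm : mode z <;> cases hx : x (idx z) <;> cases b <;> simp [hv, sg] <;> ring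
  · simp [h]

omit [Fintype Z] [DecidableEq Z] in
lemma frame_norm (e : Z ≃ Fin w) (idx : Z → Fin n) (mode : Z → Bool) (z : Z) :
    ∑ p : QIdx n w, ‖frame e idx mode z p‖ ^ 2 = 1 := by
  rw [Fintype.sum_prod_type]
  rw [Finset.sum_eq_single (idx z)]
  · rw [Fintype.sum_prod_type]
    simp only [Fintype.sum_bool]
    rw [Finset.sum_eq_single (e z), Finset.sum_eq_single (e z)]
    · simp only [frame, and_self, if_true, norm_hv_sq]; norm_num
    · intro k _ hk; simp [frame, hk]
    · simp
    · intro k _ hk; simp [frame, hk]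
    · simp
  · intro i _ hi
    refine Finset.sum_eq_zero fun p _ => ?_
    simp [frame, hi]
  · simp

omit [Fintype Z] in
lemma frame_inner (e : Z ≃ Fin w) (idx : Z → Fin n) (mode : Z → Bool) (z z' : Z) :
    ∑ p, star (frame e idx mode z p) * frame e idx mode z' p = if z = z' then 1 else 0 := by
  by_cases hz : z = z'
  · subst hz
    rw [if_pos rfl]
    have h1 : ∀ p : QIdx n w, star (frame e idx mode z p) * frame e idx mode z p
        = ((‖frame e idx mode z p‖ ^ 2 : ℝ) : ℂ) := by
      intro p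
      rw [Complex.star_def, ← Complex.normSq_eq_conj_mul_self, Complex.normSq_eq_norm_sq]
    simp_rw [h1]
    rw [← Complex.ofReal_sum, frame_norm]; simp
  · rw [if_neg hz]
    refine Finset.sum_eq_zero fun p _ => ?_
    by_cases h : p.2.2 = e z
    · have : ¬ p.2.2 = e z' := by
        rw [h]; exact fun h' => hz (e.injective h')
      simp [frame, this]
    · simp [frame, h]

lemma frame_orthonormal (e : Z ≃ Fin w) (idx : Z → Fin n) (mode : Z → Bool) :
    Orthonormal ℂ (fun z => (WithLp.toLp 2 (frame e idx mode z) : EuclideanSpace ℂ (QIdx n w))) := by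
  rw [orthonormal_iff_ite]
  intro z z'
  rw [← frame_inner e idx mode z z']
  simp [PiLp.inner_apply, mul_comm]

/-- A unitary change of an orthonormal family. -/
lemma orthonormal_combo {H : Type*} [NormedAddCommGroup H] [InnerProductSpace ℂ H]
    (a : Z → H) (ha : Orthonormal ℂ a) (W : Matrix Z Z ℂ) (hW : W ∈ Matrix.unitaryGroup Z ℂ) :
    Orthonormal ℂ (fun z => ∑ z', W z' z • a z') := by
  rw [orthonormal_iff_ite] at ha ⊢
  intro i j
  rw [sum_inner]
  simp_rw [inner_sum, inner_smul_left, inner_smul_right, ha]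
  have h : (star W * W) i j = if i = j then 1 else 0 := by
    rw [Matrix.mem_unitaryGroup_iff'.mp hW, Matrix.one_apply]
  rw [← h, Matrix.mul_apply]
  refine Finset.sum_congr rfl fun k _ => ?_
  simp

omit [DecidableEq Z] in
/-- Coefficient extraction. -/
lemma combo_apply (e : Z ≃ Fin w) (idx : Z → Fin n) (mode : Z → Bool) (c : Z → ℂ) (p : QIdx n w) :
    ∑ z, c z * frame e idx mode z p =
      c (e.symm p.2.2) * frame e idx mode (e.symm p.2.2) p := by
  rw [Finset.sum_eq_single (e.symm p.2.2)]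
  · intro z _ hz
    have : ¬ p.2.2 = e z := by
      rintro h; apply hz; rw [h]; simp
    simp [frame, this]
  · simp

/-- The probability of a set of work basis states in a frame expansion. -/
lemma combo_prob (e : Z ≃ Fin w) (idx : Z → Fin n) (mode : Z → Bool) (c : Z → ℂ) (g : Z → ℝ) :
    ∑ p : QIdx n w, g (e.symm p.2.2) * ‖∑ z, c z * frame e idx mode z p‖ ^ 2 =
      ∑ z, g z * ‖c z‖ ^ 2 := by
  have h1 : ∀ p : QIdx n w, g (e.symm p.2.2) * ‖∑ z, c z * frame e idx mode z p‖ ^ 2
      = ∑ z, g z * ‖c z‖ ^ 2 * ‖frame e idx mode z p‖ ^ 2 := by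
    intro p
    rw [combo_apply, Finset.sum_eq_single (e.symm p.2.2)]
    · rw [norm_mul, mul_pow]; ring
    · intro z _ hz
      have : ¬ p.2.2 = e z := by
        rintro h; apply hz; rw [h]; simp
      simp [frame, this]
    · simp
  simp_rw [h1]
  rw [Finset.sum_comm]
  refine Finset.sum_congr rfl fun z _ => ?_
  rw [← Finset.mul_sum, frame_norm, mul_one]

/-- The run of a diagonal-query algorithm on the work space `Z`. -/
noncomputable def run (idx : ℕ → Z → Fin n) (mode : ℕ → Z → Bool) (W : ℕ → Matrix Z Z ℂ)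
    (φ₀ : Z → ℂ) (x : Fin n → Bool) : ℕ → Z → ℂ
  | 0 => (W 0).mulVec φ₀
  | s + 1 => (W (s + 1)).mulVec (fun z => phase x (idx s z) (mode s z) * run idx mode W φ₀ x s z)

omit [DecidableEq Z] in
lemma mulVec_combo {I : Type*} [Fintype I] (M : Matrix I I ℂ) (c : Z → ℂ) (f : Z → I → ℂ) :
    M.mulVec (fun p => ∑ z, c z * f z p) = fun p => ∑ z, c z * (M.mulVec (f z)) p := by
  funext p
  simp only [Matrix.mulVec, dotProduct, Finset.mul_sum]
  rw [Finset.sum_comm]
  refine Finset.sum_congr rfl fun z _ => Finset.sum_congr rfl fun i _ => ?_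
  ring

omit [DecidableEq Z] in
lemma combo_step {I : Type*} (W : Matrix Z Z ℂ) (c : Z → ℂ) (g : Z → I → ℂ) :
    (fun p => ∑ z, c z * ∑ z', W z' z * g z' p) = fun p => ∑ z', (W.mulVec c) z' * g z' p := by
  funext p
  simp only [Matrix.mulVec, dotProduct, Finset.mul_sum, Finset.sum_mul]
  rw [Finset.sum_comm]
  refine Finset.sum_congr rfl fun z _ => Finset.sum_congr rfl fun i _ => ?_
  ring

omit [DecidableEq Z] in
lemma oracle_combo (x : Fin n → Bool) (c : Z → ℂ) (f : Z → QIdx n w → ℂ) :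
    oracle x (fun p => ∑ z, c z * f z p) = fun p => ∑ z, c z * (oracle x (f z)) p := rfl

/-- **Simulation.** A diagonal-query algorithm on a finite work space `Z`, where the `s`-th query
multiplies the basis state `z` by `(-1)^{x (idx s z)}` if `mode s z` and does nothing otherwise,
is a quantum query algorithm in the model of `QuantumComputes`. -/
theorem sim (hn : 0 < n) (F : (Fin n → Bool) → Bool) (q : ℕ)
    (idx : ℕ → Z → Fin n) (mode : ℕ → Z → Bool)
    (W : ℕ → Matrix Z Z ℂ) (hW : ∀ s, W s ∈ Matrix.unitaryGroup Z ℂ)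
    (φ₀ : Z → ℂ) (hφ₀ : ∑ z, ‖φ₀ z‖ ^ 2 = 1) (acc : Z → Bool)
    (hacc : ∀ x, 2 / 3 ≤ ∑ z, if acc z = F x then ‖run idx mode W φ₀ x q z‖ ^ 2 else 0) :
    QuantumComputes F q := by
  classical
  let e : Z ≃ Fin (Fintype.card Z) := Fintype.equivFin Z
  let i₀ : Fin n := ⟨0, hn⟩
  let j : Z → QIdx n (Fintype.card Z) := fun z => (i₀, false, e z)
  have hj : Function.Injective j := by
    intro a b hab
    simp only [j, Prod.mk.injEq, true_and] at hab
    exact e.injective hab
  let fr : ℕ → Z → QIdx n (Fintype.card Z) → ℂ := fun s z => frame e (idx s) (mode s) z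
  have hex : ∀ s, ∃ M : Matrix (QIdx n (Fintype.card Z)) (QIdx n (Fintype.card Z)) ℂ,
      M ∈ Matrix.unitaryGroup _ ℂ ∧
      ∀ z, M.mulVec (fr (s - 1) z) = fun p => ∑ z', W s z' z * fr s z' p := by
    intro s
    obtain ⟨M, hM, hM'⟩ := exists_unitary_ext j hj
      (fun z => (WithLp.toLp 2 (frame e (idx (s - 1)) (mode (s - 1)) z)))
      (fun z => ∑ z', W s z' z • (WithLp.toLp 2 (frame e (idx s) (mode s) z')))
      (frame_orthonormal _ _ _) (orthonormal_combo _ (frame_orthonormal _ _ _) _ (hW s))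
    refine ⟨M, hM, fun z => ?_⟩
    have := hM' z
    simp only at this
    rw [show fr (s - 1) z = frame e (idx (s - 1)) (mode (s - 1)) z from rfl, this]
    funext p
    simp [fr]
  choose U hU hU' using hex
  -- the start vector
  let ψ₀ : QIdx n (Fintype.card Z) → ℂ := fun p => ∑ z, φ₀ z * fr 0 z p
  have hmain : ∀ x s, stateAfter U x ψ₀ s = fun p => ∑ z, run idx mode W φ₀ x s z * fr s z p := by
    intro x s
    induction s with
    | zero =>
      have h0 : ∀ z, (U 0).mulVec (fr 0 z) = fun p => ∑ z', W 0 z' z * fr 0 z' p := hU' 0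
      simp only [stateAfter, run]
      rw [show ψ₀ = fun p => ∑ z, φ₀ z * fr 0 z p from rfl, mulVec_combo]
      simp_rw [h0]
      exact combo_step (W 0) φ₀ (fr 0)
    | succ s ih =>
      have h3 : ∀ z, (U (s + 1)).mulVec (fr s z) = fun p => ∑ z', W (s + 1) z' z * fr (s + 1) z' p :=
        hU' (s + 1)
      simp only [stateAfter, ih]
      rw [oracle_combo]
      have h1 : ∀ z, oracle x (fr s z) = fun p => phase x (idx s z) (mode s z) * fr s z p := by
        intro z; exact oracle_frame _ _ _ x z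
      simp_rw [h1]
      have h2 : (fun p => ∑ z, run idx mode W φ₀ x s z * (phase x (idx s z) (mode s z) * fr s z p))
          = fun p => ∑ z, (phase x (idx s z) (mode s z) * run idx mode W φ₀ x s z) * fr s z p := by
        funext p
        refine Finset.sum_congr rfl fun z _ => ?_
        ring
      rw [h2, mulVec_combo]
      simp_rw [h3]
      exact combo_step (W (s + 1)) _ (fr (s + 1))
  refine ⟨Fintype.card Z, U, ψ₀, fun p => acc (e.symm p.2.2), hU, ?_, ?_⟩
  · have := combo_prob e (idx 0) (mode 0) φ₀ (fun _ => 1)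
    simp only [one_mul] at this
    rw [hφ₀] at this
    exact this
  · intro x
    refine (hacc x).trans (le_of_eq ?_)
    have := combo_prob e (idx q) (mode q) (run idx mode W φ₀ x q)
      (fun z => if acc z = F x then 1 else 0)
    simp only [ite_mul, one_mul, zero_mul] at this
    rw [← this, hmain x q]

end Sim

section Norm

variable {I : Type*} [Fintype I]

/-- The squared norm of a vector. -/
noncomputable def nsq (v : I → ℂ) : ℝ := ∑ i, ‖v i‖ ^ 2

lemma star_dot_self (v : I → ℂ) : star v ⬝ᵥ v = ((nsq v : ℝ) : ℂ) := by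
  simp only [nsq, dotProduct, Pi.star_apply, Complex.star_def, Complex.conj_mul']
  push_cast
  rfl

variable [DecidableEq I]

lemma ip_mulVec {M : Matrix I I ℂ} (hM : M ∈ Matrix.unitaryGroup I ℂ) (v w : I → ℂ) :
    star (M.mulVec v) ⬝ᵥ (M.mulVec w) = star v ⬝ᵥ w := by
  rw [Matrix.star_mulVec, Matrix.dotProduct_mulVec, Matrix.vecMul_vecMul]
  have : M.conjTranspose * M = 1 := by
    have := Matrix.mem_unitaryGroup_iff'.mp hM
    simpa [Matrix.star_eq_conjTranspose] using this
  rw [this, Matrix.vecMul_one]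

lemma nsq_mulVec {M : Matrix I I ℂ} (hM : M ∈ Matrix.unitaryGroup I ℂ) (v : I → ℂ) :
    nsq (M.mulVec v) = nsq v := by
  have := ip_mulVec hM v v
  rw [star_dot_self, star_dot_self] at this
  exact_mod_cast this

omit [DecidableEq I] in
lemma nsq_nonneg (v : I → ℂ) : 0 ≤ nsq v := Finset.sum_nonneg fun _ _ => by positivity

omit [DecidableEq I] in
/-- Cauchy-Schwarz in the `star v ⬝ᵥ w` form. -/
lemma norm_ip_sq_le (v w : I → ℂ) : ‖star v ⬝ᵥ w‖ ^ 2 ≤ nsq v * nsq w := by
  have h1 : ‖star v ⬝ᵥ w‖ ≤ ∑ i, ‖v i‖ * ‖w i‖ := by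
    simp only [dotProduct]
    refine (norm_sum_le _ _).trans (le_of_eq ?_)
    refine Finset.sum_congr rfl fun i _ => ?_
    simp
  have h2 := Finset.sum_mul_sq_le_sq_mul_sq Finset.univ (fun i => ‖v i‖) (fun i => ‖w i‖)
  refine le_trans ?_ h2
  exact pow_le_pow_left₀ (norm_nonneg _) h1 2

omit [DecidableEq I] in
lemma nsq_smul (c : ℂ) (v : I → ℂ) : nsq (c • v) = ‖c‖ ^ 2 * nsq v := by
  simp [nsq, Finset.mul_sum, mul_pow]

omit [DecidableEq I] in
lemma nsq_sub_le (v w : I → ℂ) : nsq (v - w) ≤ 2 * nsq v + 2 * nsq w := by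
  simp only [nsq, Finset.mul_sum, ← Finset.sum_add_distrib]
  refine Finset.sum_le_sum fun i _ => ?_
  have := norm_sub_le (v i) (w i)
  have h2 : ‖(v - w) i‖ ≤ ‖v i‖ + ‖w i‖ := this
  have h3 := pow_le_pow_left₀ (norm_nonneg _) h2 2
  nlinarith [sq_nonneg (‖v i‖ - ‖w i‖)]

end Norm

section Average

variable {I : Type*} [Fintype I] [DecidableEq I]

/-- The average of the orbit of `δ` under `U`. -/
noncomputable def avg (U : Matrix I I ℂ) (δ : I → ℂ) (K : ℕ) : I → ℂ :=
  ((K : ℂ)⁻¹) • ∑ t ∈ Finset.range K, (U ^ t).mulVec δ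

/-- A fixed vector with overlap 1 with the start vector forces a large average. -/
lemma avg_large {U : Matrix I I ℂ} (hU : U ∈ Matrix.unitaryGroup I ℂ) (δ w : I → ℂ) (K : ℕ)
    (hK : 0 < K) (hfix : U.mulVec w = w) (hip : star w ⬝ᵥ δ = 1) (hw : nsq w ≤ 3 / 2) :
    2 / 3 ≤ nsq (avg U δ K) := by
  have hpow : ∀ t : ℕ, (U ^ t).mulVec w = w := by
    intro t
    induction t with
    | zero => simp
    | succ t ih => rw [pow_succ, ← Matrix.mulVec_mulVec, hfix, ih]
  have h1 : ∀ t : ℕ, star w ⬝ᵥ (U ^ t).mulVec δ = 1 := by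
    intro t
    have := ip_mulVec (pow_mem hU t) w δ
    rw [hpow t, hip] at this
    exact this
  have h2 : star w ⬝ᵥ avg U δ K = 1 := by
    unfold avg
    rw [dotProduct_smul, dotProduct_sum]
    simp only [h1, smul_eq_mul]
    have : (K : ℂ) ≠ 0 := by exact_mod_cast hK.ne'
    simp [this]
  have h3 := norm_ip_sq_le w (avg U δ K)
  rw [h2] at h3
  simp only [norm_one, one_pow] at h3
  have h4 := nsq_nonneg (avg U δ K)
  have h5 := nsq_nonneg w
  nlinarith

/-- If `Ψ - UΨ = 2 δ` then the average is small. -/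
lemma avg_small {U : Matrix I I ℂ} (hU : U ∈ Matrix.unitaryGroup I ℂ) (δ Ψ : I → ℂ) (K : ℕ)
    (hK : 0 < K) (hΨ : Ψ - U.mulVec Ψ = (2 : ℂ) • δ) :
    nsq (avg U δ K) ≤ nsq Ψ / (K : ℝ) ^ 2 := by
  have htel : ∀ K : ℕ, (2 : ℂ) • ∑ t ∈ Finset.range K, (U ^ t).mulVec δ = Ψ - (U ^ K).mulVec Ψ := by
    intro K
    induction K with
    | zero => simp
    | succ K ih =>
      rw [Finset.sum_range_succ, smul_add, ih, ← Matrix.mulVec_smul, ← hΨ, Matrix.mulVec_sub,
        Matrix.mulVec_mulVec, pow_succ]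
      abel
  have hd : avg U δ K = ((K : ℂ)⁻¹ * (2 : ℂ)⁻¹) • (Ψ - (U ^ K).mulVec Ψ) := by
    rw [← htel K, smul_smul]
    unfold avg
    rw [mul_assoc, inv_mul_cancel₀ (by norm_num), mul_one]
  rw [hd, nsq_smul]
  have h6 := nsq_sub_le Ψ ((U ^ K).mulVec Ψ)
  rw [nsq_mulVec (pow_mem hU K)] at h6
  have hK' : (0 : ℝ) < K := by exact_mod_cast hK
  have : ‖((K : ℂ)⁻¹ * (2 : ℂ)⁻¹)‖ ^ 2 = ((K : ℝ) ^ 2)⁻¹ * (1 / 4) := by
    rw [norm_mul, norm_inv, norm_inv, mul_pow, inv_pow, inv_pow]
    simp
    norm_num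
  rw [this]
  have h7 : 0 < ((K : ℝ) ^ 2)⁻¹ := by positivity
  have h8 : ((K : ℝ) ^ 2)⁻¹ * (1 / 4) * nsq (Ψ - (U ^ K).mulVec Ψ) ≤
      ((K : ℝ) ^ 2)⁻¹ * (1 / 4) * (2 * nsq Ψ + 2 * nsq Ψ) :=
    mul_le_mul_of_nonneg_left h6 (by positivity)
  refine h8.trans (le_of_eq ?_)
  rw [div_eq_inv_mul]
  ring

end Average

section Iterate

variable {n : ℕ} {E : Type*} [Fintype E] [DecidableEq E]

/-- Final unitary in `sim`. -/
theorem sim_final {Z : Type*} [Fintype Z] [DecidableEq Z]
    (hn : 0 < n) (F : (Fin n → Bool) → Bool) (q : ℕ)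
    (idx : ℕ → Z → Fin n) (mode : ℕ → Z → Bool)
    (W : ℕ → Matrix Z Z ℂ) (hW : ∀ s, W s ∈ Matrix.unitaryGroup Z ℂ)
    (Wf : Matrix Z Z ℂ) (hWf : Wf ∈ Matrix.unitaryGroup Z ℂ)
    (φ₀ : Z → ℂ) (hφ₀ : ∑ z, ‖φ₀ z‖ ^ 2 = 1) (acc : Z → Bool)
    (hacc : ∀ x, 2 / 3 ≤ ∑ z, if acc z = F x then ‖Wf.mulVec (run idx mode W φ₀ x q) z‖ ^ 2 else 0) :
    QuantumComputes F q := by
  classical
  let W' : ℕ → Matrix Z Z ℂ := fun s => if s = q then Wf * W s else W s
  have hW' : ∀ s, W' s ∈ Matrix.unitaryGroup Z ℂ := by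
    intro s
    simp only [W']
    split_ifs
    · exact mul_mem hWf (hW s)
    · exact hW s
  have hlow : ∀ x s, s < q → run idx mode W' φ₀ x s = run idx mode W φ₀ x s := by
    intro x s
    induction s with
    | zero =>
      intro h
      simp only [run, W', if_neg h.ne]
    | succ s ih =>
      intro h
      simp only [run, W', if_neg h.ne]
      rw [ih (by omega)]
  have htop : ∀ x, run idx mode W' φ₀ x q = Wf.mulVec (run idx mode W φ₀ x q) := by
    intro x
    cases q with
    | zero => simp [run, W', Matrix.mulVec_mulVec]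
    | succ q =>
      have := hlow x q (by omega)
      simp only [run, W', if_true, this, Matrix.mulVec_mulVec]
  refine sim hn F q idx mode W' hW' φ₀ hφ₀ acc fun x => ?_
  rw [htop x]
  exact hacc x

/-- The diagonal query on `E`. -/
noncomputable def qdiag (idxE : E → Fin n) (modeE : E → Bool) (x : Fin n → Bool) : Matrix E E ℂ :=
  Matrix.diagonal (fun e => phase x (idxE e) (modeE e))

/-- The iterate `U = G S_x R`. -/
noncomputable def stepU (idxE : E → Fin n) (modeE : E → Bool) (G R : Matrix E E ℂ)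
    (x : Fin n → Bool) : Matrix E E ℂ :=
  G * qdiag idxE modeE x * R

lemma qdiag_mem (idxE : E → Fin n) (modeE : E → Bool) (x : Fin n → Bool) :
    qdiag idxE modeE x ∈ Matrix.unitaryGroup E ℂ := by
  rw [Matrix.mem_unitaryGroup_iff']
  simp only [qdiag, Matrix.star_eq_conjTranspose, Matrix.diagonal_conjTranspose,
    Matrix.diagonal_mul_diagonal]
  rw [← Matrix.diagonal_one]
  congr 1
  funext e
  simp only [Pi.star_apply, Complex.star_def]
  rw [Complex.conj_mul', norm_phase]
  simp

lemma stepU_mem (idxE : E → Fin n) (modeE : E → Bool) {G R : Matrix E E ℂ}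
    (hG : G ∈ Matrix.unitaryGroup E ℂ) (hR : R ∈ Matrix.unitaryGroup E ℂ) (x : Fin n → Bool) :
    stepU idxE modeE G R x ∈ Matrix.unitaryGroup E ℂ :=
  mul_mem (mul_mem hG (qdiag_mem _ _ _)) hR

lemma blockDiagonal_mem {T : Type*} [Fintype T] [DecidableEq T] (B : T → Matrix E E ℂ)
    (hB : ∀ t, B t ∈ Matrix.unitaryGroup E ℂ) :
    Matrix.blockDiagonal B ∈ Matrix.unitaryGroup (E × T) ℂ := by
  rw [Matrix.mem_unitaryGroup_iff']
  simp only [Matrix.star_eq_conjTranspose]
  rw [Matrix.blockDiagonal_conjTranspose, ← Matrix.blockDiagonal_mul]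
  have : (fun t => (B t).conjTranspose * B t) = fun _ => (1 : Matrix E E ℂ) := by
    funext t
    have := Matrix.mem_unitaryGroup_iff'.mp (hB t)
    simpa [Matrix.star_eq_conjTranspose] using this
  simp only [Pi.star_def, Matrix.star_eq_conjTranspose, this]
  exact Matrix.blockDiagonal_one

lemma blockDiagonal_mulVec {T : Type*} [Fintype T] [DecidableEq T] (B : T → Matrix E E ℂ)
    (v : E × T → ℂ) (t : T) (e : E) :
    (Matrix.blockDiagonal B).mulVec v (e, t) = (B t).mulVec (fun e' => v (e', t)) e := by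
  simp only [Matrix.mulVec, dotProduct, Fintype.sum_prod_type, Matrix.blockDiagonal_apply]
  rw [Finset.sum_comm, Finset.sum_eq_single t]
  · simp
  · intro t' _ ht'
    refine Finset.sum_eq_zero fun e' _ => ?_
    simp [ht'.symm]
  · simp

lemma kron_mulVec {T : Type*} [Fintype T] [DecidableEq T] (H : Matrix T T ℂ)
    (v : E × T → ℂ) (e : E) (t' : T) :
    ((1 : Matrix E E ℂ) ⊗ₖ H).mulVec v (e, t') = ∑ t, H t' t * v (e, t) := by
  simp only [Matrix.mulVec, dotProduct, Fintype.sum_prod_type, Matrix.kroneckerMap_apply]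
  rw [Finset.sum_eq_single e]
  · simp
  · intro e' _ he'
    refine Finset.sum_eq_zero fun t _ => ?_
    simp [Matrix.one_apply, he'.symm]
  · simp

/-- A unitary whose row 0 is uniform. -/
lemma exists_hadamard (q : ℕ) : ∃ H : Matrix (Fin (q + 1)) (Fin (q + 1)) ℂ,
    H ∈ Matrix.unitaryGroup _ ℂ ∧ ∀ t, H 0 t = (((Real.sqrt (q + 1))⁻¹ : ℝ) : ℂ) := by
  classical
  set c : ℝ := (Real.sqrt (q + 1))⁻¹ with hc
  have hcc : c * c * (q + 1) = 1 := by
    have h : Real.sqrt (q + 1) * Real.sqrt (q + 1) = q + 1 :=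
      Real.mul_self_sqrt (by positivity)
    have hpos : 0 < Real.sqrt (q + 1) := Real.sqrt_pos.mpr (by positivity)
    rw [hc]
    field_simp
    nlinarith
  let u : Fin (q + 1) → ℂ := fun _ => (c : ℂ)
  let d : Fin (q + 1) → ℂ := Pi.single 0 1
  obtain ⟨M, hM, hM'⟩ := exists_unitary_ext (I := Fin (q + 1)) (Z := Unit) (fun _ => 0)
    (fun _ _ _ => rfl) (fun _ => WithLp.toLp 2 u) (fun _ => WithLp.toLp 2 d)
    (by
      rw [orthonormal_iff_ite]
      rintro ⟨⟩ ⟨⟩
      simp only [if_true, PiLp.inner_apply, u, RCLike.inner_apply, Complex.conj_ofReal,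
        Finset.sum_const, Finset.card_univ, Fintype.card_fin, nsmul_eq_mul]
      push_cast
      have : ((c : ℂ) * c * (q + 1)) = 1 := by exact_mod_cast hcc
      linear_combination this)
    (by
      rw [orthonormal_iff_ite]
      rintro ⟨⟩ ⟨⟩
      simp only [if_true, PiLp.inner_apply, d, RCLike.inner_apply]
      rw [Finset.sum_eq_single 0]
      · simp
      · intro b _ hb; simp [Pi.single_apply, hb]
      · simp)
  refine ⟨M, hM, fun t => ?_⟩
  have h1 : M.mulVec u = d := hM' ()
  have h2 : M.conjTranspose.mulVec d = u := by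
    rw [← h1, Matrix.mulVec_mulVec]
    have := Matrix.mem_unitaryGroup_iff'.mp hM
    have h3 : M.conjTranspose * M = 1 := by simpa [Matrix.star_eq_conjTranspose] using this
    rw [h3, Matrix.one_mulVec]
  have h3 := congrFun h2 t
  simp only [d, Matrix.mulVec_single_one, u, Matrix.col_apply, Matrix.conjTranspose_apply] at h3
  have h4 := congrArg star h3
  simpa using h4

variable {q : ℕ}

/-- **The time register algorithm.** -/
theorem iterate (hn : 0 < n) (F : (Fin n → Bool) → Bool) (q : ℕ)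
    (idxE : E → Fin n) (modeE : E → Bool) (G R : Matrix E E ℂ)
    (hG : G ∈ Matrix.unitaryGroup E ℂ) (hR : R ∈ Matrix.unitaryGroup E ℂ) (δ : E → ℂ)
    (hδ : nsq δ = 1)
    (h1 : ∀ x, F x = true → 2 / 3 ≤ nsq (avg (stepU idxE modeE G R x) δ (q + 1)))
    (h0 : ∀ x, F x = false → nsq (avg (stepU idxE modeE G R x) δ (q + 1)) ≤ 1 / 3) :
    QuantumComputes F q := by
  classical
  obtain ⟨H, hH, hH0⟩ := exists_hadamard q
  set c : ℝ := (Real.sqrt (q + 1))⁻¹ with hc
  have hcc : c * c * (q + 1) = 1 := by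
    have h : Real.sqrt (q + 1) * Real.sqrt (q + 1) = q + 1 :=
      Real.mul_self_sqrt (by positivity)
    have hpos : 0 < Real.sqrt (q + 1) := Real.sqrt_pos.mpr (by positivity)
    rw [hc]
    field_simp
    nlinarith
  let T := Fin (q + 1)
  let Z := E × T
  let idx : ℕ → Z → Fin n := fun _ z => idxE z.1
  let mode : ℕ → Z → Bool := fun s z => decide (s < z.2.val) && modeE z.1
  let B : ℕ → T → Matrix E E ℂ := fun s t =>
    (if s < t.val then R else 1) * (if 0 < s ∧ s - 1 < t.val then G else 1)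
  have hB : ∀ s t, B s t ∈ Matrix.unitaryGroup E ℂ := by
    intro s t
    refine mul_mem ?_ ?_
    · split_ifs
      · exact hR
      · exact one_mem _
    · split_ifs
      · exact hG
      · exact one_mem _
  let W : ℕ → Matrix Z Z ℂ := fun s => Matrix.blockDiagonal (B s)
  have hW : ∀ s, W s ∈ Matrix.unitaryGroup Z ℂ := fun s => blockDiagonal_mem _ (hB s)
  let Wf : Matrix Z Z ℂ := (1 : Matrix E E ℂ) ⊗ₖ H
  have hWf : Wf ∈ Matrix.unitaryGroup Z ℂ := by
    rw [Matrix.mem_unitaryGroup_iff']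
    simp only [Wf, Matrix.star_eq_conjTranspose]
    rw [Matrix.conjTranspose_kronecker, ← Matrix.mul_kronecker_mul]
    have h3 : H.conjTranspose * H = 1 := by
      simpa [Matrix.star_eq_conjTranspose] using Matrix.mem_unitaryGroup_iff'.mp hH
    rw [h3]
    simp
  let φ₀ : Z → ℂ := fun z => (c : ℂ) * δ z.1
  have hφ₀ : ∑ z, ‖φ₀ z‖ ^ 2 = 1 := by
    rw [Fintype.sum_prod_type_right]
    have h2 : ∀ t : T, ∑ e, ‖φ₀ (e, t)‖ ^ 2 = c * c := by
      intro t
      simp only [φ₀, norm_mul, mul_pow, Complex.norm_real, Real.norm_eq_abs, sq_abs,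
        ← Finset.mul_sum]
      have : ∑ e, ‖δ e‖ ^ 2 = 1 := hδ
      rw [this]; ring
    simp_rw [h2]
    simp only [Finset.sum_const, Finset.card_univ, T, Fintype.card_fin, nsmul_eq_mul]
    push_cast
    linarith
  -- the slices of the run
  have hslice : ∀ x s (t : T), (fun e => run idx mode W φ₀ x s (e, t)) =
      (c : ℂ) • (if s < t.val then R.mulVec ((stepU idxE modeE G R x ^ s).mulVec δ)
        else (stepU idxE modeE G R x ^ t.val).mulVec δ) := by
    intro x s t
    induction s with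
    | zero =>
      funext e
      simp only [run, W]
      rw [blockDiagonal_mulVec]
      have : (fun e' => φ₀ (e', t)) = (c : ℂ) • δ := rfl
      rw [this]
      by_cases ht : 0 < t.val
      · simp [B, ht, Matrix.mulVec_smul]
      · have ht0 : t.val = 0 := by omega
        simp [B, ht0, Matrix.mulVec_smul]
    | succ s ih =>
      funext e
      simp only [run, W]
      rw [blockDiagonal_mulVec]
      set U := stepU idxE modeE G R x with hU
      set Q := qdiag idxE modeE x with hQ
      have hUv : ∀ v, U.mulVec v = G.mulVec (Q.mulVec (R.mulVec v)) := by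
        intro v
        rw [Matrix.mulVec_mulVec, Matrix.mulVec_mulVec, hU, stepU]
      have hrun : (fun e' => run idx mode W φ₀ x s (e', t)) = _ := ih
      by_cases hs : s < t.val
      · have h4 : (fun e' => phase x (idx s (e', t)) (mode s (e', t)) *
            run idx mode W φ₀ x s (e', t)) =
            (c : ℂ) • Q.mulVec (R.mulVec ((U ^ s).mulVec δ)) := by
          funext e'
          have h5 := congrFun hrun e'
          simp only [if_pos hs] at h5
          rw [h5]
          simp only [Pi.smul_apply, smul_eq_mul, hQ, qdiag, Matrix.mulVec_diagonal]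
          simp only [idx, mode, decide_eq_true hs, Bool.true_and]
          ring
        rw [h4]
        have h6 : G.mulVec (Q.mulVec (R.mulVec ((U ^ s).mulVec δ))) = (U ^ (s + 1)).mulVec δ := by
          rw [pow_succ', ← Matrix.mulVec_mulVec, hUv]
        have hB' : B (s + 1) t = (if s + 1 < t.val then R else 1) * G := by
          simp only [B, Nat.succ_pos', true_and, Nat.add_sub_cancel, if_pos hs]
        rw [hB', ← Matrix.mulVec_mulVec, Matrix.mulVec_smul, Matrix.mulVec_smul, h6]
        by_cases hs' : s + 1 < t.val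
        · simp only [if_pos hs']
        · have ht : t.val = s + 1 := by omega
          rw [if_neg hs', if_neg hs', Matrix.one_mulVec, ht]
      · have hs2 : ¬ s + 1 < t.val := by omega
        have h4 : (fun e' => phase x (idx s (e', t)) (mode s (e', t)) *
            run idx mode W φ₀ x s (e', t)) = (c : ℂ) • (U ^ t.val).mulVec δ := by
          funext e'
          have h5 := congrFun hrun e'
          simp only [if_neg hs] at h5
          rw [h5]
          simp [mode, hs, phase]
        rw [h4]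
        have hs3 : ¬ s < t.val := hs
        simp [B, hs3, hs2, Matrix.mulVec_smul]
  refine sim_final hn F q idx mode W hW Wf hWf φ₀ hφ₀ (fun z => decide (z.2 = 0)) fun x => ?_
  set U := stepU idxE modeE G R x with hU
  have hUmem : U ∈ Matrix.unitaryGroup E ℂ := stepU_mem _ _ hG hR x
  set v := run idx mode W φ₀ x q with hv
  have hv' : ∀ e (t : T), v (e, t) = c * (U ^ t.val).mulVec δ e := by
    intro e t
    have h5 := congrFun (hslice x q t) e
    have : ¬ q < t.val := by have := t.isLt; omega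
    simp only [if_neg this] at h5
    exact h5
  have hWfv : ∀ e t', Wf.mulVec v (e, t') = ∑ t, H t' t * v (e, t) := by
    intro e t'
    exact kron_mulVec H v e t'
  have h0row : ∀ e, Wf.mulVec v (e, 0) = avg U δ (q + 1) e := by
    intro e
    rw [hWfv]
    simp only [hH0, hv', avg, Pi.smul_apply, Finset.sum_apply, smul_eq_mul]
    rw [Finset.mul_sum, Fin.sum_univ_eq_sum_range
      (fun t => ((c : ℂ)) * (c * (U ^ t).mulVec δ e)) (q + 1)]
    refine Finset.sum_congr rfl fun t _ => ?_
    have hq : ((q : ℂ) + 1) ≠ 0 := by exact_mod_cast (Nat.succ_ne_zero q)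
    have : ((c : ℂ) * c) = ((q + 1 : ℕ) : ℂ)⁻¹ := by
      push_cast
      have : ((c : ℂ) * c * (q + 1)) = 1 := by exact_mod_cast hcc
      field_simp
      linear_combination this
    rw [← mul_assoc, this]
  have htotal : nsq (Wf.mulVec v) = 1 := by
    rw [nsq_mulVec hWf]
    unfold nsq
    rw [Fintype.sum_prod_type_right]
    have h2 : ∀ t : T, ∑ e, ‖v (e, t)‖ ^ 2 = c * c := by
      intro t
      simp only [hv', norm_mul, mul_pow, Complex.norm_real, Real.norm_eq_abs, sq_abs,
        ← Finset.mul_sum]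
      have : ∑ e, ‖(U ^ t.val).mulVec δ e‖ ^ 2 = 1 := by
        have := nsq_mulVec (pow_mem hUmem t.val) δ
        rw [hδ] at this
        exact this
      rw [this]; ring
    simp_rw [h2]
    simp only [Finset.sum_const, Finset.card_univ, T, Fintype.card_fin, nsmul_eq_mul]
    push_cast
    linarith
  have hone : (∑ z : Z, if decide (z.2 = 0) = true then ‖Wf.mulVec v z‖ ^ 2 else 0)
      = nsq (avg U δ (q + 1)) := by
    rw [Fintype.sum_prod_type]
    unfold nsq
    refine Finset.sum_congr rfl fun e _ => ?_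
    rw [Finset.sum_eq_single (0 : T)]
    · simp [h0row]
    · intro t _ ht
      simp [ht]
    · simp
  have hsplit : (∑ z : Z, if decide (z.2 = 0) = false then ‖Wf.mulVec v z‖ ^ 2 else 0)
      = 1 - nsq (avg U δ (q + 1)) := by
    rw [← htotal, ← hone]
    unfold nsq
    rw [eq_sub_iff_add_eq, ← Finset.sum_add_distrib]
    refine Finset.sum_congr rfl fun z _ => ?_
    by_cases hz : z.2 = 0 <;> simp [hz]
  cases hF : F x with
  | true =>
    rw [hone]
    exact h1 x hF
  | false =>
    rw [hsplit]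
    have := h0 x hF
    linarith

end Iterate

section Adversary

variable {n : ℕ} {D : Type*} [Fintype D] [DecidableEq D]

/-- The diagonal sign `(-1)^c` on the state space `{*} ⊔ (i, c, a)`. -/
def gE : Option (Fin n × Bool × D) → ℂ
  | none => 1
  | some (_, c, _) => sg c

/-- The query index. -/
def idxE (i₀ : Fin n) : Option (Fin n × Bool × D) → Fin n
  | none => i₀
  | some (i, _, _) => i

/-- The query mode: nothing on `*`. -/
def modeE : Option (Fin n × Bool × D) → Bool
  | none => false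
  | some _ => true

/-- `Ψ_y = * + α⁻¹ ∑_i |i, ¬y_i⟩ |v_{y,i}⟩`. -/
noncomputable def psiV (α : ℝ) (v : Fin n → D → ℝ) (y : Fin n → Bool) :
    Option (Fin n × Bool × D) → ℂ
  | none => 1
  | some (i, c, a) => if c = !y i then ((α⁻¹ * v i a : ℝ) : ℂ) else 0

/-- `w_x = * - α ∑_i |i, x_i⟩ |u_{x,i}⟩`. -/
noncomputable def wV (α : ℝ) (u : Fin n → D → ℝ) (x : Fin n → Bool) :
    Option (Fin n × Bool × D) → ℂ
  | none => 1
  | some (i, c, a) => if c = x i then ((-(α * u i a) : ℝ) : ℂ) else 0

lemma inner_psi_w (α : ℝ) (hα : α ≠ 0) (u v : Fin n → D → ℝ) (x y : Fin n → Bool)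
    (h : ∑ i, (if x i ≠ y i then ∑ a, u i a * v i a else 0) = 1) :
    star (psiV α v y) ⬝ᵥ wV α u x = 0 := by
  simp only [dotProduct, Fintype.sum_option, Fintype.sum_prod_type, Pi.star_apply, psiV, wV,
    star_one, mul_one]
  have hi : ∀ i, ∑ c : Bool, ∑ a, star (if c = !y i then ((α⁻¹ * v i a : ℝ) : ℂ) else 0) *
      (if c = x i then ((-(α * u i a) : ℝ) : ℂ) else 0) =
      (((if x i ≠ y i then -∑ a, u i a * v i a else 0) : ℝ) : ℂ) := by
    intro i
    have hα' : (α : ℂ) ≠ 0 := by exact_mod_cast hα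
    have hterm : ∀ a, ((α⁻¹ * v i a : ℝ) : ℂ) * ((-(α * u i a) : ℝ) : ℂ) =
        ((-(u i a * v i a) : ℝ) : ℂ) := by
      intro a
      push_cast
      field_simp
    cases hx : x i <;> cases hy : y i <;>
      simp [Fintype.sum_bool, Complex.conj_ofReal, hterm, Finset.sum_neg_distrib] <;>
      (refine Finset.sum_congr rfl fun a _ => ?_; field_simp)
  simp_rw [hi]
  have h2 : (∑ i, (((if x i ≠ y i then -∑ a, u i a * v i a else 0) : ℝ) : ℂ)) = -1 := by
    rw [← Complex.ofReal_sum]
    have : (∑ i, (if x i ≠ y i then -∑ a, u i a * v i a else 0)) = (-1 : ℝ) := by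
      rw [← h, ← Finset.sum_neg_distrib]
      refine Finset.sum_congr rfl fun i _ => ?_
      split_ifs <;> simp
    rw [this]; simp
  rw [h2]; simp

lemma nsq_psi (α : ℝ) (v : Fin n → D → ℝ) (y : Fin n → Bool) :
    nsq (psiV α v y) = 1 + (α⁻¹) ^ 2 * ∑ i, ∑ a, (v i a) ^ 2 := by
  simp only [nsq, Fintype.sum_option, Fintype.sum_prod_type, psiV]
  have hi : ∀ i, ∑ c : Bool, ∑ a, ‖(if c = !y i then ((α⁻¹ * v i a : ℝ) : ℂ) else 0)‖ ^ 2
      = (α⁻¹) ^ 2 * ∑ a, (v i a) ^ 2 := by
    intro i
    rw [Finset.mul_sum]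
    cases hy : y i <;>
      simp [Fintype.sum_bool, Complex.norm_real, mul_pow, sq_abs]
  simp_rw [hi]
  simp [Finset.mul_sum]

lemma nsq_w (α : ℝ) (u : Fin n → D → ℝ) (x : Fin n → Bool) :
    nsq (wV α u x) = 1 + α ^ 2 * ∑ i, ∑ a, (u i a) ^ 2 := by
  simp only [nsq, Fintype.sum_option, Fintype.sum_prod_type, wV]
  have hi : ∀ i, ∑ c : Bool, ∑ a, ‖(if c = x i then ((-(α * u i a) : ℝ) : ℂ) else 0)‖ ^ 2
      = α ^ 2 * ∑ a, (u i a) ^ 2 := by
    intro i
    rw [Finset.mul_sum]
    cases hy : x i <;>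
      simp [Fintype.sum_bool, Complex.norm_real, mul_pow, sq_abs, Complex.ofReal_neg]
  simp_rw [hi]
  simp [Finset.mul_sum]

/-- `G S_x` fixes `w_x`. -/
lemma gs_w (i₀ : Fin n) (α : ℝ) (u : Fin n → D → ℝ) (x : Fin n → Bool) :
    (Matrix.diagonal (gE (n := n) (D := D)) * qdiag (idxE i₀) modeE x).mulVec (wV α u x)
      = wV α u x := by
  rw [← Matrix.mulVec_mulVec]
  funext e
  simp only [qdiag, Matrix.mulVec_diagonal]
  cases e with
  | none => simp [gE, phase, modeE, wV]
  | some p =>
    obtain ⟨i, c, a⟩ := p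
    simp only [gE, phase, modeE, idxE, wV, if_true]
    by_cases hc : c = x i
    · subst hc
      simp only [if_true]
      rw [← mul_assoc, sg_mul_self, one_mul]
    · simp [hc]

/-- `G S_y` on `Ψ_y`. -/
lemma gs_psi (i₀ : Fin n) (α : ℝ) (v : Fin n → D → ℝ) (y : Fin n → Bool) :
    psiV α v y - (Matrix.diagonal (gE (n := n) (D := D)) * qdiag (idxE i₀) modeE y).mulVec
      (-psiV α v y) = (2 : ℂ) • (Pi.single none 1 : Option (Fin n × Bool × D) → ℂ) := by
  rw [← Matrix.mulVec_mulVec]
  funext e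
  simp only [qdiag, Matrix.mulVec_diagonal, Pi.sub_apply, Pi.smul_apply, smul_eq_mul]
  cases e with
  | none =>
    simp [gE, phase, modeE, psiV]
    norm_num
  | some p =>
    obtain ⟨i, c, a⟩ := p
    simp only [gE, phase, modeE, idxE, psiV, if_true, Pi.neg_apply]
    by_cases hc : c = !y i
    · subst hc
      cases hy : y i <;> simp [Pi.single_apply]
    · simp [hc, Pi.single_apply]

lemma gE_diag_mem :
    Matrix.diagonal (gE (n := n) (D := D)) ∈ Matrix.unitaryGroup (Option (Fin n × Bool × D)) ℂ := by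
  rw [Matrix.mem_unitaryGroup_iff']
  simp only [Matrix.star_eq_conjTranspose, Matrix.diagonal_conjTranspose,
    Matrix.diagonal_mul_diagonal]
  rw [← Matrix.diagonal_one]
  congr 1
  funext e
  simp only [Pi.star_apply, Complex.star_def]
  rw [Complex.conj_mul']
  cases e with
  | none => simp [gE]
  | some p =>
    obtain ⟨i, c, a⟩ := p
    simp [gE, norm_sg]

/-- **The dual adversary upper bound.**  If `∑_i [x_i ≠ y_i] ⟨u x i, v y i⟩ = 1` for all
`F x = true`, `F y = false`, with `∑_i ‖u x i‖² ≤ A`, `∑_i ‖v y i‖² ≤ B`, then `F` has a quantum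
algorithm with `q` queries when `3 + 6 A B ≤ (q + 1)²`. -/
theorem adversary (hn : 0 < n) (F : (Fin n → Bool) → Bool)
    (u v : (Fin n → Bool) → Fin n → D → ℝ) (A B : ℝ) (hA : 0 < A)
    (hE : ∀ x y, F x = true → F y = false →
      ∑ i, (if x i ≠ y i then ∑ a, u x i a * v y i a else 0) = 1)
    (hU : ∀ x, F x = true → ∑ i, ∑ a, (u x i a) ^ 2 ≤ A)
    (hV : ∀ y, F y = false → ∑ i, ∑ a, (v y i a) ^ 2 ≤ B)
    (q : ℕ) (hq : 3 + 6 * A * B ≤ ((q : ℝ) + 1) ^ 2) : QuantumComputes F q := by
  classical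
  set α : ℝ := Real.sqrt (1 / (2 * A)) with hαdef
  have hα2 : α ^ 2 = 1 / (2 * A) := Real.sq_sqrt (by positivity)
  have hαpos : 0 < α := Real.sqrt_pos.mpr (by positivity)
  have hαinv : (α⁻¹) ^ 2 = 2 * A := by
    rw [inv_pow, hα2]; field_simp
  let i₀ : Fin n := ⟨0, hn⟩
  let P : Set (Option (Fin n × Bool × D) → ℂ) := {Ψ | ∃ y, F y = false ∧ Ψ = psiV α (v y) y}
  obtain ⟨R, hR, hRneg, hRfix⟩ := exists_reflection P
  let δ : Option (Fin n × Bool × D) → ℂ := Pi.single none 1
  have hδ : nsq δ = 1 := by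
    simp only [nsq, Fintype.sum_option, δ]
    simp
  have hU' : ∀ x, stepU (idxE i₀) modeE (Matrix.diagonal gE) R x ∈
      Matrix.unitaryGroup (Option (Fin n × Bool × D)) ℂ :=
    fun x => stepU_mem _ _ gE_diag_mem hR x
  have hK : 0 < q + 1 := Nat.succ_pos q
  refine iterate hn F q (idxE i₀) modeE (Matrix.diagonal gE) R gE_diag_mem hR δ hδ ?_ ?_
  · intro x hx
    refine avg_large (hU' x) δ (wV α (u x) x) (q + 1) hK ?_ ?_ ?_
    · have hfix : R.mulVec (wV α (u x) x) = wV α (u x) x := by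
        refine hRfix _ ?_
        rintro _ ⟨y, hy, rfl⟩
        exact inner_psi_w α hαpos.ne' _ _ x y (hE x y hx hy)
      rw [stepU, ← Matrix.mulVec_mulVec, hfix, gs_w]
    · simp [δ, wV]
    · rw [nsq_w, hα2]
      have := hU x hx
      have h3 : 1 / (2 * A) * ∑ i, ∑ a, (u x i a) ^ 2 ≤ 1 / (2 * A) * A :=
        mul_le_mul_of_nonneg_left this (by positivity)
      have h4 : 1 / (2 * A) * A = 1 / 2 := by field_simp
      linarith
  · intro y hy
    have hneg : R.mulVec (psiV α (v y) y) = -psiV α (v y) y := hRneg _ ⟨y, hy, rfl⟩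
    have hstep : psiV α (v y) y - (stepU (idxE i₀) modeE (Matrix.diagonal gE) R y).mulVec
        (psiV α (v y) y) = (2 : ℂ) • δ := by
      rw [stepU, ← Matrix.mulVec_mulVec, hneg]
      exact gs_psi i₀ α (v y) y
    have h5 := avg_small (hU' y) δ _ (q + 1) hK hstep
    refine h5.trans ?_
    rw [nsq_psi, hαinv]
    have h6 := hV y hy
    have hK2 : (0 : ℝ) < ((q : ℝ) + 1) ^ 2 := by positivity
    push_cast
    rw [div_le_iff₀ hK2]
    have h7 : 2 * A * ∑ i, ∑ a, (v y i a) ^ 2 ≤ 2 * A * B :=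
      mul_le_mul_of_nonneg_left h6 (by positivity)
    linarith

end Adversary

end Crest.Agent.QuartSep.Adv

namespace Crest.Agent.QuartSep

open Finset BigOperators Crest.MathPhysics.Query

/-- **Adversary theorem.** A feasible dual-adversary solution with norm bounds `A`, `B` gives a
quantum algorithm with any `q` queries with `q² ≥ 3 + 6AB`. See blueprint 2a.
(`0 < n` is needed: with no input bits the state space of the model is empty.) -/
theorem quantumComputes_of_adversary {n : ℕ} (hn : 0 < n) (F : (Fin n → Bool) → Bool)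
    {D : Type} [Fintype D] (u v : (Fin n → Bool) → Fin n → D → ℝ) (A B : ℝ)
    (hA : 0 < A) (_hB : 0 < B)
    (hpair : ∀ x y, F x = true → F y = false →
      ∑ i, (if x i ≠ y i then ∑ c, u x i c * v y i c else 0) = 1)
    (hu : ∀ x, F x = true → ∑ i, ∑ c, u x i c ^ 2 ≤ A)
    (hv : ∀ y, F y = false → ∑ i, ∑ c, v y i c ^ 2 ≤ B)
    (q : ℕ) (hq : 3 + 6 * A * B ≤ (q : ℝ) ^ 2) :
    QuantumComputes F q := by
  classical
  refine Adv.adversary hn F u v A B hA hpair hu hv q (hq.trans ?_)
  have : (0 : ℝ) ≤ q := Nat.cast_nonneg q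
  nlinarith

/-- The same theorem from a `Rep` over any index type, through a bijection with `Fin n`. -/
theorem quantumComputes_of_rep {I : Type} [Fintype I] [Nonempty I] {n : ℕ} (e : Fin n ≃ I)
    (F : (I → Bool) → Bool) (A B : ℝ) (hA : 0 < A) (hB : 0 < B)
    (h : Rep (fun x => F x = true) (fun y => F y = false) (fun _ _ => 1) (fun _ => A) (fun _ => B))
    (q : ℕ) (hq : 3 + 6 * A * B ≤ (q : ℝ) ^ 2) :
    QuantumComputes (fun x : Fin n → Bool => F (fun i => x (e.symm i))) q := by
  classical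
  obtain ⟨D, instD, u, v, h1, h2, h3⟩ := h
  have hn : 0 < n := by
    have hc : Fintype.card I = n := by rw [← Fintype.card_congr e, Fintype.card_fin]
    rw [← hc]; exact Fintype.card_pos
  let tr : (Fin n → Bool) → I → Bool := fun x i => x (e.symm i)
  have htr : ∀ x i, tr x (e i) = x i := by
    intro x i; simp [tr]
  refine quantumComputes_of_adversary hn _ (fun x i c => u (tr x) (e i) c)
    (fun y i c => v (tr y) (e i) c) A B hA hB ?_ ?_ ?_ q hq
  · intro x y hx hy
    have := h1 (tr x) (tr y) hx hy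
    rw [← Equiv.sum_comp e] at this
    simpa only [htr] using this
  · intro x hx
    have := h2 (tr x) hx
    rw [← Equiv.sum_comp e] at this
    exact this
  · intro y hy
    have := h3 (tr y) hy
    rw [← Equiv.sum_comp e] at this
    exact this

end Crest.Agent.QuartSep
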