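-- Row 350 (S0554): algebra of dual-adversary representations (blueprint 2b, 2c).
import Crest.Agent.Lib.QuartSep.Basic

set_option autoImplicit false

namespace Crest.Agent.QuartSep

open Finset BigOperators

variable {I : Type} [Fintype I]

/-- Monotonicity in the norm bounds and restriction of the domains. -/
theorem Rep.mono {Px Py Px' Py' : (I → Bool) → Prop} {E E' : (I → Bool) → (I → Bool) → ℝ}
    {A B A' B' : (I → Bool) → ℝ} (h : Rep Px Py E A B)
    (hx : ∀ x, Px' x → Px x) (hy : ∀ y, Py' y → Py y)
    (hE : ∀ x y, Px' x → Py' y → E x y = E' x y)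
    (hA : ∀ x, Px' x → A x ≤ A' x) (hB : ∀ y, Py' y → B y ≤ B' y) :
    Rep Px' Py' E' A' B' := by
  obtain ⟨D, hD, u, v, h1, h2, h3⟩ := h
  refine ⟨D, hD, u, v, fun x y hx' hy' => ?_, fun x hx' => ?_, fun y hy' => ?_⟩
  · rw [h1 x y (hx x hx') (hy y hy'), hE x y hx' hy']
  · exact (h2 x (hx x hx')).trans (hA x hx')
  · exact (h3 y (hy y hy')).trans (hB y hy')

/-- The master lemma: weighted sums with `x`-dependent and `y`-dependent weights. `u x i (c,d) =
r c x * u^c x i d`, `v y i (c,d) = s c y * v^c y i d`. Includes sums, scaling, and selection of a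
member of the family by `x` (take `r c x = if c = c₀ x then 1 else 0`). -/
theorem Rep.sum_scaled {C : Type} [Fintype C] {Px Py : (I → Bool) → Prop}
    {Pxc Pyc : C → (I → Bool) → Prop} {E : C → (I → Bool) → (I → Bool) → ℝ}
    {A B : C → (I → Bool) → ℝ} (r s : C → (I → Bool) → ℝ)
    (hx : ∀ c x, Px x → r c x ≠ 0 → Pxc c x) (hy : ∀ c y, Py y → s c y ≠ 0 → Pyc c y)
    (h : ∀ c, Rep (Pxc c) (Pyc c) (E c) (A c) (B c)) :
    Rep Px Py (fun x y => ∑ c, r c x * s c y * E c x y)
      (fun x => ∑ c, r c x ^ 2 * A c x) (fun y => ∑ c, s c y ^ 2 * B c y) := by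
  classical
  choose D hD u v h1 h2 h3 using h
  refine ⟨Σ c, D c, inferInstance,
    fun x i d => r d.1 x * u d.1 x i d.2, fun y i d => s d.1 y * v d.1 y i d.2, ?_, ?_, ?_⟩
  · intro x y hx' hy'
    have hterm : ∀ c, r c x * s c y * E c x y =
        ∑ i, (if x i ≠ y i then ∑ d, (r c x * u c x i d) * (s c y * v c y i d) else 0) := by
      intro c
      by_cases hr : r c x = 0
      · simp [hr]
      by_cases hs : s c y = 0
      · simp [hs]
      rw [← h1 c x y (hx c x hx' hr) (hy c y hy' hs), mul_sum]
      refine sum_congr rfl fun i _ => ?_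
      split_ifs
      · rw [mul_sum]
        refine sum_congr rfl fun d _ => ?_
        ring
      · simp
    simp_rw [hterm]
    rw [sum_comm]
    refine sum_congr rfl fun i _ => ?_
    by_cases hi : x i ≠ y i
    · simp only [hi, ne_eq, not_false_eq_true, if_true]
      rw [Fintype.sum_sigma]
    · simp only [hi, if_false, sum_const_zero]
  · intro x hx'
    refine le_of_eq_of_le (b := ∑ c, r c x ^ 2 * ∑ i, ∑ d, u c x i d ^ 2) ?_ ?_
    · simp_rw [Fintype.sum_sigma]
      rw [sum_comm]
      refine sum_congr rfl fun c _ => ?_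
      rw [mul_sum]
      refine sum_congr rfl fun i _ => ?_
      rw [mul_sum]
      refine sum_congr rfl fun d _ => ?_
      ring
    · refine sum_le_sum fun c _ => ?_
      by_cases hr : r c x = 0
      · simp [hr]
      · exact mul_le_mul_of_nonneg_left (h2 c x (hx c x hx' hr)) (sq_nonneg _)
  · intro y hy'
    refine le_of_eq_of_le (b := ∑ c, s c y ^ 2 * ∑ i, ∑ d, v c y i d ^ 2) ?_ ?_
    · simp_rw [Fintype.sum_sigma]
      rw [sum_comm]
      refine sum_congr rfl fun c _ => ?_
      rw [mul_sum]
      refine sum_congr rfl fun i _ => ?_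
      rw [mul_sum]
      refine sum_congr rfl fun d _ => ?_
      ring
    · refine sum_le_sum fun c _ => ?_
      by_cases hs : s c y = 0
      · simp [hs]
      · exact mul_le_mul_of_nonneg_left (h3 c y (hy c y hy' hs)) (sq_nonneg _)

/-- Sum of two representations. -/
theorem Rep.add {Px Py : (I → Bool) → Prop} {E₁ E₂ : (I → Bool) → (I → Bool) → ℝ}
    {A₁ A₂ B₁ B₂ : (I → Bool) → ℝ} (h₁ : Rep Px Py E₁ A₁ B₁) (h₂ : Rep Px Py E₂ A₂ B₂) :
    Rep Px Py (fun x y => E₁ x y + E₂ x y) (fun x => A₁ x + A₂ x) (fun y => B₁ y + B₂ y) := by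
  have := Rep.sum_scaled (I := I) (C := Bool) (Px := Px) (Py := Py)
    (Pxc := fun _ => Px) (Pyc := fun _ => Py)
    (E := fun c => if c then E₁ else E₂) (A := fun c => if c then A₁ else A₂)
    (B := fun c => if c then B₁ else B₂) (fun _ _ => 1) (fun _ _ => 1)
    (fun _ _ h _ => h) (fun _ _ h _ => h)
    (fun c => by cases c <;> simpa using by first | exact h₁ | exact h₂)
  refine this.mono (fun _ h => h) (fun _ h => h) ?_ ?_ ?_
  · intro x y _ _
    simp
  · intro x _
    simp
  · intro y _
    simp

/-- Scaling by an `x`-dependent and a `y`-dependent factor. -/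
theorem Rep.scale {Px Py : (I → Bool) → Prop} {E : (I → Bool) → (I → Bool) → ℝ}
    {A B : (I → Bool) → ℝ} (r s : (I → Bool) → ℝ) (h : Rep Px Py E A B) :
    Rep Px Py (fun x y => r x * s y * E x y) (fun x => r x ^ 2 * A x)
      (fun y => s y ^ 2 * B y) := by
  have := Rep.sum_scaled (I := I) (C := Unit) (Px := Px) (Py := Py)
    (Pxc := fun _ => Px) (Pyc := fun _ => Py)
    (E := fun _ => E) (A := fun _ => A)
    (B := fun _ => B) (fun _ => r) (fun _ => s)
    (fun _ _ h _ => h) (fun _ _ h _ => h) (fun _ => h)
  refine this.mono (fun _ h => h) (fun _ h => h) ?_ ?_ ?_ <;> simp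

/-- A decision tree: if `t` accepts `x` and rejects `y` the two paths diverge exactly once, at a
bit where `x` and `y` differ. Coordinates are the nodes of `t`; `u x i` is the indicator of the
nodes on the path of `x` reading `i`. `v y := 0` when `t` accepts `y`.
Proof by induction on `t`: for `read i t₀ t₁`, `u x j = [j = i] e_root ⊕ (u^{t_{x i}} x j)` placed
in the branch `x i`. -/
theorem Rep.of_tree (t : DT I) :
    Rep (fun x => t.eval x = true) (fun _ => True)
      (fun _ y => if t.eval y = false then 1 else 0)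
      (fun _ => (t.depth : ℝ)) (fun y => if t.eval y = false then (t.depth : ℝ) else 0) := by
  classical
  induction t with
  | answer b =>
    refine ⟨Unit, inferInstance, fun _ _ _ => 0, fun _ _ _ => 0, ?_, ?_, ?_⟩
    · intro x y hx _
      simp only [DT.eval] at hx
      subst hx
      simp [DT.eval]
    · intro x _
      simp [DT.depth]
    · intro y _
      simp only [DT.depth]
      split_ifs <;> simp
  | read i t₀ t₁ ih₀ ih₁ =>
    obtain ⟨D₀, hD₀, u₀, v₀, a₀, b₀, c₀⟩ := ih₀
    obtain ⟨D₁, hD₁, u₁, v₁, a₁, b₁, c₁⟩ := ih₁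
    -- coordinates: root, left nodes, right nodes
    let u : (I → Bool) → I → (Unit ⊕ D₀ ⊕ D₁) → ℝ := fun x j d =>
      match d with
      | Sum.inl _ => if j = i then 1 else 0
      | Sum.inr (Sum.inl d₀) => if x i then 0 else u₀ x j d₀
      | Sum.inr (Sum.inr d₁) => if x i then u₁ x j d₁ else 0
    let v : (I → Bool) → I → (Unit ⊕ D₀ ⊕ D₁) → ℝ := fun y j d =>
      match d with
      | Sum.inl _ => if j = i ∧ (DT.read i t₀ t₁).eval y = false then 1 else 0
      | Sum.inr (Sum.inl d₀) => if y i then 0 else v₀ y j d₀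
      | Sum.inr (Sum.inr d₁) => if y i then v₁ y j d₁ else 0
    refine ⟨Unit ⊕ D₀ ⊕ D₁, inferInstance, u, v, ?_, ?_, ?_⟩
    · intro x y hx _
      have hsplit : ∀ j, ∑ d, u x j d * v y j d =
          (if j = i ∧ (DT.read i t₀ t₁).eval y = false then 1 else 0)
          + (if x i ∨ y i then 0 else ∑ d₀, u₀ x j d₀ * v₀ y j d₀)
          + (if x i ∧ y i then ∑ d₁, u₁ x j d₁ * v₁ y j d₁ else 0) := by
        intro j
        rw [Fintype.sum_sum_type, Fintype.sum_sum_type]
        simp only [u, v, Fintype.sum_unique]
        have e1 : (if j = i then (1 : ℝ) else 0) *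
            (if j = i ∧ (DT.read i t₀ t₁).eval y = false then 1 else 0)
            = if j = i ∧ (DT.read i t₀ t₁).eval y = false then 1 else 0 := by
          by_cases hj : j = i <;> simp [hj]
        rw [e1]
        cases hxi : x i <;> cases hyi : y i <;> simp
      simp only [hsplit]
      -- the sum over `j`
      have hE : ∑ j, (if x j ≠ y j then
            ((if j = i ∧ (DT.read i t₀ t₁).eval y = false then (1 : ℝ) else 0)
            + (if x i ∨ y i then 0 else ∑ d₀, u₀ x j d₀ * v₀ y j d₀)
            + (if x i ∧ y i then ∑ d₁, u₁ x j d₁ * v₁ y j d₁ else 0)) else 0)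
          = (if x i ≠ y i ∧ (DT.read i t₀ t₁).eval y = false then 1 else 0)
            + (if x i ∨ y i then 0 else ∑ j, (if x j ≠ y j then ∑ d₀, u₀ x j d₀ * v₀ y j d₀ else 0))
            + (if x i ∧ y i then ∑ j, (if x j ≠ y j then ∑ d₁, u₁ x j d₁ * v₁ y j d₁ else 0) else 0) := by
        have h0 : ∑ j, (if x j ≠ y j then
            (if j = i ∧ (DT.read i t₀ t₁).eval y = false then (1 : ℝ) else 0) else 0)
            = if x i ≠ y i ∧ (DT.read i t₀ t₁).eval y = false then 1 else 0 := by
          rw [Finset.sum_eq_single i]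
          · by_cases h1 : x i ≠ y i <;> by_cases h2 : (DT.read i t₀ t₁).eval y = false <;> simp [h1, h2]
          · intro j _ hj
            simp [hj]
          · simp
        rw [← h0]
        have h1 : (if x i ∨ y i then (0 : ℝ) else
            ∑ j, (if x j ≠ y j then ∑ d₀, u₀ x j d₀ * v₀ y j d₀ else 0))
            = ∑ j, (if x j ≠ y j then
              (if x i ∨ y i then 0 else ∑ d₀, u₀ x j d₀ * v₀ y j d₀) else 0) := by
          by_cases h : x i ∨ y i <;> simp [h]
        have h2 : (if x i ∧ y i then
            ∑ j, (if x j ≠ y j then ∑ d₁, u₁ x j d₁ * v₁ y j d₁ else 0) else (0 : ℝ))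
            = ∑ j, (if x j ≠ y j then
              (if x i ∧ y i then ∑ d₁, u₁ x j d₁ * v₁ y j d₁ else 0) else 0) := by
          by_cases h : x i ∧ y i <;> simp [h]
        rw [h1, h2, ← sum_add_distrib, ← sum_add_distrib]
        refine sum_congr rfl fun j _ => ?_
        by_cases hj : x j ≠ y j <;> simp [hj]
      rw [hE]
      cases hxi : x i <;> cases hyi : y i
      · -- both left
        have hx' : t₀.eval x = true := by simpa [DT.eval, hxi] using hx
        have := a₀ x y hx' trivial
        simp [DT.eval, hyi]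
        simpa using this
      · -- diverge
        by_cases hev : t₁.eval y = false <;> simp [DT.eval, hyi, hev]
      · by_cases hev : t₀.eval y = false <;> simp [DT.eval, hyi, hev]
      · have hx' : t₁.eval x = true := by simpa [DT.eval, hxi] using hx
        have := a₁ x y hx' trivial
        simp [DT.eval, hyi]
        simpa using this
    · intro x hx
      have hsplit : ∀ j, ∑ d, u x j d ^ 2 = (if j = i then 1 else 0)
          + (if x i then 0 else ∑ d₀, u₀ x j d₀ ^ 2)
          + (if x i then ∑ d₁, u₁ x j d₁ ^ 2 else 0) := by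
        intro j
        rw [Fintype.sum_sum_type, Fintype.sum_sum_type]
        simp only [u, Fintype.sum_unique]
        have e1 : (if j = i then (1 : ℝ) else 0) ^ 2 = if j = i then 1 else 0 := by
          by_cases hj : j = i <;> simp [hj]
        rw [e1]
        cases hxi : x i <;> simp
      simp only [hsplit]
      have e : ∑ j, ((if j = i then (1 : ℝ) else 0)
          + (if x i then 0 else ∑ d₀, u₀ x j d₀ ^ 2)
          + (if x i then ∑ d₁, u₁ x j d₁ ^ 2 else 0))
          = 1 + (if x i then ∑ j, ∑ d₁, u₁ x j d₁ ^ 2 else ∑ j, ∑ d₀, u₀ x j d₀ ^ 2) := by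
        rw [sum_add_distrib, sum_add_distrib]
        simp only [sum_ite_eq', mem_univ, if_true]
        cases hxi : x i <;> simp
      rw [e]
      simp only [DT.depth]
      push_cast
      cases hxi : x i
      · have hx' : t₀.eval x = true := by simpa [DT.eval, hxi] using hx
        have := b₀ x hx'
        have h3 : (t₀.depth : ℝ) ≤ max (t₀.depth : ℝ) t₁.depth := le_max_left _ _
        simp only [Bool.false_eq_true, if_false]
        linarith
      · have hx' : t₁.eval x = true := by simpa [DT.eval, hxi] using hx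
        have := b₁ x hx'
        have h3 : (t₁.depth : ℝ) ≤ max (t₀.depth : ℝ) t₁.depth := le_max_right _ _
        simp only [if_true]
        linarith
    · intro y _
      have hsplit : ∀ j, ∑ d, v y j d ^ 2
          = (if j = i ∧ (DT.read i t₀ t₁).eval y = false then 1 else 0)
          + (if y i then 0 else ∑ d₀, v₀ y j d₀ ^ 2)
          + (if y i then ∑ d₁, v₁ y j d₁ ^ 2 else 0) := by
        intro j
        rw [Fintype.sum_sum_type, Fintype.sum_sum_type]
        simp only [v, Fintype.sum_unique]
        have e1 : (if j = i ∧ (DT.read i t₀ t₁).eval y = false then (1 : ℝ) else 0) ^ 2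
            = if j = i ∧ (DT.read i t₀ t₁).eval y = false then 1 else 0 := by
          split_ifs <;> simp
        rw [e1]
        cases hyi : y i <;> simp
      simp only [hsplit]
      have e : ∑ j, ((if j = i ∧ (DT.read i t₀ t₁).eval y = false then (1 : ℝ) else 0)
          + (if y i then 0 else ∑ d₀, v₀ y j d₀ ^ 2)
          + (if y i then ∑ d₁, v₁ y j d₁ ^ 2 else 0))
          = (if (DT.read i t₀ t₁).eval y = false then 1 else 0)
            + (if y i then ∑ j, ∑ d₁, v₁ y j d₁ ^ 2 else ∑ j, ∑ d₀, v₀ y j d₀ ^ 2) := by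
        rw [sum_add_distrib, sum_add_distrib]
        have h0 : ∑ j, (if j = i ∧ (DT.read i t₀ t₁).eval y = false then (1 : ℝ) else 0)
            = if (DT.read i t₀ t₁).eval y = false then 1 else 0 := by
          by_cases h2 : (DT.read i t₀ t₁).eval y = false <;> simp [h2]
        rw [h0]
        cases hyi : y i <;> simp
      rw [e]
      simp only [DT.depth]
      cases hyi : y i
      · have := c₀ y trivial
        have hr : (DT.read i t₀ t₁).eval y = t₀.eval y := by simp [DT.eval, hyi]
        rw [hr]
        simp only [Bool.false_eq_true, if_false]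
        by_cases hev : t₀.eval y = false
        · simp only [hev, if_true] at this ⊢
          push_cast
          have h3 : (t₀.depth : ℝ) ≤ max (t₀.depth : ℝ) t₁.depth := le_max_left _ _
          linarith
        · simp only [hev, if_false] at this ⊢
          simpa using this
      · have := c₁ y trivial
        have hr : (DT.read i t₀ t₁).eval y = t₁.eval y := by simp [DT.eval, hyi]
        rw [hr]
        simp only [if_true]
        by_cases hev : t₁.eval y = false
        · simp only [hev, if_true] at this ⊢
          push_cast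
          have h3 : (t₁.depth : ℝ) ≤ max (t₀.depth : ℝ) t₁.depth := le_max_right _ _
          linarith
        · simp only [hev, if_false] at this ⊢
          simpa using this

end Crest.Agent.QuartSep
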