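-- Row 350 (S0554): the chain state: orthogonality and hybrid (blueprint 2d).
import Crest.Agent.Lib.QuartSep.Rep

set_option autoImplicit false

namespace Crest.Agent.QuartSep

open Finset BigOperators

variable {ν k : ℕ}

theorem sgn_sub (b c : Bool) : sgn b - sgn c = if b ≠ c then 2 * sgn b else 0 := by
  cases b <;> cases c <;> simp [sgn] <;> norm_num

theorem chi_comm (u v : Vec ν) : chi u v = chi v u := by
  unfold chi
  refine Finset.prod_congr rfl fun i _ => ?_
  rw [Bool.and_comm]

theorem hadamard_comm (u v : Vec ν) : hadamard u v = hadamard v u := by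
  unfold hadamard
  rw [chi_comm]

theorem sizeR_pos (ν : ℕ) : 0 < sizeR ν := by
  unfold sizeR; positivity

theorem sqrt_sizeR_mul (ν : ℕ) : Real.sqrt (sizeR ν) * Real.sqrt (sizeR ν) = sizeR ν :=
  Real.mul_self_sqrt (sizeR_pos ν).le

theorem card_vec (ν : ℕ) : Fintype.card (Vec ν) = 2 ^ ν := by
  simp [Vec]

/-- The sum over `Vec ν` of a product of functions of the coordinates. -/
theorem sum_vec_prod (f : Fin ν → Bool → ℝ) :
    ∑ w : Vec ν, ∏ i, f i (w i) = ∏ i, (f i false + f i true) := by
  have h := (Finset.prod_univ_sum (fun _ : Fin ν => (Finset.univ : Finset Bool)) f).symm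
  rw [Fintype.piFinset_univ] at h
  rw [h]
  refine Finset.prod_congr rfl fun i _ => ?_
  simp [add_comm]

/-- Orthogonality of the characters. -/
theorem chi_orth (u v : Vec ν) :
    ∑ w, chi u w * chi v w = if u = v then sizeR ν else 0 := by
  have h1 : ∀ w : Vec ν, chi u w * chi v w = ∏ i, (sgn (u i && w i) * sgn (v i && w i)) := by
    intro w
    unfold chi
    rw [Finset.prod_mul_distrib]
  simp_rw [h1]
  have h2 := sum_vec_prod (ν := ν) (fun i b => sgn (u i && b) * sgn (v i && b))
  rw [h2]
  by_cases huv : u = v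
  · subst huv
    rw [if_pos rfl]
    unfold sizeR
    have : ∀ i : Fin ν, sgn (u i && false) * sgn (u i && false) +
        sgn (u i && true) * sgn (u i && true) = 2 := by
      intro i
      cases u i <;> simp [sgn] <;> norm_num
    simp_rw [this]
    simp
  · rw [if_neg huv]
    obtain ⟨i, hi⟩ := Function.ne_iff.mp huv
    refine Finset.prod_eq_zero (Finset.mem_univ i) ?_
    revert hi
    cases u i <;> cases v i <;> simp [sgn]

/-- Orthogonality of the Hadamard matrix. -/
theorem hadamard_orth (u v : Vec ν) :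
    ∑ w, hadamard u w * hadamard v w = if u = v then 1 else 0 := by
  have h : ∀ w : Vec ν, hadamard u w * hadamard v w = chi u w * chi v w / sizeR ν := by
    intro w
    unfold hadamard
    rw [div_mul_div_comm, sqrt_sizeR_mul]
  simp_rw [h]
  rw [← Finset.sum_div, chi_orth]
  by_cases huv : u = v
  · rw [if_pos huv, if_pos huv, div_self (sizeR_pos ν).ne']
  · rw [if_neg huv, if_neg huv, zero_div]

/-- `H` is symmetric for the bilinear form. -/
theorem hadamardT_symm (a b : Vec ν → ℝ) :
    ∑ l, a l * hadamardT b l = ∑ l, hadamardT a l * b l := by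
  unfold hadamardT
  simp_rw [Finset.mul_sum, Finset.sum_mul]
  rw [Finset.sum_comm]
  refine Finset.sum_congr rfl fun l _ => Finset.sum_congr rfl fun m _ => ?_
  rw [hadamard_comm m l]
  ring

/-- `H` applied twice is the identity. -/
theorem hadamardT_hadamardT (w : Vec ν → ℝ) (l : Vec ν) : hadamardT (hadamardT w) l = w l := by
  unfold hadamardT
  simp_rw [Finset.mul_sum]
  rw [Finset.sum_comm]
  have : ∀ p : Vec ν, ∑ m : Vec ν, hadamard l m * (hadamard m p * w p) =
      (∑ m : Vec ν, hadamard l m * hadamard p m) * w p := by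
    intro p
    rw [Finset.sum_mul]
    refine Finset.sum_congr rfl fun m _ => ?_
    rw [hadamard_comm m p]
    ring
  simp_rw [this, hadamard_orth]
  simp

/-- `H` preserves the sum of squares. -/
theorem hadamardT_norm (w : Vec ν → ℝ) : ∑ l, hadamardT w l ^ 2 = ∑ l, w l ^ 2 := by
  have h1 := hadamardT_symm (hadamardT w) w
  have h2 : ∀ l, hadamardT (hadamardT w) l * w l = w l ^ 2 := by
    intro l
    rw [hadamardT_hadamardT]
    ring
  simp_rw [h2] at h1
  rw [← h1]
  refine Finset.sum_congr rfl fun l _ => ?_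
  ring

/-- A list of sign vectors. -/
theorem chain_norm (ds : List (Vec ν → ℝ)) (hds : ∀ d ∈ ds, ∀ l, d l ^ 2 = 1) :
    ∑ l, chain ds l ^ 2 = 1 := by
  induction ds with
  | nil =>
    have : ∀ l : Vec ν, chain [] l ^ 2 = 1 / sizeR ν := by
      intro l
      show (1 / Real.sqrt (sizeR ν)) ^ 2 = 1 / sizeR ν
      rw [div_pow, Real.sq_sqrt (sizeR_pos ν).le]
      simp
    simp_rw [this]
    rw [Finset.sum_const, Finset.card_univ, card_vec, nsmul_eq_mul]
    unfold sizeR
    push_cast
    field_simp
  | cons d ds ih =>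
    simp only [chain]
    rw [hadamardT_norm]
    have h1 := ih (fun e he => hds e (List.mem_cons_of_mem _ he))
    rw [← h1]
    refine Finset.sum_congr rfl fun l _ => ?_
    rw [mul_pow, hds d (List.mem_cons_self) l, one_mul]

theorem blocks_sq {x : Fin k → Vec ν → Bool} :
    ∀ d ∈ blocks x, ∀ l, d l ^ 2 = 1 := by
  intro d hd l
  unfold blocks at hd
  rw [List.mem_ofFn] at hd
  obtain ⟨a, rfl⟩ := hd
  exact sgn_sq _

/-- The chain state is a unit vector. -/
theorem psi_norm (x : Fin k → Vec ν → Bool) : ∑ l, psi x l ^ 2 = 1 :=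
  chain_norm _ blocks_sq

/-- `|ψ(x)(s)| ≤ 1`. -/
theorem psi_abs_le (x : Fin k → Vec ν → Bool) (s : Vec ν) : |psi x s| ≤ 1 := by
  have h1 : psi x s ^ 2 ≤ ∑ l, psi x l ^ 2 :=
    Finset.single_le_sum (f := fun l => psi x l ^ 2) (fun _ _ => sq_nonneg _) (Finset.mem_univ s)
  rw [psi_norm] at h1
  exact sq_le_one_iff_abs_le_one _ |>.mp h1

/-! ### The hybrid -/

/-- Backward vectors: `B₀ = H ξ`, `B_{a+1} = H D_a B_a`. -/
noncomputable def back : (k : ℕ) → (Fin k → Vec ν → ℝ) → (Vec ν → ℝ) → Fin k → Vec ν → ℝ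
  | 0, _, _ => fun a => a.elim0
  | k + 1, d, ξ => Fin.cons (hadamardT ξ)
      (back k (fun a => d a.succ) (fun l => d 0 l * hadamardT ξ l))

/-- Forward vectors: `F_a = H D_{a+1} H ⋯ H e₀`. -/
noncomputable def front : (k : ℕ) → (Fin k → Vec ν → ℝ) → Fin k → Vec ν → ℝ
  | 0, _ => fun a => a.elim0
  | k + 1, d => Fin.cons (chain (List.ofFn fun a : Fin k => d a.succ))
      (front k (fun a => d a.succ))

theorem chain_hybrid : ∀ (k : ℕ) (d d' : Fin k → Vec ν → ℝ) (ξ : Vec ν → ℝ),
    ∑ l, ξ l * chain (List.ofFn d) l - ∑ l, ξ l * chain (List.ofFn d') l =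
      ∑ a, ∑ l, back k d ξ a l * (d a l - d' a l) * front k d' a l := by
  intro k
  induction k with
  | zero => intro d d' ξ; simp
  | succ k ih =>
    intro d d' ξ
    rw [List.ofFn_succ, List.ofFn_succ, Fin.sum_univ_succ]
    simp only [chain, back, front, Fin.cons_zero, Fin.cons_succ]
    rw [hadamardT_symm ξ, hadamardT_symm ξ]
    have h := ih (fun a => d a.succ) (fun a => d' a.succ) (fun l => d 0 l * hadamardT ξ l)
    rw [← h, ← Finset.sum_sub_distrib, ← Finset.sum_sub_distrib, ← Finset.sum_add_distrib]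
    refine Finset.sum_congr rfl fun l _ => ?_
    ring

theorem back_norm : ∀ (k : ℕ) (d : Fin k → Vec ν → ℝ) (_hd : ∀ a l, d a l ^ 2 = 1)
    (ξ : Vec ν → ℝ) (a : Fin k),
    ∑ l, back k d ξ a l ^ 2 = ∑ l, ξ l ^ 2 := by
  intro k
  induction k with
  | zero => intro d _ ξ a; exact a.elim0
  | succ k ih =>
    intro d hd ξ a
    refine Fin.cases ?_ (fun a => ?_) a
    · simp only [back, Fin.cons_zero]
      exact hadamardT_norm ξ
    · simp only [back, Fin.cons_succ]
      rw [ih _ (fun a l => hd a.succ l), ← hadamardT_norm ξ]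
      refine Finset.sum_congr rfl fun l _ => ?_
      rw [mul_pow, hd 0 l, one_mul]

theorem front_norm : ∀ (k : ℕ) (d : Fin k → Vec ν → ℝ) (_hd : ∀ a l, d a l ^ 2 = 1)
    (a : Fin k), ∑ l, front k d a l ^ 2 = 1 := by
  intro k
  induction k with
  | zero => intro d _ a; exact a.elim0
  | succ k ih =>
    intro d hd a
    refine Fin.cases ?_ (fun a => ?_) a
    · simp only [front, Fin.cons_zero]
      refine chain_norm _ ?_
      intro e he l
      rw [List.mem_ofFn] at he
      obtain ⟨a, rfl⟩ := he
      exact hd a.succ l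
    · simp only [front, Fin.cons_succ]
      exact ih _ (fun a l => hd a.succ l) a

/-- The sign vectors of an instance as a function. -/
noncomputable def signs (x : Fin k → Vec ν → Bool) : Fin k → Vec ν → ℝ := fun a l => sgn (x a l)

theorem psi_eq_chain (x : Fin k → Vec ν → Bool) : psi x = chain (List.ofFn (signs x)) := rfl

theorem signs_sq (x : Fin k → Vec ν → Bool) (a : Fin k) (l : Vec ν) : signs x a l ^ 2 = 1 :=
  sgn_sq _

/-- The hybrid on instances. -/
theorem psi_hybrid (x y : Fin k → Vec ν → Bool) (ξ : Vec ν → ℝ) :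
    ∑ l, ξ l * psi x l - ∑ l, ξ l * psi y l =
      ∑ a, ∑ l, (if x a l ≠ y a l then
        2 * sgn (x a l) * back k (signs x) ξ a l * front k (signs y) a l else 0) := by
  rw [psi_eq_chain, psi_eq_chain, chain_hybrid]
  refine Finset.sum_congr rfl fun a _ => Finset.sum_congr rfl fun l _ => ?_
  unfold signs
  rw [sgn_sub]
  by_cases h : x a l ≠ y a l
  · simp only [if_pos h]
    ring
  · simp only [if_neg h]
    ring

section Hybrid

variable {I : Type} [Fintype I] (pos : Fin k → Vec ν → I)

/-- The instance read from an input `z` through the (injective) position map. -/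
def instOf (z : I → Bool) : Fin k → Vec ν → Bool := fun a l => z (pos a l)

/-- Extension by zero of a function of `(a,l)` to all positions. -/
noncomputable def extendPos (f : Fin k × Vec ν → ℝ) : I → ℝ :=
  Function.extend (fun p : Fin k × Vec ν => pos p.1 p.2) f 0

theorem sum_extendPos (hpos : Function.Injective (fun p : Fin k × Vec ν => pos p.1 p.2))
    (G : I → ℝ → ℝ) (hG : ∀ i, G i 0 = 0) (f : Fin k × Vec ν → ℝ) :
    ∑ i, G i (extendPos pos f i) = ∑ a, ∑ l, G (pos a l) (f (a, l)) := by
  have h0 : ∑ a, ∑ l, G (pos a l) (f (a, l)) =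
      ∑ p : Fin k × Vec ν, G (pos p.1 p.2) (f (p.1, p.2)) := by
    rw [← Finset.univ_product_univ, Finset.sum_product]
  rw [h0]
  symm
  refine Fintype.sum_of_injective (fun p : Fin k × Vec ν => pos p.1 p.2) hpos _ _ ?_ ?_
  · intro i hi
    have : extendPos pos f i = 0 := by
      unfold extendPos
      rw [Function.extend_apply' _ _ _ (by simpa using hi)]
      rfl
    rw [this, hG]
  · rintro ⟨a, l⟩
    have : extendPos pos f (pos a l) = f (a, l) :=
      hpos.extend_apply f 0 (a, l)
    simp only [this]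

/-- General form. The sides `x`, `y` carry vectors `f x`, `g y` with bit-difference representation. -/
theorem rep_of_sides (hpos : Function.Injective (fun p : Fin k × Vec ν => pos p.1 p.2))
    (f g : (I → Bool) → Fin k → Vec ν → ℝ)
    (E : (I → Bool) → (I → Bool) → ℝ) (A B : (I → Bool) → ℝ)
    (hE : ∀ x y, E x y = ∑ a, ∑ l, (if x (pos a l) ≠ y (pos a l) then f x a l * g y a l else 0))
    (hA : ∀ x, ∑ a, ∑ l, f x a l ^ 2 = A x) (hB : ∀ y, ∑ a, ∑ l, g y a l ^ 2 = B y) :
    Rep (fun _ => True) (fun _ => True) E A B := by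
  refine ⟨Unit, inferInstance, fun x i _ => extendPos pos (fun p => f x p.1 p.2) i,
    fun y i _ => extendPos pos (fun p => g y p.1 p.2) i, ?_, ?_, ?_⟩
  · intro x y _ _
    rw [hE]
    simp only [Finset.univ_unique, Finset.sum_singleton]
    have h1 : ∀ i : I, extendPos pos (fun p => g y p.1 p.2) i =
        Function.extend (fun p : Fin k × Vec ν => pos p.1 p.2) (fun p => g y p.1 p.2) 0 i :=
      fun _ => rfl
    have h3 : ∑ i, (if x i ≠ y i then extendPos pos (fun p => f x p.1 p.2) i *
        extendPos pos (fun p => g y p.1 p.2) i else 0) =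
        ∑ p : Fin k × Vec ν, (if x (pos p.1 p.2) ≠ y (pos p.1 p.2) then f x p.1 p.2 * g y p.1 p.2 else 0) := by
      symm
      refine Fintype.sum_of_injective (fun p : Fin k × Vec ν => pos p.1 p.2) hpos _ _ ?_ ?_
      · intro i hi
        have : extendPos pos (fun p => f x p.1 p.2) i = 0 := by
          unfold extendPos
          rw [Function.extend_apply' _ _ _ (by simpa using hi)]
          rfl
        rw [this]
        simp
      · rintro ⟨a, l⟩
        have e1 : extendPos pos (fun p => f x p.1 p.2) (pos a l) = f x a l :=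
          hpos.extend_apply (fun p => f x p.1 p.2) 0 (a, l)
        have e2 : extendPos pos (fun p => g y p.1 p.2) (pos a l) = g y a l :=
          hpos.extend_apply (fun p => g y p.1 p.2) 0 (a, l)
        simp only [e1, e2]
    rw [h3, ← Finset.univ_product_univ, Finset.sum_product]
  · intro x _
    simp only [Finset.univ_unique, Finset.sum_singleton]
    rw [sum_extendPos pos hpos (fun _ t => t ^ 2) (by simp) (fun p => f x p.1 p.2)]
    exact (hA x).le
  · intro y _
    simp only [Finset.univ_unique, Finset.sum_singleton]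
    rw [sum_extendPos pos hpos (fun _ t => t ^ 2) (by simp) (fun p => g y p.1 p.2)]
    exact (hB y).le

/-- Left hybrid: the `x`-side carries the test vector `ξ x`. Here `A x = 2k ∑ ξ²`, `B y = 2k`. -/
theorem chain_rep_left (hpos : Function.Injective (fun p : Fin k × Vec ν => pos p.1 p.2))
    (ξ : (I → Bool) → Vec ν → ℝ) :
    Rep (fun _ => True) (fun _ => True)
      (fun x y => ∑ l, ξ x l * psi (instOf pos x) l - ∑ l, ξ x l * psi (instOf pos y) l)
      (fun x => 2 * (k : ℝ) * ∑ l, ξ x l ^ 2) (fun _ => 2 * (k : ℝ)) := by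
  refine rep_of_sides pos hpos
    (fun x a l => Real.sqrt 2 * sgn (x (pos a l)) * back k (signs (instOf pos x)) (ξ x) a l)
    (fun y a l => Real.sqrt 2 * front k (signs (instOf pos y)) a l) _ _ _ ?_ ?_ ?_
  · intro x y
    rw [psi_hybrid]
    refine Finset.sum_congr rfl fun a _ => Finset.sum_congr rfl fun l _ => ?_
    unfold instOf
    by_cases h : x (pos a l) ≠ y (pos a l)
    · simp only [if_pos h]
      have h2 : Real.sqrt 2 * Real.sqrt 2 = 2 := Real.mul_self_sqrt (by norm_num)
      linear_combination (- sgn (x (pos a l)) * back k (signs fun a l => x (pos a l)) (ξ x) a l * front k (signs fun a l => y (pos a l)) a l) * h2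
    · simp only [if_neg h]
  · intro x
    have h2 : Real.sqrt 2 ^ 2 = 2 := Real.sq_sqrt (by norm_num)
    have : ∀ a : Fin k, ∑ l, (Real.sqrt 2 * sgn (x (pos a l)) *
        back k (signs (instOf pos x)) (ξ x) a l) ^ 2 = 2 * ∑ l, ξ x l ^ 2 := by
      intro a
      rw [← back_norm k _ (signs_sq (instOf pos x)) (ξ x) a, Finset.mul_sum]
      refine Finset.sum_congr rfl fun l _ => ?_
      rw [mul_pow, mul_pow, h2, sgn_sq, mul_one]
    simp_rw [this]
    simp
    ring
  · intro y
    have h2 : Real.sqrt 2 ^ 2 = 2 := Real.sq_sqrt (by norm_num)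
    have : ∀ a : Fin k, ∑ l, (Real.sqrt 2 * front k (signs (instOf pos y)) a l) ^ 2 = 2 := by
      intro a
      have := front_norm k _ (signs_sq (instOf pos y)) a
      simp_rw [mul_pow, h2]
      rw [← Finset.mul_sum, this, mul_one]
    simp_rw [this]
    simp
    ring

/-- Right hybrid: the `y`-side carries the test vector `ξ y`. `A x = 2k`, `B y = 2k ∑ ξ²`. -/
theorem chain_rep_right (hpos : Function.Injective (fun p : Fin k × Vec ν => pos p.1 p.2))
    (ξ : (I → Bool) → Vec ν → ℝ) :
    Rep (fun _ => True) (fun _ => True)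
      (fun x y => ∑ l, ξ y l * psi (instOf pos y) l - ∑ l, ξ y l * psi (instOf pos x) l)
      (fun _ => 2 * (k : ℝ)) (fun y => 2 * (k : ℝ) * ∑ l, ξ y l ^ 2) := by
  refine rep_of_sides pos hpos
    (fun x a l => Real.sqrt 2 * front k (signs (instOf pos x)) a l)
    (fun y a l => Real.sqrt 2 * sgn (y (pos a l)) * back k (signs (instOf pos y)) (ξ y) a l)
     _ _ _ ?_ ?_ ?_
  · intro x y
    rw [psi_hybrid]
    refine Finset.sum_congr rfl fun a _ => Finset.sum_congr rfl fun l _ => ?_
    unfold instOf
    by_cases h : x (pos a l) ≠ y (pos a l)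
    · have h' : y (pos a l) ≠ x (pos a l) := fun e => h e.symm
      simp only [if_pos h, if_pos h']
      have h2 : Real.sqrt 2 * Real.sqrt 2 = 2 := Real.mul_self_sqrt (by norm_num)
      linear_combination (- sgn (y (pos a l)) * back k (signs fun a l => y (pos a l)) (ξ y) a l * front k (signs fun a l => x (pos a l)) a l) * h2
    · have h' : ¬ y (pos a l) ≠ x (pos a l) := fun e => h (Ne.symm e)
      simp only [if_neg h, if_neg h']
  · intro x
    have h2 : Real.sqrt 2 ^ 2 = 2 := Real.sq_sqrt (by norm_num)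
    have : ∀ a : Fin k, ∑ l, (Real.sqrt 2 * front k (signs (instOf pos x)) a l) ^ 2 = 2 := by
      intro a
      have := front_norm k _ (signs_sq (instOf pos x)) a
      simp_rw [mul_pow, h2]
      rw [← Finset.mul_sum, this, mul_one]
    simp_rw [this]
    simp
    ring
  · intro y
    have h2 : Real.sqrt 2 ^ 2 = 2 := Real.sq_sqrt (by norm_num)
    have : ∀ a : Fin k, ∑ l, (Real.sqrt 2 * sgn (y (pos a l)) *
        back k (signs (instOf pos y)) (ξ y) a l) ^ 2 = 2 * ∑ l, ξ y l ^ 2 := by
      intro a
      rw [← back_norm k _ (signs_sq (instOf pos y)) (ξ y) a, Finset.mul_sum]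
      refine Finset.sum_congr rfl fun l _ => ?_
      rw [mul_pow, mul_pow, h2, sgn_sq, mul_one]
    simp_rw [this]
    simp
    ring

end Hybrid

end Crest.Agent.QuartSep
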