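-- Row 350 (S0554): the total function F, its local checks, trace semantics (blueprint 1).
import Crest.Agent.Lib.QuartSep.Chain

set_option autoImplicit false

namespace Crest.Agent.QuartSep

open Finset BigOperators

/-! ### Tree combinators -/

namespace DT

variable {I : Type}

/-- Read the bits at positions `pos`, then continue according to the answers. -/
def readVec : (n : ℕ) → (Fin n → I) → ((Fin n → Bool) → DT I) → DT I
  | 0, _, c => c Fin.elim0
  | n + 1, pos, c => DT.read (pos 0)
      (readVec n (fun p => pos p.succ) (fun w => c (Fin.cons false w)))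
      (readVec n (fun p => pos p.succ) (fun w => c (Fin.cons true w)))

theorem eval_readVec (x : I → Bool) : ∀ (n : ℕ) (pos : Fin n → I) (c : (Fin n → Bool) → DT I),
    (readVec n pos c).eval x = (c (fun p => x (pos p))).eval x := by
  intro n
  induction n with
  | zero =>
    intro pos c
    simp only [readVec]
    congr 2
    funext p
    exact p.elim0
  | succ n ih =>
    intro pos c
    have key : ∀ b : Bool, x (pos 0) = b →
        (Fin.cons b (fun p => x (pos p.succ)) : Fin (n + 1) → Bool) = fun p => x (pos p) := by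
      intro b hb
      funext p
      refine Fin.cases ?_ (fun p => ?_) p
      · simp [hb]
      · simp
    simp only [readVec, eval]
    cases h : x (pos 0) with
    | false =>
      simp only [Bool.false_eq_true, if_false]
      rw [ih, key false h]
    | true =>
      simp only [if_true]
      rw [ih, key true h]

theorem depth_readVec : ∀ (n : ℕ) (pos : Fin n → I) (c : (Fin n → Bool) → DT I) (D : ℕ),
    (∀ w, (c w).depth ≤ D) → (readVec n pos c).depth ≤ n + D := by
  intro n
  induction n with
  | zero =>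
    intro pos c D h
    simpa [readVec] using h _
  | succ n ih =>
    intro pos c D h
    simp only [readVec, depth]
    have h0 := ih (fun p => pos p.succ) (fun w => c (Fin.cons false w)) D (fun w => h _)
    have h1 := ih (fun p => pos p.succ) (fun w => c (Fin.cons true w)) D (fun w => h _)
    have := max_le h0 h1
    omega

/-- Read one bit and continue according to the answer. -/
def readBit (i : I) (c : Bool → DT I) : DT I := read i (c false) (c true)

theorem eval_readBit (x : I → Bool) (i : I) (c : Bool → DT I) :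
    (readBit i c).eval x = (c (x i)).eval x := by
  simp only [readBit, eval]
  cases x i <;> simp

theorem depth_readBit (i : I) (c : Bool → DT I) (D : ℕ) (h : ∀ w, (c w).depth ≤ D) :
    (readBit i c).depth ≤ 1 + D := by
  simp only [readBit, depth]
  have := max_le (h false) (h true)
  omega

/-- The negation of a tree. -/
def neg : DT I → DT I
  | answer b => answer (!b)
  | read i t₀ t₁ => read i (neg t₀) (neg t₁)

theorem eval_neg (x : I → Bool) (t : DT I) : (neg t).eval x = !(t.eval x) := by
  induction t with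
  | answer b => rfl
  | read i t₀ t₁ h₀ h₁ =>
    simp only [neg, eval, h₀, h₁]
    cases x i <;> simp

theorem depth_neg (t : DT I) : (neg t).depth = t.depth := by
  induction t with
  | answer b => rfl
  | read i t₀ t₁ h₀ h₁ => simp only [neg, depth, h₀, h₁]

end DT

variable (k ν b : ℕ)

/-- Positions inside one cell: list bits `(j', p)`, or trace bits `(a, ell, l, p)`. -/
abbrev CellIdx : Type := (Vec ν × Fin ν) ⊕ (Fin k × Fin (ν + 1) × Vec ν × Fin b)

/-- All input positions: `flag j t`, `inst j a l`, `cell j s c`. -/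
abbrev Idx : Type := (Vec ν × Vec ν) ⊕ (Vec ν × Fin k × Vec ν) ⊕ (Vec ν × Vec ν × CellIdx k ν b)

/-- The indices of the local checks of a candidate: flag `t`, list entry of column `j'`,
`tr0 a l`, `tr1 a ell l`, final. -/
abbrev CheckIdx : Type :=
  Vec ν ⊕ Vec ν ⊕ (Fin k × Vec ν) ⊕ (Fin k × Fin ν × Vec ν) ⊕ Unit

variable {k ν b}

/-- Position of `flag j t`. -/
def posFlag (j t : Vec ν) : Idx k ν b := Sum.inl (j, t)
/-- Position of `inst j a l`. -/
def posInst (j : Vec ν) (a : Fin k) (l : Vec ν) : Idx k ν b := Sum.inr (Sum.inl (j, a, l))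
/-- Position of bit `p` of the list entry for column `j'` in cell `(j,s)`. -/
def posList (j s j' : Vec ν) (p : Fin ν) : Idx k ν b := Sum.inr (Sum.inr (j, s, Sum.inl (j', p)))
/-- Position of bit `p` of the trace integer `(a, ell, l)` in cell `(j,s)`. -/
def posTrace (j s : Vec ν) (a : Fin k) (ell : Fin (ν + 1)) (l : Vec ν) (p : Fin b) : Idx k ν b :=
  Sum.inr (Sum.inr (j, s, Sum.inr (a, ell, l, p)))

/-- The integer with bits `w`: `∑ 2^p w_p - 2^(b-1)`. Surjective onto `[-2^(b-1), 2^(b-1))`. -/
def bitsVal (w : Fin b → Bool) : ℤ :=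
  ∑ p, (if w p then (2 : ℤ) ^ (p : ℕ) else 0) - 2 ^ (b - 1)

/-- The integer sign of a bit. -/
def sgnZ (c : Bool) : ℤ := if c then -1 else 1

theorem sgnZ_cast (c : Bool) : ((sgnZ c : ℤ) : ℝ) = sgn c := by
  cases c <;> simp [sgnZ, sgn]

/-- Instance of column `j` of the input `z`. -/
def instAt (z : Idx k ν b → Bool) (j : Vec ν) : Fin k → Vec ν → Bool :=
  fun a l => z (posInst j a l)

/-- The list entry of column `j'` in cell `(j,s)`. -/
def listAt (z : Idx k ν b → Bool) (j s j' : Vec ν) : Vec ν := fun p => z (posList j s j' p)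

/-- The trace integer `(a, ell, l)` in cell `(j,s)`. -/
def traceAt (z : Idx k ν b → Bool) (j s : Vec ν) (a : Fin k) (ell : Fin (ν + 1)) (l : Vec ν) : ℤ :=
  bitsVal (fun p => z (posTrace j s a ell l p))

/-- Reading a trace integer. -/
def readInt (j s : Vec ν) (a : Fin k) (ell : Fin (ν + 1)) (l : Vec ν)
    (c : ℤ → DT (Idx k ν b)) : DT (Idx k ν b) :=
  DT.readVec b (posTrace j s a ell l) (fun w => c (bitsVal w))

theorem eval_readInt (z : Idx k ν b → Bool) (j s : Vec ν) (a : Fin k) (ell : Fin (ν + 1))
    (l : Vec ν) (c : ℤ → DT (Idx k ν b)) :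
    (readInt j s a ell l c).eval z = (c (traceAt z j s a ell l)).eval z :=
  DT.eval_readVec z _ _ _

theorem depth_readInt (j s : Vec ν) (a : Fin k) (ell : Fin (ν + 1))
    (l : Vec ν) (c : ℤ → DT (Idx k ν b)) (D : ℕ) (h : ∀ t, (c t).depth ≤ D) :
    (readInt j s a ell l c).depth ≤ b + D :=
  DT.depth_readVec _ _ _ _ (fun _ => h _)

/-- The tree `flag j t`. -/
def flagTree (j t : Vec ν) : DT (Idx k ν b) :=
  DT.read (posFlag j t) (DT.answer false) (DT.answer true)

/-- The tree: `flag j' (list_{j,s}(j')) = false`. -/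
def listTree (j s j' : Vec ν) : DT (Idx k ν b) :=
  DT.readVec ν (posList j s j') (fun w =>
    DT.read (posFlag j' w) (DT.answer true) (DT.answer false))

/-- The tree of check `c3`. -/
def tr0Tree (j s : Vec ν) (a : Fin k) (l : Vec ν) : DT (Idx k ν b) :=
  if h : (a : ℕ) + 1 < k then
    readInt j s a 0 l (fun t => DT.readBit (posInst j a l) (fun c =>
      readInt j s ⟨(a : ℕ) + 1, h⟩ (Fin.last ν) l (fun n => DT.answer (decide (t = sgnZ c * n)))))
  else
    readInt j s a 0 l (fun t => DT.readBit (posInst j a l) (fun c =>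
      DT.answer (decide (t = sgnZ c))))

/-- The tree of check `c4`. -/
def tr1Tree (j s : Vec ν) (a : Fin k) (e : Fin ν) (l : Vec ν) : DT (Idx k ν b) :=
  readInt j s a e.succ l (fun t =>
    readInt j s a e.castSucc (Function.update l e false) (fun t₀ =>
      readInt j s a e.castSucc (Function.update l e true) (fun t₁ =>
        DT.answer (decide (t = t₀ + sgnZ (l e) * t₁)))))

open Classical in
/-- The tree of check `c5`. -/
noncomputable def finalTree [NeZero k] (θ : ℝ) (j s : Vec ν) : DT (Idx k ν b) :=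
  readInt j s 0 (Fin.last ν) s (fun t =>
    DT.answer (decide (θ * Real.sqrt (sizeR ν) ^ (k + 1) ≤ (t : ℝ))))

/-- The local check trees of candidate `(j,s)`. `θ` is the amplitude threshold. -/
noncomputable def checkTree [NeZero k] (θ : ℝ) (j s : Vec ν) (c : CheckIdx k ν) : DT (Idx k ν b) :=
  open Classical in
  match c with
  | Sum.inl t => flagTree j t
  | Sum.inr (Sum.inl j') => if j' = j then DT.answer true else listTree j s j'
  | Sum.inr (Sum.inr (Sum.inl (a, l))) => tr0Tree j s a l
  | Sum.inr (Sum.inr (Sum.inr (Sum.inl (a, e, l)))) => tr1Tree j s a e l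
  | Sum.inr (Sum.inr (Sum.inr (Sum.inr _))) => finalTree θ j s

/-- Common depth bound of the check trees. -/
def checkDepth (ν b : ℕ) : ℕ := 3 * b + ν + 2

theorem flagTree_depth (j t : Vec ν) : (flagTree (k := k) (b := b) j t).depth = 1 := rfl

theorem listTree_depth (j s j' : Vec ν) : (listTree (k := k) (b := b) j s j').depth ≤ ν + 1 := by
  refine DT.depth_readVec _ _ _ _ (fun w => ?_)
  simp [DT.depth]

theorem tr0Tree_depth (j s : Vec ν) (a : Fin k) (l : Vec ν) :
    (tr0Tree (b := b) j s a l).depth ≤ b + (1 + (b + 0)) := by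
  unfold tr0Tree
  split
  · refine depth_readInt _ _ _ _ _ _ _ (fun t => ?_)
    refine DT.depth_readBit _ _ _ (fun c => ?_)
    refine depth_readInt _ _ _ _ _ _ _ (fun t => ?_)
    simp [DT.depth]
  · refine depth_readInt _ _ _ _ _ _ _ (fun t => ?_)
    refine le_trans (DT.depth_readBit _ _ 0 (fun c => ?_)) (by omega)
    simp [DT.depth]

theorem tr1Tree_depth (j s : Vec ν) (a : Fin k) (e : Fin ν) (l : Vec ν) :
    (tr1Tree (b := b) j s a e l).depth ≤ b + (b + (b + 0)) := by
  refine depth_readInt _ _ _ _ _ _ _ (fun t => ?_)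
  refine depth_readInt _ _ _ _ _ _ _ (fun t => ?_)
  refine depth_readInt _ _ _ _ _ _ _ (fun t => ?_)
  simp [DT.depth]

theorem finalTree_depth [NeZero k] (θ : ℝ) (j s : Vec ν) :
    (finalTree (k := k) (b := b) θ j s).depth ≤ b + 0 := by
  refine depth_readInt _ _ _ _ _ _ _ (fun t => ?_)
  simp [DT.depth]

theorem checkTree_depth [NeZero k] (θ : ℝ) (j s : Vec ν) (c : CheckIdx k ν) :
    (checkTree (b := b) θ j s c).depth ≤ checkDepth ν b := by
  unfold checkDepth
  rcases c with t | j' | ⟨a, l⟩ | ⟨a, e, l⟩ | u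
  · simp only [checkTree, flagTree_depth]; omega
  · simp only [checkTree]
    split
    · simp [DT.depth]
    · have := listTree_depth (k := k) (b := b) j s j'; omega
  · simp only [checkTree]
    have := tr0Tree_depth (b := b) j s a l; omega
  · simp only [checkTree]
    have := tr1Tree_depth (b := b) j s a e l; omega
  · simp only [checkTree]
    have := finalTree_depth (k := k) (b := b) θ j s; omega

/-- Validity of a candidate. -/
def Valid [NeZero k] (θ : ℝ) (z : Idx k ν b → Bool) (j s : Vec ν) : Prop :=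
  ∀ c : CheckIdx k ν, (checkTree θ j s c).eval z = true

open Classical in
/-- The total function. -/
noncomputable def F [NeZero k] (θ : ℝ) (z : Idx k ν b → Bool) : Bool :=
  decide (∃ j s : Vec ν, Valid θ z j s)

/-- The flag check of `t` in candidate `(j,s)`. -/
theorem check_flag [NeZero k] (θ : ℝ) (z : Idx k ν b → Bool) (j s t : Vec ν) :
    (checkTree θ j s (Sum.inl t : CheckIdx k ν)).eval z = z (posFlag j t) := by
  simp only [checkTree, flagTree, DT.eval]
  cases h : z (posFlag j t) <;> simp

theorem eval_listTree (z : Idx k ν b → Bool) (j s j' : Vec ν) :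
    (listTree j s j').eval z = !(z (posFlag j' (listAt z j s j'))) := by
  unfold listTree
  rw [DT.eval_readVec]
  simp only [DT.eval]
  show (if z (posFlag j' (listAt z j s j')) = true then _ else _) = _
  cases h : z (posFlag j' (listAt z j s j')) <;> rfl

/-- The list check of `j'` in candidate `(j,s)` (for `j' = j` it is trivially true). -/
theorem check_list [NeZero k] (θ : ℝ) (z : Idx k ν b → Bool) (j s j' : Vec ν) (hj : j' ≠ j) :
    (checkTree θ j s (Sum.inr (Sum.inl j') : CheckIdx k ν)).eval z =
      !(z (posFlag j' (listAt z j s j'))) := by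
  simp only [checkTree, if_neg hj]
  exact eval_listTree z j s j'

/-- The next value of check `c3`. -/
def nextAt (z : Idx k ν b → Bool) (j s : Vec ν) (a : Fin k) (l : Vec ν) : ℤ :=
  if h : (a : ℕ) + 1 < k then traceAt z j s ⟨(a : ℕ) + 1, h⟩ (Fin.last ν) l else 1

theorem eval_tr0Tree (z : Idx k ν b → Bool) (j s : Vec ν) (a : Fin k) (l : Vec ν) :
    (tr0Tree j s a l).eval z = decide
      (traceAt z j s a 0 l = sgnZ (z (posInst j a l)) * nextAt z j s a l) := by
  unfold tr0Tree nextAt
  split
  · rw [eval_readInt, DT.eval_readBit, eval_readInt]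
    rfl
  · rw [eval_readInt, DT.eval_readBit, mul_one]
    rfl

theorem eval_tr1Tree (z : Idx k ν b → Bool) (j s : Vec ν) (a : Fin k) (e : Fin ν) (l : Vec ν) :
    (tr1Tree j s a e l).eval z = decide
      (traceAt z j s a e.succ l = traceAt z j s a e.castSucc (Function.update l e false) +
        sgnZ (l e) * traceAt z j s a e.castSucc (Function.update l e true)) := by
  unfold tr1Tree
  rw [eval_readInt, eval_readInt, eval_readInt]
  rfl

theorem eval_finalTree [NeZero k] (θ : ℝ) (z : Idx k ν b → Bool) (j s : Vec ν) :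
    (finalTree θ j s).eval z = true ↔
      θ * Real.sqrt (sizeR ν) ^ (k + 1) ≤ (traceAt z j s 0 (Fin.last ν) s : ℝ) := by
  unfold finalTree
  rw [eval_readInt]
  simp [DT.eval]

/-! ### Trace semantics -/

/-- The weight of a partial butterfly. -/
noncomputable def bfWeight (n : ℕ) (l p : Vec ν) : ℝ :=
  ∏ i : Fin ν, if (i : ℕ) < n then sgn (l i && p i) else (if l i = p i then 1 else 0)

theorem bfWeight_zero (l p : Vec ν) : bfWeight 0 l p = if l = p then 1 else 0 := by
  unfold bfWeight
  by_cases h : l = p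
  · subst h
    simp
  · rw [if_neg h]
    obtain ⟨i, hi⟩ := Function.ne_iff.mp h
    refine Finset.prod_eq_zero (Finset.mem_univ i) ?_
    simp [hi]

theorem bfWeight_succ (e : Fin ν) (l p : Vec ν) :
    bfWeight ((e : ℕ) + 1) l p = bfWeight (e : ℕ) (Function.update l e false) p +
      sgn (l e) * bfWeight (e : ℕ) (Function.update l e true) p := by
  unfold bfWeight
  rw [← Finset.mul_prod_erase Finset.univ _ (Finset.mem_univ e),
    ← Finset.mul_prod_erase Finset.univ
      (fun i : Fin ν => if (i : ℕ) < (e : ℕ) then sgn (Function.update l e false i && p i)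
        else (if Function.update l e false i = p i then (1 : ℝ) else 0)) (Finset.mem_univ e),
    ← Finset.mul_prod_erase Finset.univ
      (fun i : Fin ν => if (i : ℕ) < (e : ℕ) then sgn (Function.update l e true i && p i)
        else (if Function.update l e true i = p i then (1 : ℝ) else 0)) (Finset.mem_univ e)]
  have h1 : ∀ c : Bool, ∏ i ∈ Finset.univ.erase e,
      (if (i : ℕ) < (e : ℕ) then sgn (Function.update l e c i && p i)
        else (if Function.update l e c i = p i then (1 : ℝ) else 0)) =
      ∏ i ∈ Finset.univ.erase e,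
      (if (i : ℕ) < (e : ℕ) + 1 then sgn (l i && p i)
        else (if l i = p i then (1 : ℝ) else 0)) := by
    intro c
    refine Finset.prod_congr rfl fun i hi => ?_
    have hne : i ≠ e := (Finset.mem_erase.mp hi).1
    have hne' : (i : ℕ) ≠ (e : ℕ) := fun h => hne (Fin.ext h)
    rw [Function.update_of_ne hne]
    by_cases hlt : (i : ℕ) < (e : ℕ)
    · have hlt' : (i : ℕ) < (e : ℕ) + 1 := by omega
      simp only [if_pos hlt, if_pos hlt']
    · have hlt' : ¬ (i : ℕ) < (e : ℕ) + 1 := by omega
      simp only [if_neg hlt, if_neg hlt']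
  rw [h1 false, h1 true]
  simp only [Function.update_self, lt_irrefl, if_false, Nat.lt_succ_self, if_true]
  cases l e <;> cases p e <;> simp [sgn]

/-- Butterfly recursion gives the Hadamard transform. -/
theorem butterfly_eq (G : Fin (ν + 1) → Vec ν → ℝ)
    (hG : ∀ (e : Fin ν) (l : Vec ν), G e.succ l =
      G e.castSucc (Function.update l e false) +
        sgn (l e) * G e.castSucc (Function.update l e true)) :
    ∀ (n : ℕ) (hn : n < ν + 1) (l : Vec ν), G ⟨n, hn⟩ l = ∑ p, bfWeight n l p * G 0 p := by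
  intro n
  induction n with
  | zero =>
    intro hn l
    simp_rw [bfWeight_zero]
    simp
  | succ n ih =>
    intro hn l
    have hn' : n < ν := by omega
    have h := hG ⟨n, hn'⟩ l
    have h1 : (⟨n, hn'⟩ : Fin ν).succ = (⟨n + 1, hn⟩ : Fin (ν + 1)) := rfl
    have h2 : (⟨n, hn'⟩ : Fin ν).castSucc = (⟨n, by omega⟩ : Fin (ν + 1)) := rfl
    rw [h1, h2] at h
    rw [h, ih, ih, Finset.mul_sum, ← Finset.sum_add_distrib]
    refine Finset.sum_congr rfl fun p _ => ?_
    have := bfWeight_succ (⟨n, hn'⟩ : Fin ν) l p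
    simp only at this
    rw [this]
    ring

theorem bfWeight_top (l p : Vec ν) : bfWeight ν l p = chi l p := by
  unfold bfWeight chi
  refine Finset.prod_congr rfl fun i _ => ?_
  rw [if_pos i.2]

/-- The top of a butterfly is `√N H` of its bottom. -/
theorem butterfly_top (G : Fin (ν + 1) → Vec ν → ℝ)
    (hG : ∀ (e : Fin ν) (l : Vec ν), G e.succ l =
      G e.castSucc (Function.update l e false) +
        sgn (l e) * G e.castSucc (Function.update l e true)) (l : Vec ν) :
    G (Fin.last ν) l = Real.sqrt (sizeR ν) * hadamardT (G 0) l := by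
  have h := butterfly_eq G hG ν (Nat.lt_succ_self ν) l
  have h1 : (⟨ν, Nat.lt_succ_self ν⟩ : Fin (ν + 1)) = Fin.last ν := rfl
  rw [h1] at h
  rw [h]
  unfold hadamardT hadamard
  rw [Finset.mul_sum]
  refine Finset.sum_congr rfl fun p _ => ?_
  rw [bfWeight_top]
  have hw : Real.sqrt (sizeR ν) ≠ 0 := (Real.sqrt_pos.mpr (sizeR_pos ν)).ne'
  field_simp

/-- Abstract trace semantics. -/
theorem trace_semantics [NeZero k] (x : Fin k → Vec ν → Bool) (T : Fin k → Fin (ν + 1) → Vec ν → ℝ)
    (h3 : ∀ a l, T a 0 l = sgn (x a l) *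
      (if h : (a : ℕ) + 1 < k then T ⟨(a : ℕ) + 1, h⟩ (Fin.last ν) l else 1))
    (h4 : ∀ a (e : Fin ν) (l : Vec ν), T a e.succ l =
      T a e.castSucc (Function.update l e false) +
        sgn (l e) * T a e.castSucc (Function.update l e true)) (s : Vec ν) :
    psi x s = T 0 (Fin.last ν) s / Real.sqrt (sizeR ν) ^ (k + 1) := by
  set w := Real.sqrt (sizeR ν) with hw
  have hw0 : w ≠ 0 := (Real.sqrt_pos.mpr (sizeR_pos ν)).ne'
  -- the suffix chain
  have key : ∀ (n : ℕ) (hn : n ≤ k), ∀ l,
      chain ((blocks x).drop (k - n)) l =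
        (if h : k - n < k then T ⟨k - n, h⟩ (Fin.last ν) l else 1) / w ^ (n + 1) := by
    intro n
    induction n with
    | zero =>
      intro _ l
      have hlen : (blocks x).length = k := by simp [blocks]
      have : (blocks x).drop (k - 0) = [] := by
        rw [Nat.sub_zero]
        exact List.drop_eq_nil_of_le (by omega)
      rw [this]
      simp [chain]
      exact hw.symm
    | succ n ih =>
      intro hn l
      have hlt : k - (n + 1) < k := by omega
      have hlen : k - (n + 1) < (blocks x).length := by simpa [blocks] using hlt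
      rw [List.drop_eq_getElem_cons hlen]
      rw [dif_pos hlt]
      have hnext : k - (n + 1) + 1 = k - n := by omega
      rw [hnext]
      simp only [chain]
      have hget : (blocks x)[k - (n + 1)] = fun l => sgn (x ⟨k - (n + 1), hlt⟩ l) := by
        simp [blocks]
      rw [hget]
      -- butterfly
      have hb := butterfly_top (T ⟨k - (n + 1), hlt⟩) (h4 _) l
      rw [← hw] at hb
      rw [hb]
      have hfun : (fun l => sgn (x ⟨k - (n + 1), hlt⟩ l) * chain ((blocks x).drop (k - n)) l) =
          fun l => T ⟨k - (n + 1), hlt⟩ 0 l / w ^ (n + 1) := by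
        funext m
        rw [ih (by omega) m, h3]
        have hcond : ((⟨k - (n + 1), hlt⟩ : Fin k) : ℕ) + 1 < k ↔ k - n < k := by
          simp only
          omega
        by_cases hc : k - n < k
        · rw [dif_pos hc, dif_pos (hcond.mpr hc)]
          have : (⟨k - (n + 1) + 1, hcond.mpr hc⟩ : Fin k) = ⟨k - n, hc⟩ := Fin.ext hnext
          simp only [this]
          ring
        · rw [dif_neg hc, dif_neg (fun h => hc (hcond.mp h))]
          ring
      rw [hfun]
      unfold hadamardT
      have h5 : ∑ v, hadamard l v * (T ⟨k - (n + 1), hlt⟩ 0 v / w ^ (n + 1)) =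
          (∑ v, hadamard l v * T ⟨k - (n + 1), hlt⟩ 0 v) / w ^ (n + 1) := by
        rw [Finset.sum_div]
        refine Finset.sum_congr rfl fun v _ => ?_
        ring
      rw [h5]
      field_simp
      ring
  have h0 := key k le_rfl s
  have hk : 0 < k := Nat.pos_of_ne_zero (NeZero.ne k)
  rw [Nat.sub_self, List.drop_zero, dif_pos hk] at h0
  exact h0

/-- **Trace semantics.** A valid candidate has large amplitude. -/
theorem amp_of_valid [NeZero k] (θ : ℝ) (z : Idx k ν b → Bool) (j s : Vec ν)
    (h : Valid θ z j s) : θ ≤ psi (instAt z j) s := by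
  have h3 : ∀ (a : Fin k) (l : Vec ν), ((traceAt z j s a 0 l : ℤ) : ℝ) = sgn (instAt z j a l) *
      (if h : (a : ℕ) + 1 < k then ((traceAt z j s ⟨(a : ℕ) + 1, h⟩ (Fin.last ν) l : ℤ) : ℝ)
        else 1) := by
    intro a l
    have h1 := h (Sum.inr (Sum.inr (Sum.inl (a, l))))
    simp only [checkTree] at h1
    rw [eval_tr0Tree, decide_eq_true_iff] at h1
    rw [h1]
    push_cast
    rw [sgnZ_cast]
    unfold nextAt instAt
    split <;> simp
  have h4 : ∀ (a : Fin k) (e : Fin ν) (l : Vec ν), ((traceAt z j s a e.succ l : ℤ) : ℝ) =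
      ((traceAt z j s a e.castSucc (Function.update l e false) : ℤ) : ℝ) +
      sgn (l e) * ((traceAt z j s a e.castSucc (Function.update l e true) : ℤ) : ℝ) := by
    intro a e l
    have h1 := h (Sum.inr (Sum.inr (Sum.inr (Sum.inl (a, e, l)))))
    simp only [checkTree] at h1
    rw [eval_tr1Tree, decide_eq_true_iff] at h1
    rw [h1]
    push_cast
    rw [sgnZ_cast]
  have h5 := h (Sum.inr (Sum.inr (Sum.inr (Sum.inr ()))))
  simp only [checkTree] at h5
  rw [eval_finalTree] at h5
  rw [trace_semantics (instAt z j) (fun a e l => ((traceAt z j s a e l : ℤ) : ℝ)) h3 h4 s]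
  have hw : 0 < Real.sqrt (sizeR ν) ^ (k + 1) := pow_pos (Real.sqrt_pos.mpr (sizeR_pos ν)) _
  rw [le_div_iff₀ hw]
  exact h5

/-- A position map for the instance of column `j`, injective. -/
theorem posInst_injective (j : Vec ν) :
    Function.Injective (fun p : Fin k × Vec ν => (posInst j p.1 p.2 : Idx k ν b)) := by
  rintro ⟨a, l⟩ ⟨a', l'⟩ h
  simp only [posInst, Sum.inr.injEq, Sum.inl.injEq, Prod.mk.injEq, true_and] at h
  rw [h.1, h.2]

/-! ### The true trace and its encoding -/

/-- Partial butterfly of an integer vector. -/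
def bfZ (g : Vec ν → ℤ) : ℕ → Vec ν → ℤ
  | 0 => g
  | n + 1 => fun l => if h : n < ν then
      bfZ g n (Function.update l ⟨n, h⟩ false) + sgnZ (l ⟨n, h⟩) * bfZ g n (Function.update l ⟨n, h⟩ true)
    else bfZ g n l

theorem sgnZ_abs (c : Bool) : |sgnZ c| = 1 := by
  cases c <;> simp [sgnZ]

theorem bfZ_abs_le (g : Vec ν → ℤ) (M : ℤ) (hg : ∀ l, |g l| ≤ M) :
    ∀ (n : ℕ) (l : Vec ν), |bfZ g n l| ≤ 2 ^ n * M := by
  have hM : 0 ≤ M := le_trans (abs_nonneg _) (hg fun _ => false)
  intro n
  induction n with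
  | zero => intro l; simpa [bfZ] using hg l
  | succ n ih =>
    intro l
    simp only [bfZ]
    have h2 : (0 : ℤ) ≤ 2 ^ n * M := by positivity
    split
    · rename_i h
      refine le_trans (abs_add_le _ _) ?_
      rw [abs_mul, sgnZ_abs, one_mul]
      have h3 := ih (Function.update l ⟨n, h⟩ false)
      have h4 := ih (Function.update l ⟨n, h⟩ true)
      rw [pow_succ]
      linarith
    · refine le_trans (ih l) ?_
      rw [pow_succ]
      linarith

/-- The block index at distance `n` from the end. -/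
def revIdx [NeZero k] (n : ℕ) : Fin k := ⟨k - 1 - n, by have := NeZero.pos k; omega⟩

/-- The integer levels: `levelZ x n = Tr(k-n, ν, ·)` (`levelZ x 0 = 1`). -/
def levelZ [NeZero k] (x : Fin k → Vec ν → Bool) : ℕ → Vec ν → ℤ
  | 0 => fun _ => 1
  | n + 1 => bfZ (fun l => sgnZ (x (revIdx n) l) * levelZ x n l) ν

/-- The bottom row of the true trace of block `a`. -/
def tr0Z [NeZero k] (x : Fin k → Vec ν → Bool) (a : Fin k) (l : Vec ν) : ℤ :=
  sgnZ (x a l) * levelZ x (k - 1 - a) l

/-- The true trace. -/
def trueTr [NeZero k] (x : Fin k → Vec ν → Bool) (a : Fin k) (e : Fin (ν + 1)) (l : Vec ν) : ℤ :=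
  bfZ (tr0Z x a) e l

theorem levelZ_abs_le [NeZero k] (x : Fin k → Vec ν → Bool) :
    ∀ (n : ℕ) (l : Vec ν), |levelZ x n l| ≤ (2 ^ ν) ^ n := by
  intro n
  induction n with
  | zero => intro l; simp [levelZ]
  | succ n ih =>
    intro l
    have := bfZ_abs_le (fun l => sgnZ (x (revIdx n) l) * levelZ x n l) ((2 ^ ν) ^ n)
      (fun m => by rw [abs_mul, sgnZ_abs, one_mul]; exact ih m) ν l
    simp only [levelZ]
    rw [pow_succ']
    exact this

theorem trueTr_abs_le [NeZero k] (x : Fin k → Vec ν → Bool) (a : Fin k) (e : Fin (ν + 1))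
    (l : Vec ν) : |trueTr x a e l| ≤ 2 ^ (k * ν) := by
  have h1 := bfZ_abs_le (tr0Z x a) ((2 ^ ν) ^ (k - 1 - (a : ℕ)))
    (fun m => by
      unfold tr0Z
      rw [abs_mul, sgnZ_abs, one_mul]
      exact levelZ_abs_le x _ m) e l
  refine le_trans h1 ?_
  have hk := a.2
  have he : (e : ℕ) ≤ ν := Nat.lt_succ_iff.mp e.2
  have h3 : (2 : ℤ) ^ (e : ℕ) ≤ 2 ^ ν := pow_le_pow_right₀ (by norm_num) he
  have h4 : ((2 : ℤ) ^ ν) ^ (k - 1 - (a : ℕ)) * 2 ^ ν ≤ 2 ^ (k * ν) := by
    rw [← pow_mul, ← pow_add]
    refine pow_le_pow_right₀ (by norm_num) ?_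
    have : ν * (k - 1 - (a : ℕ)) + ν = (k - 1 - (a : ℕ) + 1) * ν := by ring
    rw [this]
    exact Nat.mul_le_mul_right _ (by omega)
  have h5 : (0 : ℤ) ≤ ((2 : ℤ) ^ ν) ^ (k - 1 - (a : ℕ)) := by positivity
  nlinarith

/-- `trueTr` obeys check `c4`. -/
theorem trueTr_butterfly [NeZero k] (x : Fin k → Vec ν → Bool) (a : Fin k) (e : Fin ν) (l : Vec ν) :
    trueTr x a e.succ l = trueTr x a e.castSucc (Function.update l e false) +
      sgnZ (l e) * trueTr x a e.castSucc (Function.update l e true) := by
  unfold trueTr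
  simp only [Fin.val_succ, Fin.val_castSucc, bfZ]
  rw [dif_pos e.2]

/-- `trueTr` obeys check `c3`. -/
theorem trueTr_zero [NeZero k] (x : Fin k → Vec ν → Bool) (a : Fin k) (l : Vec ν) :
    trueTr x a 0 l = sgnZ (x a l) *
      (if h : (a : ℕ) + 1 < k then trueTr x ⟨(a : ℕ) + 1, h⟩ (Fin.last ν) l else 1) := by
  have h0 : trueTr x a 0 l = sgnZ (x a l) * levelZ x (k - 1 - a) l := rfl
  rw [h0]
  congr 1
  split
  · rename_i h
    have h1 : k - 1 - (a : ℕ) = (k - 1 - ((a : ℕ) + 1)) + 1 := by omega
    rw [h1]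
    simp only [levelZ]
    unfold trueTr
    have h2 : (revIdx (k - 1 - ((a : ℕ) + 1)) : Fin k) = ⟨(a : ℕ) + 1, h⟩ := by
      apply Fin.ext
      simp only [revIdx]
      omega
    rw [h2]
    rfl
  · rename_i h
    have h1 : k - 1 - (a : ℕ) = 0 := by omega
    rw [h1]
    rfl

/-- Amplitude of the true trace. -/
theorem psi_eq_trueTr [NeZero k] (x : Fin k → Vec ν → Bool) (s : Vec ν) :
    psi x s = ((trueTr x 0 (Fin.last ν) s : ℤ) : ℝ) / Real.sqrt (sizeR ν) ^ (k + 1) := by
  refine trace_semantics x (fun a e l => ((trueTr x a e l : ℤ) : ℝ)) ?_ ?_ s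
  · intro a l
    rw [trueTr_zero]
    push_cast
    rw [sgnZ_cast]
    split <;> simp
  · intro a e l
    rw [trueTr_butterfly]
    push_cast
    rw [sgnZ_cast]

/-- `bitsVal` reaches every integer in its range. -/
theorem bitsVal_surj (hb : 1 ≤ b) (t : ℤ) (h1 : -2 ^ (b - 1) ≤ t) (h2 : t < 2 ^ (b - 1)) :
    ∃ w : Fin b → Bool, bitsVal w = t := by
  have hpow : (2 : ℤ) ^ b = 2 * 2 ^ (b - 1) := by
    obtain ⟨c, rfl⟩ : ∃ c, b = c + 1 := ⟨b - 1, by omega⟩
    simp [pow_succ]; ring
  set n : ℕ := (t + 2 ^ (b - 1)).toNat with hn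
  have hn0 : (n : ℤ) = t + 2 ^ (b - 1) := Int.toNat_of_nonneg (by linarith)
  have hn1 : n < 2 ^ b := by
    have : (n : ℤ) < 2 ^ b := by rw [hn0, hpow]; linarith
    exact_mod_cast this
  let f : Fin b → Fin 2 := finFunctionFinEquiv.symm ⟨n, hn1⟩
  refine ⟨fun p => decide (f p = 1), ?_⟩
  have hf : (finFunctionFinEquiv f : ℕ) = n := by
    simp [f]
  rw [finFunctionFinEquiv_apply] at hf
  unfold bitsVal
  have : ∑ p : Fin b, (if decide (f p = 1) = true then (2 : ℤ) ^ (p : ℕ) else 0) = (n : ℤ) := by
    rw [← hf]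
    push_cast
    refine Finset.sum_congr rfl fun p _ => ?_
    have hp : f p = 0 ∨ f p = 1 := by
      have := (f p).2
      rcases hv : (f p : ℕ) with _ | m
      · left; exact Fin.ext hv
      · right; apply Fin.ext; simp; omega
    rcases hp with hp | hp
    · simp [hp]
    · simp [hp]
  rw [this, hn0]
  ring

open Classical in
/-- The bits of an integer. -/
noncomputable def encBits (t : ℤ) : Fin b → Bool :=
  if h : ∃ w : Fin b → Bool, bitsVal w = t then h.choose else fun _ => false

theorem bitsVal_encBits (hb : 1 ≤ b) (t : ℤ) (h1 : -2 ^ (b - 1) ≤ t) (h2 : t < 2 ^ (b - 1)) :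
    bitsVal (encBits (b := b) t) = t := by
  unfold encBits
  rw [dif_pos (bitsVal_surj hb t h1 h2)]
  exact (bitsVal_surj hb t h1 h2).choose_spec

/-- **Encoding.** If `b ≥ kν + 2`, the true trace of an instance with amplitude at least `θ` makes
the candidate valid, as soon as the flags and the list are right. `cellOf x list` is the content of
a cell, all other input bits arbitrary. -/
noncomputable def cellOf [NeZero k] (x : Fin k → Vec ν → Bool) (list : Vec ν → Vec ν) :
    CellIdx k ν b → Bool
  | Sum.inl (j', p) => list j' p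
  | Sum.inr (a, e, l, p) => encBits (trueTr x a e l) p

theorem valid_of_cellOf [NeZero k] (hb : k * ν + 2 ≤ b) (θ : ℝ) (z : Idx k ν b → Bool)
    (j s : Vec ν) (list : Vec ν → Vec ν)
    (hcell : ∀ c, z (Sum.inr (Sum.inr (j, s, c))) = cellOf (instAt z j) list c)
    (hflag : ∀ t, z (posFlag j t) = true)
    (hzero : ∀ j', j' ≠ j → z (posFlag j' (list j')) = false)
    (hamp : θ ≤ psi (instAt z j) s) : Valid θ z j s := by
  have htrace : ∀ (a : Fin k) (e : Fin (ν + 1)) (l : Vec ν),
      traceAt z j s a e l = trueTr (instAt z j) a e l := by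
    intro a e l
    unfold traceAt
    have h1 : (fun p => z (posTrace j s a e l p)) = encBits (trueTr (instAt z j) a e l) := by
      funext p
      exact hcell (Sum.inr (a, e, l, p))
    rw [h1]
    have hbound := abs_le.mp (trueTr_abs_le (instAt z j) a e l)
    have hpow : (2 : ℤ) ^ (k * ν) < 2 ^ (b - 1) :=
      pow_lt_pow_right₀ (by norm_num) (by omega)
    refine bitsVal_encBits (by omega) _ (by linarith [hbound.1]) (by linarith [hbound.2])
  rintro (t | j' | ⟨a, l⟩ | ⟨a, e, l⟩ | u)
  · rw [check_flag]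
    exact hflag t
  · by_cases hj : j' = j
    · simp only [checkTree, if_pos hj]
      rfl
    · rw [check_list θ z j s j' hj]
      have h1 : listAt z j s j' = list j' := by
        funext p
        exact hcell (Sum.inl (j', p))
      rw [h1, hzero j' hj]
      rfl
  · simp only [checkTree]
    rw [eval_tr0Tree, decide_eq_true_iff, htrace, trueTr_zero]
    congr 1
    unfold nextAt
    split
    · rw [htrace]
    · rfl
  · simp only [checkTree]
    rw [eval_tr1Tree, decide_eq_true_iff, htrace, htrace, htrace, trueTr_butterfly]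
  · simp only [checkTree]
    rw [eval_finalTree, htrace]
    have h1 := psi_eq_trueTr (instAt z j) s
    have hw : 0 < Real.sqrt (sizeR ν) ^ (k + 1) := pow_pos (Real.sqrt_pos.mpr (sizeR_pos ν)) _
    rw [h1, le_div_iff₀ hw] at hamp
    exact hamp

/-- Two valid candidates in different columns conflict. -/
theorem valid_conflict [NeZero k] (θ : ℝ) (z : Idx k ν b → Bool) (j s j' s' : Vec ν) (hj : j' ≠ j)
    (h : Valid θ z j s) (h' : Valid θ z j' s') : False := by
  have h1 := h (Sum.inl (listAt z j' s' j))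
  rw [check_flag] at h1
  have h2 := h' (Sum.inr (Sum.inl j))
  rw [check_list θ z j' s' j (Ne.symm hj)] at h2
  simp [h1] at h2

end Crest.Agent.QuartSep
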