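-- Row 350 (S0554): the tournament mass lemma (blueprint 2f).
import Crest.Agent.Lib.QuartSep.Basic

set_option autoImplicit false

namespace Crest.Agent.QuartSep

open Finset BigOperators

variable {J S : Type} [Fintype J] [Fintype S] [DecidableEq J] [DecidableEq S]

/-- `κ(j,s) = ∑_{j'≠j} (1 - zero (j,s) j') + ∑_{j'≠j} ∑_{s'} ν j' s' * zero (j',s') j`. -/
noncomputable def kappa (w : J → S → ℝ) (zero : J × S → J → ℝ) (j : J) (s : S) : ℝ :=
  ∑ j' ∈ univ.erase j, (1 - zero (j, s) j') + ∑ j' ∈ univ.erase j, ∑ s', w j' s' * zero (j', s') j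

/-- The key double counting: `W² - W ≤ ∑_{v ∈ T} w v κ v`, `W` the mass of `T`. -/
theorem mass_sq_le (w : J → S → ℝ) (zero : J × S → J → ℝ)
    (hw0 : ∀ j s, 0 ≤ w j s) (hw1 : ∀ j, ∑ s, w j s = 1)
    (hz0 : ∀ v j, 0 ≤ zero v j) (hz1 : ∀ v j, zero v j ≤ 1) (T : Finset (J × S)) :
    (∑ v ∈ T, w v.1 v.2) ^ 2 - ∑ v ∈ T, w v.1 v.2 ≤ ∑ v ∈ T, w v.1 v.2 * kappa w zero v.1 v.2 := by
  classical
  set mass : ℝ := ∑ v ∈ T, w v.1 v.2 with hmassdef
  -- mass of column `j'` inside `T`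
  set W : J → ℝ := fun j' => ∑ s ∈ univ.filter (fun s => (j', s) ∈ T), w j' s with hW
  have hW1 : ∀ j', W j' ≤ 1 := fun j' => by
    calc W j' ≤ ∑ s, w j' s := sum_le_sum_of_subset_of_nonneg (subset_univ _)
            (fun s _ _ => hw0 j' s)
      _ = 1 := hw1 j'
  -- sum over `T` = double sum with indicator
  have hsumT : ∀ f : J × S → ℝ, ∑ v ∈ T, f v = ∑ j, ∑ s ∈ univ.filter (fun s => (j, s) ∈ T), f (j, s) := by
    intro f
    have : T = (univ : Finset (J × S)).filter (· ∈ T) := by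
      ext v; simp
    conv_lhs => rw [this]
    rw [sum_filter, ← univ_product_univ, sum_product]
    refine sum_congr rfl fun j _ => ?_
    rw [sum_filter]
  -- lower bound for own
  have hown : ∀ v ∈ T, ∑ v' ∈ T, (if v'.1 ≠ v.1 then w v'.1 v'.2 * (1 - zero v v'.1) else 0)
      ≤ ∑ j' ∈ univ.erase v.1, (1 - zero (v.1, v.2) j') := by
    intro v _
    rw [hsumT]
    have herase : ∀ g : J → ℝ, ∑ j' ∈ univ.erase v.1, g j' = ∑ j', (if j' ≠ v.1 then g j' else 0) := by
      intro g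
      rw [← sum_filter]
      refine sum_congr ?_ fun _ _ => rfl
      ext a; simp
    rw [herase]
    refine sum_le_sum fun j' _ => ?_
    by_cases h : j' = v.1
    · simp [h]
    · simp only [h, ne_eq, not_false_eq_true, if_true]
      rw [← sum_mul]
      have h1 : 0 ≤ 1 - zero v j' := by linarith [hz1 v j']
      calc (∑ s ∈ univ.filter (fun s => (j', s) ∈ T), w j' s) * (1 - zero v j')
          ≤ 1 * (1 - zero v j') := mul_le_mul_of_nonneg_right (hW1 j') h1
        _ = _ := by simp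
  have hcross : ∀ v ∈ T, ∑ v' ∈ T, (if v'.1 ≠ v.1 then w v'.1 v'.2 * zero v' v.1 else 0)
      ≤ ∑ j' ∈ univ.erase v.1, ∑ s', w j' s' * zero (j', s') v.1 := by
    intro v _
    rw [hsumT]
    have herase : ∀ g : J → ℝ, ∑ j' ∈ univ.erase v.1, g j' = ∑ j', (if j' ≠ v.1 then g j' else 0) := by
      intro g
      rw [← sum_filter]
      refine sum_congr ?_ fun _ _ => rfl
      ext a; simp
    rw [herase]
    refine sum_le_sum fun j' _ => ?_
    by_cases h : j' = v.1
    · simp [h]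
    · simp only [h, ne_eq, not_false_eq_true, if_true]
      exact sum_le_sum_of_subset_of_nonneg (subset_univ _)
        (fun s _ _ => mul_nonneg (hw0 _ _) (hz0 _ _))
  -- combine
  have hstep : ∑ v ∈ T, ∑ v' ∈ T, (if v'.1 ≠ v.1 then w v.1 v.2 * w v'.1 v'.2 else 0)
      ≤ ∑ v ∈ T, w v.1 v.2 * kappa w zero v.1 v.2 := by
    have hsplit : ∑ v ∈ T, ∑ v' ∈ T, (if v'.1 ≠ v.1 then w v.1 v.2 * w v'.1 v'.2 else 0)
        = ∑ v ∈ T, w v.1 v.2 * ∑ v' ∈ T, (if v'.1 ≠ v.1 then w v'.1 v'.2 * (1 - zero v v'.1) else 0)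
          + ∑ v ∈ T, w v.1 v.2 * ∑ v' ∈ T, (if v'.1 ≠ v.1 then w v'.1 v'.2 * zero v' v.1 else 0) := by
      -- second term: swap `v`, `v'`
      have hswap : ∑ v ∈ T, w v.1 v.2 * ∑ v' ∈ T, (if v'.1 ≠ v.1 then w v'.1 v'.2 * zero v' v.1 else 0)
          = ∑ v ∈ T, w v.1 v.2 * ∑ v' ∈ T, (if v'.1 ≠ v.1 then w v'.1 v'.2 * zero v v'.1 else 0) := by
        simp only [mul_sum]
        rw [sum_comm]
        refine sum_congr rfl fun v _ => sum_congr rfl fun v' _ => ?_
        by_cases h : v'.1 = v.1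
        · simp [h]
        · have h' : ¬ v.1 = v'.1 := fun e => h e.symm
          simp only [h, h', ne_eq, not_false_eq_true, if_true]
          ring
      rw [hswap, ← sum_add_distrib]
      refine sum_congr rfl fun v _ => ?_
      rw [← mul_add, ← sum_add_distrib, mul_sum]
      refine sum_congr rfl fun v' _ => ?_
      by_cases h : v'.1 = v.1
      · simp [h]
      · simp only [h, ne_eq, not_false_eq_true, if_true]
        ring
    rw [hsplit, ← sum_add_distrib]
    refine sum_le_sum fun v hv => ?_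
    unfold kappa
    rw [← mul_add]
    exact mul_le_mul_of_nonneg_left (add_le_add (hown v hv) (hcross v hv)) (hw0 _ _)
  -- W² - ∑ W_j² ≤ left side
  have hleft : mass ^ 2 - mass
      ≤ ∑ v ∈ T, ∑ v' ∈ T, (if v'.1 ≠ v.1 then w v.1 v.2 * w v'.1 v'.2 else 0) := by
    have h1 : ∑ v ∈ T, ∑ v' ∈ T, (if v'.1 ≠ v.1 then w v.1 v.2 * w v'.1 v'.2 else 0)
        = mass ^ 2 - ∑ v ∈ T, ∑ v' ∈ T, (if v'.1 = v.1 then w v.1 v.2 * w v'.1 v'.2 else 0) := by
      have : mass ^ 2 = ∑ v ∈ T, ∑ v' ∈ T, w v.1 v.2 * w v'.1 v'.2 := by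
        rw [hmassdef, sq, sum_mul_sum]
      rw [this, eq_sub_iff_add_eq, ← sum_add_distrib]
      refine sum_congr rfl fun v _ => ?_
      rw [← sum_add_distrib]
      refine sum_congr rfl fun v' _ => ?_
      by_cases h : v'.1 = v.1 <;> simp [h]
    rw [h1]
    have h2 : ∑ v ∈ T, ∑ v' ∈ T, (if v'.1 = v.1 then w v.1 v.2 * w v'.1 v'.2 else 0) ≤ mass := by
      have h3 : ∀ v ∈ T, ∑ v' ∈ T, (if v'.1 = v.1 then w v.1 v.2 * w v'.1 v'.2 else 0)
          ≤ w v.1 v.2 := by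
        intro v _
        rw [hsumT]
        calc ∑ j, ∑ s ∈ univ.filter (fun s => (j, s) ∈ T),
              (if ((j, s) : J × S).1 = v.1 then w v.1 v.2 * w (j, s).1 (j, s).2 else 0)
            = ∑ j, (if j = v.1 then w v.1 v.2 * W j else 0) := by
              refine sum_congr rfl fun j _ => ?_
              by_cases h : j = v.1
              · simp only [h, if_true, hW, mul_sum]
              · simp [h]
          _ = w v.1 v.2 * W v.1 := by
              rw [sum_ite_eq' univ v.1]; simp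
          _ ≤ w v.1 v.2 * 1 := mul_le_mul_of_nonneg_left (hW1 _) (hw0 _ _)
          _ = w v.1 v.2 := mul_one _
      calc _ ≤ ∑ v ∈ T, w v.1 v.2 := sum_le_sum h3
        _ = mass := rfl
    linarith
  exact hleft.trans hstep

/-- Mass of a set of candidates with bounded `κ`. If `κ ≤ K` on `T` then `w(T) ≤ K + 1`. -/
theorem mass_le (w : J → S → ℝ) (zero : J × S → J → ℝ)
    (hw0 : ∀ j s, 0 ≤ w j s) (hw1 : ∀ j, ∑ s, w j s = 1)
    (hz0 : ∀ v j, 0 ≤ zero v j) (hz1 : ∀ v j, zero v j ≤ 1)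
    (T : Finset (J × S)) (K : ℝ) (hK : 0 ≤ K) (hT : ∀ v ∈ T, kappa w zero v.1 v.2 ≤ K) :
    ∑ v ∈ T, w v.1 v.2 ≤ K + 1 := by
  have h := mass_sq_le w zero hw0 hw1 hz0 hz1 T
  have h2 : ∑ v ∈ T, w v.1 v.2 * kappa w zero v.1 v.2 ≤ K * ∑ v ∈ T, w v.1 v.2 := by
    rw [mul_sum]
    refine sum_le_sum fun v hv => ?_
    calc w v.1 v.2 * kappa w zero v.1 v.2 ≤ w v.1 v.2 * K :=
          mul_le_mul_of_nonneg_left (hT v hv) (hw0 _ _)
      _ = K * w v.1 v.2 := mul_comm _ _
  have hW : 0 ≤ ∑ v ∈ T, w v.1 v.2 := sum_nonneg fun v _ => hw0 _ _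
  by_contra hcon
  rw [not_le] at hcon
  nlinarith

omit [DecidableEq S] in
/-- `κ ≤ 2 |J|`. -/
theorem kappa_le (w : J → S → ℝ) (zero : J × S → J → ℝ)
    (hw0 : ∀ j s, 0 ≤ w j s) (hw1 : ∀ j, ∑ s, w j s = 1)
    (hz0 : ∀ v j, 0 ≤ zero v j) (hz1 : ∀ v j, zero v j ≤ 1) (j : J) (s : S) :
    kappa w zero j s ≤ 2 * (Fintype.card J : ℝ) := by
  unfold kappa
  have hcard : ((univ.erase j).card : ℝ) ≤ Fintype.card J := by
    exact_mod_cast (card_le_card (erase_subset j univ)).trans (le_of_eq card_univ)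
  have h1 : ∑ j' ∈ univ.erase j, (1 - zero (j, s) j') ≤ (Fintype.card J : ℝ) := by
    calc _ ≤ ∑ _j' ∈ univ.erase j, (1 : ℝ) := sum_le_sum fun j' _ => by linarith [hz0 (j, s) j']
      _ = ((univ.erase j).card : ℝ) := by simp
      _ ≤ _ := hcard
  have h2 : ∑ j' ∈ univ.erase j, ∑ s', w j' s' * zero (j', s') j ≤ (Fintype.card J : ℝ) := by
    calc _ ≤ ∑ _j' ∈ univ.erase j, (1 : ℝ) := sum_le_sum fun j' _ => by
            calc ∑ s', w j' s' * zero (j', s') j ≤ ∑ s', w j' s' :=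
                  sum_le_sum fun s' _ => by
                    have := mul_le_mul_of_nonneg_left (hz1 (j', s') j) (hw0 j' s')
                    linarith
              _ = 1 := hw1 j'
      _ = ((univ.erase j).card : ℝ) := by simp
      _ ≤ _ := hcard
  linarith

/-- Dyadic summation: if `κ ≤ 2^L` everywhere then `∑ w / max 1 κ ≤ 3 L + 2`. -/
theorem mass_dyadic (w : J → S → ℝ) (zero : J × S → J → ℝ)
    (hw0 : ∀ j s, 0 ≤ w j s) (hw1 : ∀ j, ∑ s, w j s = 1)
    (hz0 : ∀ v j, 0 ≤ zero v j) (hz1 : ∀ v j, zero v j ≤ 1)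
    (L : ℕ) (hκ : ∀ j s, kappa w zero j s ≤ 2 ^ L) :
    ∑ j, ∑ s, w j s / max 1 (kappa w zero j s) ≤ 3 * (L : ℝ) + 2 := by
  classical
  set low : ℝ → Finset (J × S) := fun K => univ.filter fun v => kappa w zero v.1 v.2 ≤ K with hlow
  have hmass : ∀ i : ℕ, ∑ v ∈ low ((2 : ℝ) ^ i), w v.1 v.2 ≤ (2 : ℝ) ^ i + 1 := by
    intro i
    refine mass_le w zero hw0 hw1 hz0 hz1 _ _ (by positivity) fun v hv => ?_
    simpa [hlow] using hv
  -- partial sums over `{κ ≤ 2^i}`
  have key : ∀ i : ℕ, ∑ v ∈ low ((2 : ℝ) ^ i), w v.1 v.2 / max 1 (kappa w zero v.1 v.2)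
      ≤ 3 * (i : ℝ) + 2 := by
    intro i
    induction i with
    | zero =>
      calc _ ≤ ∑ v ∈ low ((2 : ℝ) ^ 0), w v.1 v.2 := by
            refine sum_le_sum fun v _ => ?_
            exact div_le_self (hw0 _ _) (le_max_left _ _)
        _ ≤ (2 : ℝ) ^ 0 + 1 := hmass 0
        _ = _ := by norm_num
    | succ i ih =>
      have hsub : low ((2 : ℝ) ^ i) ⊆ low ((2 : ℝ) ^ (i + 1)) := by
        intro v hv
        simp only [hlow, mem_filter, mem_univ, true_and] at hv ⊢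
        have : (2 : ℝ) ^ i ≤ 2 ^ (i + 1) := pow_le_pow_right₀ (by norm_num) (Nat.le_succ i)
        linarith
      have hsplit := sum_sdiff (f := fun v : J × S => w v.1 v.2 / max 1 (kappa w zero v.1 v.2)) hsub
      have hdiff : ∑ v ∈ low ((2 : ℝ) ^ (i + 1)) \ low ((2 : ℝ) ^ i),
          w v.1 v.2 / max 1 (kappa w zero v.1 v.2) ≤ 3 := by
        have hpos : (0 : ℝ) < 2 ^ i := by positivity
        calc _ ≤ ∑ v ∈ low ((2 : ℝ) ^ (i + 1)), w v.1 v.2 / (2 : ℝ) ^ i := by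
              refine (sum_le_sum fun v hv => ?_).trans
                (sum_le_sum_of_subset_of_nonneg sdiff_subset
                  (fun v _ _ => div_nonneg (hw0 _ _) hpos.le))
              have hv' : ¬ kappa w zero v.1 v.2 ≤ 2 ^ i := by
                have := (mem_sdiff.mp hv).2
                simpa [hlow] using this
              rw [not_le] at hv'
              exact div_le_div_of_nonneg_left (hw0 _ _) hpos (hv'.le.trans (le_max_right _ _))
          _ = (∑ v ∈ low ((2 : ℝ) ^ (i + 1)), w v.1 v.2) / 2 ^ i := by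
              rw [sum_div]
          _ ≤ ((2 : ℝ) ^ (i + 1) + 1) / 2 ^ i :=
              div_le_div_of_nonneg_right (hmass (i + 1)) hpos.le
          _ ≤ 3 := by
              rw [div_le_iff₀ hpos, pow_succ]
              have : (1 : ℝ) ≤ 2 ^ i := one_le_pow₀ (by norm_num)
              linarith
      push_cast
      linarith
  have hall : low ((2 : ℝ) ^ L) = univ := by
    ext v
    simp [hlow, hκ]
  have h := key L
  rw [hall, ← univ_product_univ, sum_product] at h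
  exact h

/-- The dyadic sum: with `|J| = 2^n`, `∑_v w v / max 1 (κ v) ≤ 3 n + 5`. -/
theorem mass_sum_le (n : ℕ) (hJ : Fintype.card J = 2 ^ n) (w : J → S → ℝ) (zero : J × S → J → ℝ)
    (hw0 : ∀ j s, 0 ≤ w j s) (hw1 : ∀ j, ∑ s, w j s = 1)
    (hz0 : ∀ v j, 0 ≤ zero v j) (hz1 : ∀ v j, zero v j ≤ 1) :
    ∑ j, ∑ s, w j s / max 1 (kappa w zero j s) ≤ 3 * n + 5 := by
  have h := mass_dyadic w zero hw0 hw1 hz0 hz1 (n + 1) (fun j s => by
    have := kappa_le w zero hw0 hw1 hz0 hz1 j s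
    rw [hJ] at this
    push_cast at this
    rw [pow_succ]
    linarith)
  push_cast at h
  linarith

end Crest.Agent.QuartSep
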