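-- Row 350 (S0554): assembly of the dual-adversary solution (blueprint 2e).
import Crest.Agent.Lib.QuartSep.Instance
import Crest.Agent.Lib.QuartSep.Mass

set_option autoImplicit false
set_option linter.unusedSectionVars false

namespace Crest.Agent.QuartSep

open Finset BigOperators

variable {k ν b : ℕ} [NeZero k]

/-- The total weight parameter: number of checks. -/
def numChecks (k ν : ℕ) : ℕ := Fintype.card (CheckIdx k ν)

/-! ### The quantities of the blueprint -/

/-- The amplitude `β_{(j,s)}(z)`. -/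
noncomputable def amp (z : Idx k ν b → Bool) (j s : Vec ν) : ℝ := psi (instAt z j) s

/-- `zero(v, j')`: the list entry of column `j'` of candidate `v` points to a false flag. -/
noncomputable def zeroI (z : Idx k ν b → Bool) (v : Vec ν × Vec ν) (j' : Vec ν) : ℝ :=
  if z (posFlag j' (listAt z v.1 v.2 j')) = false then 1 else 0

/-- The cross test value `∑_{s'} β_{(j',s')}² zero((j',s'), j)`. -/
noncomputable def crossVal (z : Idx k ν b → Bool) (j j' : Vec ν) : ℝ :=
  ∑ s', amp z j' s' ^ 2 * zeroI z (j', s') j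

/-- The failure indicator of a check. -/
noncomputable def failI (θ : ℝ) (j s : Vec ν) (c : CheckIdx k ν) (z : Idx k ν b → Bool) : ℝ :=
  if (checkTree θ j s c).eval z = false then 1 else 0

/-- `μ_v(z)`: all tests with their weights. -/
noncomputable def mu (θ : ℝ) (z : Idx k ν b → Bool) (j s : Vec ν) : ℝ :=
  ∑ c : CheckIdx k ν, (1 / (2 * (numChecks k ν : ℝ))) * failI θ j s c z +
    ∑ j' ∈ univ.erase j, (1 / (2 * (2 : ℝ) ^ ν)) * crossVal z j j'

/-- The bound on all tests. -/
noncomputable def bigT (k ν b : ℕ) : ℝ := 2 * (k : ℝ) + checkDepth ν b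

theorem zeroI_nonneg (z : Idx k ν b → Bool) (v : Vec ν × Vec ν) (j' : Vec ν) :
    0 ≤ zeroI z v j' := by
  unfold zeroI; split_ifs <;> norm_num

theorem zeroI_le_one (z : Idx k ν b → Bool) (v : Vec ν × Vec ν) (j' : Vec ν) :
    zeroI z v j' ≤ 1 := by
  unfold zeroI; split_ifs <;> norm_num

theorem zeroI_sq (z : Idx k ν b → Bool) (v : Vec ν × Vec ν) (j' : Vec ν) :
    zeroI z v j' ^ 2 = zeroI z v j' := by
  unfold zeroI; split_ifs <;> norm_num

theorem failI_nonneg (θ : ℝ) (j s : Vec ν) (c : CheckIdx k ν) (z : Idx k ν b → Bool) :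
    0 ≤ failI θ j s c z := by
  unfold failI; split_ifs <;> norm_num

theorem crossVal_nonneg (z : Idx k ν b → Bool) (j j' : Vec ν) : 0 ≤ crossVal z j j' :=
  Finset.sum_nonneg fun _ _ => mul_nonneg (sq_nonneg _) (zeroI_nonneg _ _ _)

theorem amp_norm (z : Idx k ν b → Bool) (j : Vec ν) : ∑ s, amp z j s ^ 2 = 1 :=
  psi_norm (instAt z j)

theorem numChecks_pos : 0 < numChecks k ν := by
  unfold numChecks
  exact Fintype.card_pos_iff.mpr ⟨Sum.inl (fun _ => false)⟩

theorem card_vecI : Fintype.card (Vec ν) = 2 ^ ν := by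
  simp [Vec]

theorem two_pow_le_numChecks : 2 ^ ν ≤ numChecks k ν := by
  unfold numChecks CheckIdx
  rw [Fintype.card_sum, card_vecI]
  exact Nat.le_add_right _ _

theorem checkDepth_nonneg : (0 : ℝ) ≤ (checkDepth ν b : ℝ) := Nat.cast_nonneg _

theorem bigT_nonneg : 0 ≤ bigT k ν b := by
  unfold bigT; positivity

/-! ### Representations of the single tests -/

/-- A local check as a representation. -/
theorem rep_check (θ : ℝ) (j s : Vec ν) (c : CheckIdx k ν) :
    Rep (fun x : Idx k ν b → Bool => Valid θ x j s) (fun _ => True)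
      (fun _ y => failI θ j s c y) (fun _ => (checkDepth ν b : ℝ))
      (fun y => (checkDepth ν b : ℝ) * failI θ j s c y) := by
  refine (Rep.of_tree (checkTree (b := b) θ j s c)).mono (fun x hx => hx c) (fun _ _ => trivial)
    (fun _ _ _ _ => rfl) (fun _ _ => ?_) (fun y _ => ?_)
  · exact_mod_cast checkTree_depth (k := k) (b := b) θ j s c
  · have hd : ((checkTree (b := b) θ j s c).depth : ℝ) ≤ checkDepth ν b := by
      exact_mod_cast checkTree_depth (k := k) (b := b) θ j s c
    unfold failI
    split_ifs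
    · simpa using hd
    · simp

/-- The tree "flag(j, list_{(j',s')}(j)) is true". -/
noncomputable def crossFlagTree (θ : ℝ) (j j' s' : Vec ν) : DT (Idx k ν b) :=
  DT.neg (checkTree θ j' s' (Sum.inr (Sum.inl j) : CheckIdx k ν))

theorem crossFlagTree_eval (θ : ℝ) (z : Idx k ν b → Bool) (j j' s' : Vec ν) (hj : j' ≠ j) :
    (crossFlagTree θ j j' s').eval z = z (posFlag j (listAt z j' s' j)) := by
  unfold crossFlagTree
  rw [DT.eval_neg, check_list θ z j' s' j hj.symm]
  simp

/-- The second half of a cross test. -/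
theorem rep_flag (θ : ℝ) (j j' s' : Vec ν) (hj : j' ≠ j) :
    Rep (fun x : Idx k ν b → Bool => ∀ t, x (posFlag j t) = true) (fun _ => True)
      (fun _ y => zeroI y (j', s') j) (fun _ => (checkDepth ν b : ℝ))
      (fun y => (checkDepth ν b : ℝ) * zeroI y (j', s') j) := by
  have hd : ((crossFlagTree (k := k) (b := b) θ j j' s').depth : ℝ) ≤ checkDepth ν b := by
    unfold crossFlagTree
    rw [DT.depth_neg]
    exact_mod_cast checkTree_depth (k := k) (b := b) θ j' s' (Sum.inr (Sum.inl j) : CheckIdx k ν)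
  refine (Rep.of_tree (crossFlagTree (k := k) (b := b) θ j j' s')).mono (fun x hx => ?_) (fun _ _ => trivial)
    (fun _ y _ _ => ?_) (fun _ _ => hd) (fun y _ => ?_)
  · rw [crossFlagTree_eval θ x j j' s' hj]
    exact hx _
  · simp only [zeroI]
    rw [crossFlagTree_eval θ y j j' s' hj]
  · simp only [zeroI]
    rw [crossFlagTree_eval θ y j j' s' hj]
    split_ifs
    · simpa using hd
    · simp

/-- A cross test as a representation. -/
theorem rep_cross (θ : ℝ) (j j' : Vec ν) (hj : j' ≠ j) :
    Rep (fun x : Idx k ν b → Bool => ∀ t, x (posFlag j t) = true) (fun _ => True)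
      (fun _ y => crossVal y j j') (fun _ => bigT k ν b)
      (fun y => bigT k ν b * crossVal y j j') := by
  -- first bracket: chain hybrid, right form
  have h₁ := chain_rep_right (I := Idx k ν b) (fun a l => posInst j' a l)
    (posInst_injective j')
    (fun y l => amp y j' l * zeroI y (j', l) j)
  -- second sum: the trees
  have h₂ := Rep.sum_scaled (I := Idx k ν b) (C := Vec ν)
    (Px := fun x => ∀ t, x (posFlag j t) = true) (Py := fun _ => True)
    (Pxc := fun _ x => ∀ t, x (posFlag j t) = true) (Pyc := fun _ _ => True)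
    (E := fun s' _ y => zeroI y (j', s') j) (A := fun _ _ => (checkDepth ν b : ℝ))
    (B := fun s' y => (checkDepth ν b : ℝ) * zeroI y (j', s') j)
    (fun s' x => amp x j' s') (fun s' y => amp y j' s')
    (fun _ _ hx _ => hx) (fun _ _ hy _ => hy) (fun s' => rep_flag θ j j' s' hj)
  have h₁' := h₁.mono (Px' := fun x : Idx k ν b → Bool => ∀ t, x (posFlag j t) = true)
    (Py' := fun _ => True) (fun _ _ => trivial) (fun _ _ => trivial)
    (fun _ _ _ _ => rfl) (fun _ _ => le_rfl) (fun _ _ => le_rfl)
  refine (h₁'.add h₂).mono (fun _ h => h) (fun _ h => h) (fun x y _ _ => ?_) (fun x _ => ?_)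
    (fun y _ => ?_)
  · -- the equation
    simp only [crossVal]
    have e₁ : ∀ l, amp y j' l * zeroI y (j', l) j * psi (instOf (fun a l => posInst j' a l) y) l
        = amp y j' l ^ 2 * zeroI y (j', l) j := by
      intro l
      change amp y j' l * zeroI y (j', l) j * amp y j' l = _
      ring
    have e₂ : ∀ l, amp y j' l * zeroI y (j', l) j * psi (instOf (fun a l => posInst j' a l) x) l
        = amp x j' l * amp y j' l * zeroI y (j', l) j := by
      intro l
      change amp y j' l * zeroI y (j', l) j * amp x j' l = _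
      ring
    simp only [e₁, e₂]
    ring
  · -- the bound on A
    have : ∑ c, amp x j' c ^ 2 * (checkDepth ν b : ℝ) = (checkDepth ν b : ℝ) := by
      rw [← Finset.sum_mul, amp_norm, one_mul]
    simp only [this, bigT]
    exact le_rfl
  · -- the bound on B
    have e₁ : ∑ l, (amp y j' l * zeroI y (j', l) j) ^ 2 = crossVal y j j' := by
      unfold crossVal
      refine Finset.sum_congr rfl fun l _ => ?_
      rw [mul_pow, zeroI_sq]
    have e₂ : ∑ c, amp y j' c ^ 2 * ((checkDepth ν b : ℝ) * zeroI y (j', c) j)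
        = (checkDepth ν b : ℝ) * crossVal y j j' := by
      unfold crossVal
      rw [Finset.mul_sum]
      refine Finset.sum_congr rfl fun l _ => ?_
      ring
    simp only [e₁, e₂, bigT]
    apply le_of_eq
    ring

/-! ### One candidate: all tests together -/

/-- The sum of all tests of a candidate, with weights. -/
theorem rep_mu (θ : ℝ) (j s : Vec ν) :
    Rep (fun x : Idx k ν b → Bool => Valid θ x j s) (fun _ => True)
      (fun _ y => mu θ y j s) (fun _ => bigT k ν b) (fun y => bigT k ν b * mu θ y j s) := by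
  have hP : (0 : ℝ) < (numChecks k ν : ℝ) := by exact_mod_cast numChecks_pos
  have hN : (0 : ℝ) < (2 : ℝ) ^ ν := by positivity
  set a : ℝ := Real.sqrt (1 / (2 * (numChecks k ν : ℝ))) with ha
  set e : ℝ := Real.sqrt (1 / (2 * (2 : ℝ) ^ ν)) with he
  have ha2 : a * a = 1 / (2 * (numChecks k ν : ℝ)) := Real.mul_self_sqrt (by positivity)
  have he2 : e * e = 1 / (2 * (2 : ℝ) ^ ν) := Real.mul_self_sqrt (by positivity)
  have hvalid : ∀ x : Idx k ν b → Bool, Valid θ x j s → ∀ t, x (posFlag j t) = true := by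
    intro x hx t
    have := hx (Sum.inl t)
    rwa [check_flag] at this
  -- the checks
  have h₁ := Rep.sum_scaled (I := Idx k ν b) (C := CheckIdx k ν)
    (Px := fun x => Valid θ x j s) (Py := fun _ => True)
    (Pxc := fun _ x => Valid θ x j s) (Pyc := fun _ _ => True)
    (E := fun c _ y => failI θ j s c y) (A := fun _ _ => (checkDepth ν b : ℝ))
    (B := fun c y => (checkDepth ν b : ℝ) * failI θ j s c y)
    (fun _ _ => a) (fun _ _ => a)
    (fun _ _ hx _ => hx) (fun _ _ hy _ => hy) (fun c => rep_check θ j s c)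
  -- the cross tests
  have h₂ := Rep.sum_scaled (I := Idx k ν b) (C := ↥(univ.erase j : Finset (Vec ν)))
    (Px := fun x => Valid θ x j s) (Py := fun _ => True)
    (Pxc := fun _ x => ∀ t, x (posFlag j t) = true) (Pyc := fun _ _ => True)
    (E := fun j' _ y => crossVal y j j'.1) (A := fun _ _ => bigT k ν b)
    (B := fun j' y => bigT k ν b * crossVal y j j'.1)
    (fun _ _ => e) (fun _ _ => e)
    (fun _ x hx _ => hvalid x hx) (fun _ _ hy _ => hy)
    (fun j' => rep_cross θ j j'.1 (Finset.ne_of_mem_erase j'.2))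
  refine (h₁.add h₂).mono (fun _ h => h) (fun _ h => h) (fun x y _ _ => ?_) (fun x _ => ?_)
    (fun y _ => ?_)
  · -- the equation
    unfold mu
    congr 1
    · refine Finset.sum_congr rfl fun c _ => ?_
      rw [ha2]
    · rw [← Finset.sum_coe_sort (univ.erase j)]
      refine Finset.sum_congr rfl fun c _ => ?_
      rw [he2]
  · -- the bound on A
    have hcard : ((univ.erase j : Finset (Vec ν)).card : ℝ) ≤ (2 : ℝ) ^ ν := by
      have : (univ.erase j : Finset (Vec ν)).card ≤ 2 ^ ν := by
        calc (univ.erase j : Finset (Vec ν)).card ≤ (univ : Finset (Vec ν)).card :=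
              Finset.card_le_card (Finset.erase_subset _ _)
          _ = 2 ^ ν := by rw [Finset.card_univ, card_vecI]
      exact_mod_cast this
    have e₁ : ∑ c : CheckIdx k ν, a ^ 2 * (checkDepth ν b : ℝ) = (checkDepth ν b : ℝ) / 2 := by
      rw [Finset.sum_const, Finset.card_univ, nsmul_eq_mul, pow_two, ha2]
      change (numChecks k ν : ℝ) * _ = _
      field_simp
    have e₂ : ∑ c : ↥(univ.erase j : Finset (Vec ν)), e ^ 2 * bigT k ν b ≤ bigT k ν b / 2 := by
      rw [Finset.sum_const, Finset.card_univ, Fintype.card_coe, nsmul_eq_mul, pow_two, he2]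
      have hT := bigT_nonneg (k := k) (ν := ν) (b := b)
      calc ((univ.erase j : Finset (Vec ν)).card : ℝ) * (1 / (2 * (2 : ℝ) ^ ν) * bigT k ν b)
          ≤ (2 : ℝ) ^ ν * (1 / (2 * (2 : ℝ) ^ ν) * bigT k ν b) := by
            apply mul_le_mul_of_nonneg_right hcard
            positivity
        _ = bigT k ν b / 2 := by field_simp
    have hLT : (checkDepth ν b : ℝ) ≤ bigT k ν b := by
      unfold bigT
      have : (0 : ℝ) ≤ (k : ℝ) := Nat.cast_nonneg _
      linarith
    simp only [e₁]
    linarith
  · -- the bound on B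
    have hLT : (checkDepth ν b : ℝ) ≤ bigT k ν b := by
      unfold bigT
      have : (0 : ℝ) ≤ (k : ℝ) := Nat.cast_nonneg _
      linarith
    unfold mu
    rw [mul_add, Finset.mul_sum, Finset.mul_sum, ← Finset.sum_coe_sort (univ.erase j)]
    apply add_le_add
    · refine Finset.sum_le_sum fun c _ => ?_
      rw [pow_two, ha2]
      have h0 := failI_nonneg (b := b) θ j s c y
      have hc : (0:ℝ) ≤ 1 / (2 * (numChecks k ν : ℝ)) := by positivity
      calc 1 / (2 * (numChecks k ν : ℝ)) * ((checkDepth ν b : ℝ) * failI θ j s c y)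
          ≤ 1 / (2 * (numChecks k ν : ℝ)) * (bigT k ν b * failI θ j s c y) :=
            mul_le_mul_of_nonneg_left (mul_le_mul_of_nonneg_right hLT h0) hc
        _ = _ := by ring
    · refine Finset.sum_le_sum fun c _ => ?_
      rw [pow_two, he2]
      apply le_of_eq
      ring

/-! ### The lower bound on `μ` -/

theorem mu_ge_kappa (θ : ℝ) (y : Idx k ν b → Bool) (j s : Vec ν) :
    kappa (fun j s => amp y j s ^ 2) (fun v j' => zeroI y v j') j s / (2 * (numChecks k ν : ℝ)) ≤
      mu θ y j s := by
  have hP : (0 : ℝ) < (numChecks k ν : ℝ) := by exact_mod_cast numChecks_pos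
  have hN : (0 : ℝ) < (2 : ℝ) ^ ν := by positivity
  have hPN : (2 : ℝ) ^ ν ≤ (numChecks k ν : ℝ) := by
    exact_mod_cast two_pow_le_numChecks (k := k) (ν := ν)
  unfold kappa mu
  rw [add_div]
  apply add_le_add
  · -- list checks
    let ι : Vec ν ↪ CheckIdx k ν :=
      ⟨fun j' => Sum.inr (Sum.inl j'), fun a b h => by
        simpa using h⟩
    have hfail : ∀ j' ∈ univ.erase j, 1 - zeroI y (j, s) j' = failI θ j s (ι j') y := by
      intro j' hj'
      have hne : j' ≠ j := Finset.ne_of_mem_erase hj'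
      have hc := check_list θ y j s j' hne
      simp only [zeroI, failI, ι, Function.Embedding.coeFn_mk]
      simp only [hc]
      cases y (posFlag j' (listAt y j s j')) <;> simp
    rw [Finset.sum_congr rfl hfail, Finset.sum_div]
    calc ∑ j' ∈ univ.erase j, failI θ j s (ι j') y / (2 * (numChecks k ν : ℝ))
        = ∑ c ∈ (univ.erase j).map ι, failI θ j s c y / (2 * (numChecks k ν : ℝ)) := by
          rw [Finset.sum_map]
      _ ≤ ∑ c : CheckIdx k ν, failI θ j s c y / (2 * (numChecks k ν : ℝ)) :=
          Finset.sum_le_sum_of_subset_of_nonneg (Finset.subset_univ _) fun c _ _ =>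
            div_nonneg (failI_nonneg θ j s c y) (by positivity)
      _ = _ := by
          refine Finset.sum_congr rfl fun c _ => ?_
          ring
  · -- cross tests
    rw [Finset.sum_div]
    refine Finset.sum_le_sum fun j' _ => ?_
    have h0 : 0 ≤ crossVal y j j' := crossVal_nonneg y j j'
    change crossVal y j j' / (2 * (numChecks k ν : ℝ)) ≤ _
    rw [div_eq_mul_inv, mul_comm (1 / (2 * (2 : ℝ) ^ ν)), one_div]
    apply mul_le_mul_of_nonneg_left _ h0
    apply inv_anti₀ (by positivity)
    linarith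

theorem mu_ge_one (θ : ℝ) (y : Idx k ν b → Bool) (j s : Vec ν) (h : ¬ Valid θ y j s) :
    1 / (2 * (numChecks k ν : ℝ)) ≤ mu θ y j s := by
  have hP : (0 : ℝ) < (numChecks k ν : ℝ) := by exact_mod_cast numChecks_pos
  unfold Valid at h
  obtain ⟨c, hc⟩ := not_forall.mp h
  have hfail : failI θ j s c y = 1 := by
    unfold failI
    simp only [Bool.not_eq_true] at hc
    simp [hc]
  have h₁ : 1 / (2 * (numChecks k ν : ℝ)) * failI θ j s c y ≤
      ∑ c : CheckIdx k ν, (1 / (2 * (numChecks k ν : ℝ))) * failI θ j s c y :=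
    Finset.single_le_sum (f := fun c => (1 / (2 * (numChecks k ν : ℝ))) * failI θ j s c y)
      (fun c _ => mul_nonneg (by positivity) (failI_nonneg θ j s c y)) (Finset.mem_univ c)
  have h₂ : 0 ≤ ∑ j' ∈ univ.erase j, (1 / (2 * (2 : ℝ) ^ ν)) * crossVal y j j' :=
    Finset.sum_nonneg fun j' _ => mul_nonneg (by positivity) (crossVal_nonneg y j j')
  rw [hfail, mul_one] at h₁
  unfold mu
  linarith

theorem mu_ge_max (θ : ℝ) (y : Idx k ν b → Bool) (j s : Vec ν) (h : ¬ Valid θ y j s) :
    max 1 (kappa (fun j s => amp y j s ^ 2) (fun v j' => zeroI y v j') j s) /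
      (2 * (numChecks k ν : ℝ)) ≤ mu θ y j s := by
  rcases le_total 1 (kappa (fun j s => amp y j s ^ 2) (fun v j' => zeroI y v j') j s) with hk | hk
  · rw [max_eq_right hk]
    exact mu_ge_kappa θ y j s
  · rw [max_eq_left hk]
    exact mu_ge_one θ y j s h

/-- The mass bound on the `y`-side. -/
theorem sum_amp_div_mu_le (θ : ℝ) (y : Idx k ν b → Bool) (hy : ∀ j s, ¬ Valid θ y j s) :
    ∑ v : Vec ν × Vec ν, amp y v.1 v.2 ^ 2 * (bigT k ν b / mu θ y v.1 v.2) ≤
      bigT k ν b * (2 * (numChecks k ν : ℝ) * (3 * (ν : ℝ) + 5)) := by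
  have hP : (0 : ℝ) < (numChecks k ν : ℝ) := by exact_mod_cast numChecks_pos
  have hT := bigT_nonneg (k := k) (ν := ν) (b := b)
  have hmass := mass_sum_le ν (card_vecI (ν := ν)) (fun j s => amp y j s ^ 2)
    (fun v j' => zeroI y v j') (fun _ _ => sq_nonneg _) (fun j => amp_norm y j)
    (fun _ _ => zeroI_nonneg _ _ _) (fun _ _ => zeroI_le_one _ _ _)
  rw [Fintype.sum_prod_type]
  calc ∑ j, ∑ s, amp y j s ^ 2 * (bigT k ν b / mu θ y j s)
      ≤ ∑ j, ∑ s, bigT k ν b * (2 * (numChecks k ν : ℝ)) * (amp y j s ^ 2 /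
          max 1 (kappa (fun j s => amp y j s ^ 2) (fun v j' => zeroI y v j') j s)) := by
        refine Finset.sum_le_sum fun j _ => Finset.sum_le_sum fun s _ => ?_
        have hm := mu_ge_max θ y j s (hy j s)
        set K := max 1 (kappa (fun j s => amp y j s ^ 2) (fun v j' => zeroI y v j') j s) with hK
        have hK1 : 1 ≤ K := le_max_left _ _
        have hK0 : 0 < K := by linarith
        have hmpos : 0 < mu θ y j s := lt_of_lt_of_le (by positivity) hm
        have h1 : 1 / mu θ y j s ≤ 2 * (numChecks k ν : ℝ) / K := by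
          rw [div_le_div_iff₀ hmpos hK0]
          rw [div_le_iff₀ (by positivity)] at hm
          linarith
        have h2 : amp y j s ^ 2 * (bigT k ν b * (1 / mu θ y j s)) ≤
            amp y j s ^ 2 * (bigT k ν b * (2 * (numChecks k ν : ℝ) / K)) :=
          mul_le_mul_of_nonneg_left (mul_le_mul_of_nonneg_left h1 hT) (sq_nonneg _)
        calc amp y j s ^ 2 * (bigT k ν b / mu θ y j s)
            = amp y j s ^ 2 * (bigT k ν b * (1 / mu θ y j s)) := by ring
          _ ≤ amp y j s ^ 2 * (bigT k ν b * (2 * (numChecks k ν : ℝ) / K)) := h2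
          _ = _ := by ring
    _ = bigT k ν b * (2 * (numChecks k ν : ℝ)) * ∑ j, ∑ s, amp y j s ^ 2 /
          max 1 (kappa (fun j s => amp y j s ^ 2) (fun v j' => zeroI y v j') j s) := by
        rw [Finset.mul_sum]
        refine Finset.sum_congr rfl fun j _ => ?_
        rw [Finset.mul_sum]
    _ ≤ bigT k ν b * (2 * (numChecks k ν : ℝ)) * (3 * (ν : ℝ) + 5) :=
        mul_le_mul_of_nonneg_left hmass (by positivity)
    _ = _ := by ring

/-! ### The witness of a `1`-input -/

open Classical in
/-- A valid candidate of an input, if any. -/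
noncomputable def vOf (θ : ℝ) (x : Idx k ν b → Bool) : Vec ν × Vec ν :=
  if h : ∃ j s : Vec ν, Valid θ x j s then (h.choose, h.choose_spec.choose)
  else (fun _ => false, fun _ => false)

theorem vOf_valid (θ : ℝ) (x : Idx k ν b → Bool) (hx : F θ x = true) :
    Valid θ x (vOf θ x).1 (vOf θ x).2 := by
  have h : ∃ j s : Vec ν, Valid θ x j s := by
    unfold F at hx
    simpa using hx
  unfold vOf
  rw [dif_pos h]
  exact h.choose_spec.choose_spec

theorem not_valid_of_F_false (θ : ℝ) (y : Idx k ν b → Bool) (hy : F θ y = false) (j s : Vec ν) :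
    ¬ Valid θ y j s := by
  intro h
  unfold F at hy
  have : ∃ j s : Vec ν, Valid θ y j s := ⟨j, s, h⟩
  simp [this] at hy

/-! ### The final representation -/

/-- The final representation. `T = 2k + checkDepth`, `P = numChecks`. -/
theorem rep_final (θ : ℝ) (hθ : 0 < θ) :
    Rep (fun x : Idx k ν b → Bool => F θ x = true) (fun y => F θ y = false) (fun _ _ => 1)
      (fun _ => (2 * (k : ℝ) + (2 * k + checkDepth ν b)) / θ ^ 2)
      (fun _ => 2 * (k : ℝ) * 2 ^ ν +
        (2 * k + checkDepth ν b) * (2 * numChecks k ν * (3 * ν + 5))) := by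
  classical
  -- each candidate, normalised
  have hv : ∀ v : Vec ν × Vec ν, Rep (fun x : Idx k ν b → Bool => Valid θ x v.1 v.2)
      (fun y => F θ y = false) (fun _ _ => 1) (fun _ => bigT k ν b)
      (fun y => bigT k ν b / mu θ y v.1 v.2) := by
    intro v
    refine ((rep_mu (b := b) θ v.1 v.2).scale (fun _ => 1) (fun y => 1 / mu θ y v.1 v.2)).mono
      (fun _ h => h) (fun _ _ => trivial) (fun x y _ hy => ?_) (fun x _ => ?_) (fun y hy => ?_)
    · have hm := mu_ge_one θ y v.1 v.2 (not_valid_of_F_false θ y hy v.1 v.2)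
      have hP : (0 : ℝ) < (numChecks k ν : ℝ) := by exact_mod_cast numChecks_pos
      have hmpos : 0 < mu θ y v.1 v.2 := lt_of_lt_of_le (by positivity) hm
      field_simp
    · simp
    · have hm := mu_ge_one θ y v.1 v.2 (not_valid_of_F_false θ y hy v.1 v.2)
      have hP : (0 : ℝ) < (numChecks k ν : ℝ) := by exact_mod_cast numChecks_pos
      have hmpos : 0 < mu θ y v.1 v.2 := lt_of_lt_of_le (by positivity) hm
      apply le_of_eq
      field_simp
  -- the term `β · 1`
  have hβ := Rep.sum_scaled (I := Idx k ν b) (C := Vec ν × Vec ν)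
    (Px := fun x => F θ x = true) (Py := fun y => F θ y = false)
    (Pxc := fun v x => Valid θ x v.1 v.2) (Pyc := fun _ y => F θ y = false)
    (E := fun _ _ _ => 1) (A := fun _ _ => bigT k ν b)
    (B := fun v y => bigT k ν b / mu θ y v.1 v.2)
    (fun v x => if v = vOf θ x then 1 else 0) (fun v y => amp y v.1 v.2)
    (fun v x hx hne => by
      have : v = vOf θ x := by
        by_contra hcon
        exact hne (if_neg hcon)
      rw [this]
      exact vOf_valid θ x hx)
    (fun _ _ hy _ => hy) hv
  -- the term `α - β`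
  have hαβ := Rep.sum_scaled (I := Idx k ν b) (C := Vec ν)
    (Px := fun x => F θ x = true) (Py := fun y => F θ y = false)
    (Pxc := fun _ _ => True) (Pyc := fun _ _ => True)
    (E := fun j x y => ∑ l, (if l = (vOf θ x).2 then (1 : ℝ) else 0) * psi
          (instOf (fun a l => posInst j a l) x) l
        - ∑ l, (if l = (vOf θ x).2 then (1 : ℝ) else 0) * psi
          (instOf (fun a l => posInst j a l) y) l)
    (A := fun _ x => 2 * (k : ℝ) * ∑ l, (if l = (vOf θ x).2 then (1 : ℝ) else 0) ^ 2)
    (B := fun _ _ => 2 * (k : ℝ))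
    (fun j x => if j = (vOf θ x).1 then 1 else 0) (fun _ _ => 1)
    (fun _ _ _ _ => trivial) (fun _ _ _ _ => trivial)
    (fun j => chain_rep_left (I := Idx k ν b) (fun a l => posInst j a l)
      (posInst_injective j) (fun x l => if l = (vOf θ x).2 then (1 : ℝ) else 0))
  -- add and normalise on the `x`-side
  refine ((hαβ.add hβ).scale (fun x => 1 / amp x (vOf θ x).1 (vOf θ x).2) (fun _ => 1)).mono
    (fun _ h => h) (fun _ h => h) (fun x y hx hy => ?_) (fun x hx => ?_) (fun y hy => ?_)
  · -- the equation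
    have hα : θ ≤ amp x (vOf θ x).1 (vOf θ x).2 := amp_of_valid θ x _ _ (vOf_valid θ x hx)
    have hαpos : 0 < amp x (vOf θ x).1 (vOf θ x).2 := lt_of_lt_of_le hθ hα
    have e₁ : ∑ c : Vec ν, (if c = (vOf θ x).1 then (1 : ℝ) else 0) * 1 *
        (∑ l, (if l = (vOf θ x).2 then (1 : ℝ) else 0) *
            psi (instOf (fun a l => posInst c a l) x) l -
          ∑ l, (if l = (vOf θ x).2 then (1 : ℝ) else 0) *
            psi (instOf (fun a l => posInst c a l) y) l) =
        amp x (vOf θ x).1 (vOf θ x).2 - amp y (vOf θ x).1 (vOf θ x).2 := by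
      rw [Finset.sum_eq_single (vOf θ x).1]
      · simp only [if_true, mul_one, one_mul, ite_mul, zero_mul, Finset.sum_ite_eq', Finset.mem_univ]
        rfl
      · intro c _ hc
        simp [hc]
      · intro h
        exact absurd (Finset.mem_univ _) h
    have e₂ : ∑ c : Vec ν × Vec ν, (if c = vOf θ x then (1 : ℝ) else 0) * amp y c.1 c.2 * 1 =
        amp y (vOf θ x).1 (vOf θ x).2 := by
      rw [Finset.sum_eq_single (vOf θ x)]
      · simp
      · intro c _ hc
        simp [hc]
      · intro h
        exact absurd (Finset.mem_univ _) h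
    simp only [e₁, e₂]
    field_simp
    ring
  · -- the bound on A
    have hα : θ ≤ amp x (vOf θ x).1 (vOf θ x).2 := amp_of_valid θ x _ _ (vOf_valid θ x hx)
    have hαpos : 0 < amp x (vOf θ x).1 (vOf θ x).2 := lt_of_lt_of_le hθ hα
    have e₁ : ∑ c : Vec ν, (if c = (vOf θ x).1 then (1 : ℝ) else 0) ^ 2 *
        (2 * (k : ℝ) * ∑ l, (if l = (vOf θ x).2 then (1 : ℝ) else 0) ^ 2) = 2 * (k : ℝ) := by
      rw [Finset.sum_eq_single (vOf θ x).1]
      · simp
      · intro c _ hc
        simp [hc]
      · intro h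
        exact absurd (Finset.mem_univ _) h
    have e₂ : ∑ c : Vec ν × Vec ν, (if c = vOf θ x then (1 : ℝ) else 0) ^ 2 * bigT k ν b =
        bigT k ν b := by
      rw [Finset.sum_eq_single (vOf θ x)]
      · simp
      · intro c _ hc
        simp [hc]
      · intro h
        exact absurd (Finset.mem_univ _) h
    simp only [e₁, e₂]
    have hT : (0 : ℝ) ≤ 2 * (k : ℝ) + bigT k ν b := by
      have := bigT_nonneg (k := k) (ν := ν) (b := b)
      have h2 : (0 : ℝ) ≤ (k : ℝ) := Nat.cast_nonneg _
      linarith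
    unfold bigT at hT ⊢
    rw [one_div, inv_pow, ← div_eq_inv_mul]
    apply div_le_div_of_nonneg_left hT (by positivity)
    exact pow_le_pow_left₀ hθ.le hα 2
  · -- the bound on B
    have hy' := not_valid_of_F_false θ y hy
    have hmass := sum_amp_div_mu_le θ y hy'
    have e₁ : ∑ _c : Vec ν, (2 * (k : ℝ)) = 2 * (k : ℝ) * 2 ^ ν := by
      rw [Finset.sum_const, Finset.card_univ, card_vecI, nsmul_eq_mul]
      push_cast
      ring
    simp only [one_pow, one_mul, e₁]
    unfold bigT at hmass ⊢
    linarith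

end Crest.Agent.QuartSep
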