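-- Row 350 (S0554): Fourier level k of decision trees (blueprint 3a).
import Crest.Agent.Lib.QuartSep.Basic

set_option autoImplicit false
set_option linter.unusedSectionVars false
set_option linter.unusedSimpArgs false
set_option linter.unusedVariables false

namespace Crest.Agent.QuartSep

open Finset BigOperators

/-! ### The two-point inequality for even moments -/

lemma choose_two_mul_le (r : ℕ) :
    ∀ i, i ≤ r → Nat.choose (2 * r) (2 * i) ≤ Nat.choose r i * (2 * r - 1) ^ i := by
  intro i
  induction i with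
  | zero => intro _; simp
  | succ i ih =>
    intro hi
    have hi' : i ≤ r := by omega
    have ih' := ih hi'
    -- Pascal steps
    have h1 : Nat.choose (2 * r) (2 * i + 1) * (2 * i + 1) =
        Nat.choose (2 * r) (2 * i) * (2 * r - 2 * i) := Nat.choose_succ_right_eq _ _
    have h2 : Nat.choose (2 * r) (2 * i + 1 + 1) * (2 * i + 1 + 1) =
        Nat.choose (2 * r) (2 * i + 1) * (2 * r - (2 * i + 1)) := Nat.choose_succ_right_eq _ _
    have h3 : Nat.choose r (i + 1) * (i + 1) = Nat.choose r i * (r - i) :=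
      Nat.choose_succ_right_eq _ _
    obtain ⟨s, hs⟩ : ∃ s, r = i + 1 + s := ⟨r - (i + 1), by omega⟩
    subst hs
    have e1 : 2 * (i + 1 + s) - 2 * i = 2 * (s + 1) := by omega
    have e2 : 2 * (i + 1 + s) - (2 * i + 1) = 2 * s + 1 := by omega
    have e3 : i + 1 + s - i = s + 1 := by omega
    have e4 : 2 * (i + 1) = 2 * i + 1 + 1 := by omega
    rw [e1] at h1
    rw [e2] at h2
    rw [e3] at h3
    rw [e4]
    set A := Nat.choose (2 * (i + 1 + s)) (2 * i) with hA
    set A1 := Nat.choose (2 * (i + 1 + s)) (2 * i + 1) with hA1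
    set A2 := Nat.choose (2 * (i + 1 + s)) (2 * i + 1 + 1) with hA2
    set C := Nat.choose (i + 1 + s) i with hC
    set C1 := Nat.choose (i + 1 + s) (i + 1) with hC1
    set W := 2 * (i + 1 + s) - 1 with hW
    have hW' : 2 * s + 1 ≤ W := by omega
    -- A2 * (i+1) * (2i+1) = A * (s+1) * (2s+1)
    have key : A2 * (i + 1) * (2 * i + 1) = A * (s + 1) * (2 * s + 1) := by
      have : A2 * (2 * i + 1 + 1) * (2 * i + 1) = A * (2 * (s + 1)) * (2 * s + 1) := by
        rw [h2]
        calc A1 * (2 * s + 1) * (2 * i + 1) = (A1 * (2 * i + 1)) * (2 * s + 1) := by ring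
          _ = _ := by rw [h1]
      nlinarith
    have hpos : 0 < (i + 1) * (2 * i + 1) := by positivity
    refine Nat.le_of_mul_le_mul_right ?_ hpos
    calc A2 * ((i + 1) * (2 * i + 1)) = A2 * (i + 1) * (2 * i + 1) := by ring
      _ = A * (s + 1) * (2 * s + 1) := key
      _ ≤ (C * W ^ i) * (s + 1) * (2 * s + 1) := by gcongr
      _ = (C * (s + 1)) * W ^ i * (2 * s + 1) := by ring
      _ = (C1 * (i + 1)) * W ^ i * (2 * s + 1) := by rw [h3]
      _ ≤ (C1 * (i + 1)) * W ^ i * (W * (2 * i + 1)) := by
          gcongr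
          nlinarith
      _ = C1 * W ^ (i + 1) * ((i + 1) * (2 * i + 1)) := by ring

lemma sum_even_aux (g : ℕ → ℝ) (r : ℕ) :
    ∑ m ∈ range (2 * r + 1), g m * (1 + (-1) ^ m) = 2 * ∑ i ∈ range (r + 1), g (2 * i) := by
  induction r with
  | zero => simp; ring
  | succ r ih =>
    have e : 2 * (r + 1) + 1 = 2 * r + 1 + 1 + 1 := by ring
    rw [e, sum_range_succ, sum_range_succ, ih, sum_range_succ _ (r + 1)]
    have h1 : ((-1 : ℝ)) ^ (2 * r + 1) = -1 := by
      rw [pow_succ, pow_mul]; simp
    have h2 : ((-1 : ℝ)) ^ (2 * r + 1 + 1) = 1 := by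
      rw [pow_succ, h1]; norm_num
    rw [h1, h2]
    have e' : 2 * (r + 1) = 2 * r + 1 + 1 := by ring
    rw [e']
    ring

/-- The two-point inequality: `E (X + σ Y)^{2r} ≤ (X² + (2r-1) Y²)^r`. -/
theorem two_point (X Y : ℝ) (r : ℕ) (hr : 1 ≤ r) :
    ((X + Y) ^ (2 * r) + (X - Y) ^ (2 * r)) / 2 ≤ (X ^ 2 + (2 * (r : ℝ) - 1) * Y ^ 2) ^ r := by
  have h1 : (X + Y) ^ (2 * r) + (X - Y) ^ (2 * r) =
      ∑ m ∈ range (2 * r + 1),
        (Y ^ m * X ^ (2 * r - m) * (Nat.choose (2 * r) m : ℝ)) * (1 + (-1) ^ m) := by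
    have a1 : (X + Y) ^ (2 * r) = ∑ m ∈ range (2 * r + 1),
        Y ^ m * X ^ (2 * r - m) * (Nat.choose (2 * r) m : ℝ) := by
      rw [add_comm, add_pow]
    have a2 : (X - Y) ^ (2 * r) = ∑ m ∈ range (2 * r + 1),
        (-Y) ^ m * X ^ (2 * r - m) * (Nat.choose (2 * r) m : ℝ) := by
      rw [sub_eq_add_neg, add_comm, add_pow]
    rw [a1, a2, ← sum_add_distrib]
    refine sum_congr rfl fun m _ => ?_
    rw [neg_pow Y m]
    ring
  rw [h1, sum_even_aux]
  have h2 : (X ^ 2 + (2 * (r : ℝ) - 1) * Y ^ 2) ^ r =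
      ∑ i ∈ range (r + 1), ((2 * (r : ℝ) - 1) * Y ^ 2) ^ i * (X ^ 2) ^ (r - i) *
        (Nat.choose r i : ℝ) := by
    rw [add_comm, add_pow]
  rw [h2]
  have h3 : (2 * ∑ i ∈ range (r + 1), (Y ^ (2 * i) * X ^ (2 * r - 2 * i) *
      (Nat.choose (2 * r) (2 * i) : ℝ))) / 2 =
      ∑ i ∈ range (r + 1), (Y ^ (2 * i) * X ^ (2 * r - 2 * i) *
      (Nat.choose (2 * r) (2 * i) : ℝ)) := by ring
  rw [h3]
  refine sum_le_sum fun i hi => ?_
  have hi' : i ≤ r := by simpa [Nat.lt_succ_iff] using hi
  have hc := choose_two_mul_le r i hi'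
  have hc' : (Nat.choose (2 * r) (2 * i) : ℝ) ≤ (Nat.choose r i : ℝ) * (2 * (r : ℝ) - 1) ^ i := by
    have : ((2 * r - 1 : ℕ) : ℝ) = 2 * (r : ℝ) - 1 := by
      rw [Nat.cast_sub (by omega)]; push_cast; ring
    calc (Nat.choose (2 * r) (2 * i) : ℝ) ≤ ((Nat.choose r i * (2 * r - 1) ^ i : ℕ) : ℝ) := by
          exact_mod_cast hc
      _ = _ := by push_cast [this]; rfl
  have ex : X ^ (2 * r - 2 * i) = (X ^ 2) ^ (r - i) := by
    rw [← pow_mul]; congr 1; omega
  have ey : Y ^ (2 * i) = (Y ^ 2) ^ i := by rw [← pow_mul]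
  rw [ex, ey, mul_pow]
  have hX : 0 ≤ (X ^ 2) ^ (r - i) := by positivity
  have hY : 0 ≤ (Y ^ 2) ^ i := by positivity
  have := mul_le_mul_of_nonneg_left hc' (mul_nonneg hY hX)
  nlinarith [this]

/-! ### Minkowski with natural exponents -/

lemma minkowski_pow {ι : Type} [Fintype ι] (f g : ι → ℝ) (hf : ∀ x, 0 ≤ f x) (hg : ∀ x, 0 ≤ g x)
    (r : ℕ) (hr : 1 ≤ r) (C A D : ℝ) (hC : 0 ≤ C) (hA : 0 ≤ A) (hD : 0 ≤ D)
    (h1 : ∑ x, f x ^ r ≤ C * A ^ r) (h2 : ∑ x, g x ^ r ≤ C * D ^ r) :
    ∑ x, (f x + g x) ^ r ≤ C * (A + D) ^ r := by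
  have hr0 : (r : ℝ) ≠ 0 := by positivity
  have hr1 : (1 : ℝ) ≤ r := by exact_mod_cast hr
  have hL := Real.Lp_add_le_of_nonneg (s := (univ : Finset ι)) (f := f) (g := g) hr1
    (fun i _ => hf i) (fun i _ => hg i)
  simp only [Real.rpow_natCast] at hL
  have hS : 0 ≤ ∑ x, (f x + g x) ^ r :=
    sum_nonneg fun x _ => pow_nonneg (add_nonneg (hf x) (hg x)) r
  have hSf : 0 ≤ ∑ x, f x ^ r := sum_nonneg fun x _ => pow_nonneg (hf x) r
  have hSg : 0 ≤ ∑ x, g x ^ r := sum_nonneg fun x _ => pow_nonneg (hg x) r
  have e1 : (∑ x, f x ^ r) ^ (1 / (r : ℝ)) ≤ C ^ (1 / (r : ℝ)) * A := by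
    calc (∑ x, f x ^ r) ^ (1 / (r : ℝ)) ≤ (C * A ^ r) ^ (1 / (r : ℝ)) :=
          Real.rpow_le_rpow hSf h1 (by positivity)
      _ = C ^ (1 / (r : ℝ)) * (A ^ r) ^ (1 / (r : ℝ)) := Real.mul_rpow hC (by positivity)
      _ = C ^ (1 / (r : ℝ)) * A := by
          rw [← Real.rpow_natCast A r, ← Real.rpow_mul hA]
          field_simp
          simp
  have e2 : (∑ x, g x ^ r) ^ (1 / (r : ℝ)) ≤ C ^ (1 / (r : ℝ)) * D := by
    calc (∑ x, g x ^ r) ^ (1 / (r : ℝ)) ≤ (C * D ^ r) ^ (1 / (r : ℝ)) :=
          Real.rpow_le_rpow hSg h2 (by positivity)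
      _ = C ^ (1 / (r : ℝ)) * (D ^ r) ^ (1 / (r : ℝ)) := Real.mul_rpow hC (by positivity)
      _ = C ^ (1 / (r : ℝ)) * D := by
          rw [← Real.rpow_natCast D r, ← Real.rpow_mul hD]
          field_simp
          simp
  have e3 : (∑ x, (f x + g x) ^ r) ^ (1 / (r : ℝ)) ≤ C ^ (1 / (r : ℝ)) * (A + D) := by
    rw [mul_add]; linarith
  have hCr : 0 ≤ C ^ (1 / (r : ℝ)) := Real.rpow_nonneg hC _
  calc ∑ x, (f x + g x) ^ r = ((∑ x, (f x + g x) ^ r) ^ (1 / (r : ℝ))) ^ r := by
        rw [← Real.rpow_natCast _ r, ← Real.rpow_mul hS]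
        rw [one_div, inv_mul_cancel₀ hr0, Real.rpow_one]
    _ ≤ (C ^ (1 / (r : ℝ)) * (A + D)) ^ r := by
        exact pow_le_pow_left₀ (Real.rpow_nonneg hS _) e3 r
    _ = C * (A + D) ^ r := by
        rw [mul_pow, ← Real.rpow_natCast (C ^ (1 / (r : ℝ))) r, ← Real.rpow_mul hC]
        rw [one_div, inv_mul_cancel₀ hr0, Real.rpow_one]


variable {I : Type} [Fintype I] [DecidableEq I]

/-- Value `0/1` of a tree. -/
def DT.val (T : DT I) (x : I → Bool) : ℝ := if T.eval x then 1 else 0

/-- The multilinear extension of a real function on bits: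
`ext f z = ∑ x, f x * ∏ i, (1 + sgn (x i) * z i) / 2`. -/
noncomputable def ext (f : (I → Bool) → ℝ) (z : I → ℝ) : ℝ :=
  ∑ x, f x * ∏ i, (1 + sgn (x i) * z i) / 2

/-- The mixed partial derivative `∂_S (ext f)` at `z`, as an explicit formula
(`ext f` is affine in each coordinate):
`∂_S (ext f) z = ∑ x, f x * ∏ i, (if i ∈ S then sgn (x i) / 2 else (1 + sgn (x i) * z i) / 2)`. -/
noncomputable def extD (f : (I → Bool) → ℝ) (S : Finset I) (z : I → ℝ) : ℝ :=
  ∑ x, f x * ∏ i, (if i ∈ S then sgn (x i) / 2 else (1 + sgn (x i) * z i) / 2)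

/-! ### Flips and monomials -/

/-- Flip coordinate `j`. -/
def flipAt (x : I → Bool) (j : I) : I → Bool := Function.update x j (!x j)

@[simp] lemma flipAt_self (x : I → Bool) (j : I) : flipAt x j j = !x j := by simp [flipAt]

lemma flipAt_ne (x : I → Bool) {j i : I} (h : i ≠ j) : flipAt x j i = x i := by
  simp [flipAt, Function.update_of_ne h]

lemma flipAt_flipAt (x : I → Bool) (j : I) : flipAt (flipAt x j) j = x := by
  funext i
  by_cases h : i = j
  · subst h; simp
  · rw [flipAt_ne _ h, flipAt_ne _ h]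

lemma sgn_not (b : Bool) : sgn (!b) = - sgn b := by cases b <;> simp [sgn]


lemma sgn_abs (b : Bool) : |sgn b| = 1 := by cases b <;> simp [sgn]

lemma sgn_mul_self (b : Bool) : sgn b * sgn b = 1 := by cases b <;> simp [sgn]

/-- The character `x^S`. -/
def mono (S : Finset I) (x : I → Bool) : ℝ := ∏ i ∈ S, sgn (x i)

lemma mono_congr {S : Finset I} {x y : I → Bool} (h : ∀ i ∈ S, y i = x i) : mono S y = mono S x :=
  prod_congr rfl fun i hi => by rw [h i hi]

lemma mono_flip_of_mem {S : Finset I} {j : I} (h : j ∈ S) (x : I → Bool) :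
    mono S (flipAt x j) = - mono S x := by
  unfold mono
  rw [← mul_prod_erase S _ h, ← mul_prod_erase S (fun i => sgn (x i)) h, flipAt_self, sgn_not]
  have : ∏ i ∈ S.erase j, sgn (flipAt x j i) = ∏ i ∈ S.erase j, sgn (x i) :=
    prod_congr rfl fun i hi => by rw [flipAt_ne _ (ne_of_mem_erase hi)]
  rw [this]; ring

lemma abs_mono_eq (S : Finset I) (x : I → Bool) : |mono S x| = 1 := by
  unfold mono
  rw [abs_prod]
  exact prod_eq_one fun i _ => sgn_abs _

/-! ### Queried sets -/

namespace DT

/-- The set of variables read among the first `t` reads on input `x`. -/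
def Qt : DT I → ℕ → (I → Bool) → Finset I
  | answer _, _, _ => ∅
  | read _ _ _, 0, _ => ∅
  | read i t₀ t₁, t + 1, x => insert i (if x i then Qt t₁ t x else Qt t₀ t x)

/-- The variable of read number `t` (from `0`) on input `x`, if the tree goes that far. -/
def nxt : DT I → ℕ → (I → Bool) → Option I
  | answer _, _, _ => none
  | read i _ _, 0, _ => some i
  | read i t₀ t₁, t + 1, x => if x i then nxt t₁ t x else nxt t₀ t x

@[simp] lemma Qt_zero (T : DT I) (x : I → Bool) : T.Qt 0 x = ∅ := by
  cases T <;> rfl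

lemma Qt_congr (T : DT I) : ∀ (t : ℕ) (x y : I → Bool), (∀ i ∈ T.Qt t x, y i = x i) →
    T.Qt t y = T.Qt t x := by
  induction T with
  | answer b => intro t x y _; rfl
  | read i t₀ t₁ ih₀ ih₁ =>
    intro t x y h
    cases t with
    | zero => rfl
    | succ t =>
      have hi : y i = x i := h i (by simp [Qt])
      simp only [Qt] at h ⊢
      rw [hi]
      have h' : ∀ j ∈ (if x i = true then t₁.Qt t x else t₀.Qt t x), y j = x j :=
        fun j hj => h j (mem_insert_of_mem hj)
      cases hx : x i with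
      | true =>
        simp only [hx, if_true] at h' ⊢
        simp [ih₁ t x y h']
      | false =>
        simp only [hx, Bool.false_eq_true, if_false] at h' ⊢
        simp [ih₀ t x y h']

lemma nxt_congr (T : DT I) : ∀ (t : ℕ) (x y : I → Bool), (∀ i ∈ T.Qt t x, y i = x i) →
    T.nxt t y = T.nxt t x := by
  induction T with
  | answer b => intro t x y _; rfl
  | read i t₀ t₁ ih₀ ih₁ =>
    intro t x y h
    cases t with
    | zero => rfl
    | succ t =>
      have hi : y i = x i := h i (by simp [Qt])
      simp only [Qt] at h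
      simp only [nxt]
      rw [hi]
      have h' : ∀ j ∈ (if x i = true then t₁.Qt t x else t₀.Qt t x), y j = x j :=
        fun j hj => h j (mem_insert_of_mem hj)
      cases hx : x i with
      | true =>
        simp only [hx, if_true] at h' ⊢
        exact ih₁ t x y h'
      | false =>
        simp only [hx, Bool.false_eq_true, if_false] at h' ⊢
        exact ih₀ t x y h'

lemma eval_congr (T : DT I) : ∀ (t : ℕ) (x y : I → Bool), T.depth ≤ t →
    (∀ i ∈ T.Qt t x, y i = x i) → T.eval y = T.eval x := by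
  induction T with
  | answer b => intro t x y _ _; rfl
  | read i t₀ t₁ ih₀ ih₁ =>
    intro t x y hd h
    cases t with
    | zero => simp [depth] at hd
    | succ t =>
      have hi : y i = x i := h i (by simp [Qt])
      simp only [Qt] at h
      simp only [eval]
      rw [hi]
      have hd' : max t₀.depth t₁.depth ≤ t := by simpa [depth] using hd
      have h' : ∀ j ∈ (if x i = true then t₁.Qt t x else t₀.Qt t x), y j = x j :=
        fun j hj => h j (mem_insert_of_mem hj)
      cases hx : x i with
      | true =>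
        simp only [hx, if_true] at h' ⊢
        exact ih₁ t x y (le_trans (le_max_right _ _) hd') h'
      | false =>
        simp only [hx, Bool.false_eq_true, if_false] at h' ⊢
        exact ih₀ t x y (le_trans (le_max_left _ _) hd') h'

lemma Qt_succ_of_none (T : DT I) : ∀ (t : ℕ) (x : I → Bool), T.nxt t x = none →
    T.Qt (t + 1) x = T.Qt t x := by
  induction T with
  | answer b => intro t x _; rfl
  | read i t₀ t₁ ih₀ ih₁ =>
    intro t x h
    cases t with
    | zero => simp [nxt] at h
    | succ t =>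
      simp only [nxt] at h
      simp only [Qt]
      cases hx : x i with
      | true =>
        simp only [hx, if_true] at h ⊢
        rw [ih₁ t x h]
      | false =>
        simp only [hx, Bool.false_eq_true, if_false] at h ⊢
        rw [ih₀ t x h]

lemma Qt_succ_of_some (T : DT I) : ∀ (t : ℕ) (x : I → Bool) (j : I), T.nxt t x = some j →
    T.Qt (t + 1) x = insert j (T.Qt t x) := by
  induction T with
  | answer b => intro t x j h; simp [nxt] at h
  | read i t₀ t₁ ih₀ ih₁ =>
    intro t x j h
    cases t with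
    | zero =>
      simp only [nxt, Option.some.injEq] at h
      subst h
      simp [Qt]
    | succ t =>
      simp only [nxt] at h
      simp only [Qt]
      cases hx : x i with
      | true =>
        simp only [hx, if_true] at h ⊢
        rw [ih₁ t x j h, Finset.insert_comm]
      | false =>
        simp only [hx, Bool.false_eq_true, if_false] at h ⊢
        rw [ih₀ t x j h, Finset.insert_comm]


/-- The variable of read number `t`, if it has not been read before. -/
def newVar (T : DT I) (t : ℕ) (x : I → Bool) : Option I :=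
  match T.nxt t x with
  | some j => if j ∈ T.Qt t x then none else some j
  | none => none

lemma newVar_some {T : DT I} {t : ℕ} {x : I → Bool} {j : I} (h : T.newVar t x = some j) :
    T.nxt t x = some j ∧ j ∉ T.Qt t x := by
  unfold newVar at h
  cases hn : T.nxt t x with
  | none => simp [hn] at h
  | some j' =>
    simp only [hn] at h
    by_cases hm : j' ∈ T.Qt t x
    · simp [hm] at h
    · simp only [hm, if_false, Option.some.injEq] at h
      subst h
      exact ⟨rfl, hm⟩

lemma Qt_flip {T : DT I} {t : ℕ} {x : I → Bool} {j : I} (h : j ∉ T.Qt t x) :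
    T.Qt t (flipAt x j) = T.Qt t x :=
  T.Qt_congr t x _ fun i hi => flipAt_ne x (fun e => h (e ▸ hi))

lemma nxt_flip {T : DT I} {t : ℕ} {x : I → Bool} {j : I} (h : j ∉ T.Qt t x) :
    T.nxt t (flipAt x j) = T.nxt t x :=
  T.nxt_congr t x _ fun i hi => flipAt_ne x (fun e => h (e ▸ hi))

lemma newVar_flip {T : DT I} {t : ℕ} {x : I → Bool} {j : I} (h : j ∉ T.Qt t x) :
    T.newVar t (flipAt x j) = T.newVar t x := by
  unfold newVar
  rw [nxt_flip h, Qt_flip h]

/-- The flip at the new variable. -/
def act (T : DT I) (t : ℕ) (x : I → Bool) : I → Bool :=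
  match T.newVar t x with
  | some j => flipAt x j
  | none => x

lemma act_of_none {T : DT I} {t : ℕ} {x : I → Bool} (h : T.newVar t x = none) : T.act t x = x := by
  simp [act, h]

lemma act_of_some {T : DT I} {t : ℕ} {x : I → Bool} {j : I} (h : T.newVar t x = some j) :
    T.act t x = flipAt x j := by
  simp [act, h]

lemma act_involutive (T : DT I) (t : ℕ) : Function.Involutive (T.act t) := by
  intro x
  cases h : T.newVar t x with
  | none => rw [act_of_none h, act_of_none h]
  | some j =>
    have hj := (newVar_some h).2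
    rw [act_of_some h, act_of_some (j := j) (by rw [newVar_flip hj, h]), flipAt_flipAt]

end DT

/-! ### The path polynomial -/

/-- `M = ∑_{S ⊆ Q_t(x), |S| = k} a_S x^S`. -/
noncomputable def pathPoly (T : DT I) (t k : ℕ) (a : Finset I → ℝ) (x : I → Bool) : ℝ :=
  ∑ S ∈ powersetCard k (T.Qt t x), a S * mono S x

/-- Coefficients of the derivative in the variable `j`. -/
def aShift (a : Finset I → ℝ) (j : I) (S : Finset I) : ℝ := if j ∈ S then 0 else a (insert j S)

lemma abs_aShift_le {a : Finset I → ℝ} (ha : ∀ S, |a S| ≤ 1) (j : I) (S : Finset I) :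
    |aShift a j S| ≤ 1 := by
  unfold aShift
  split_ifs
  · simp
  · exact ha _

lemma pathPoly_flip {T : DT I} {t k : ℕ} (b : Finset I → ℝ) {x : I → Bool} {j : I}
    (h : j ∉ T.Qt t x) : pathPoly T t k b (flipAt x j) = pathPoly T t k b x := by
  unfold pathPoly
  rw [DT.Qt_flip h]
  refine sum_congr rfl fun S hS => ?_
  have hS' : S ⊆ T.Qt t x := (mem_powersetCard.mp hS).1
  rw [mono_congr (x := x) (y := flipAt x j)]
  intro i hi
  exact flipAt_ne x (fun e => h (e ▸ hS' hi))

lemma pathPoly_succ_of_none {T : DT I} {t k : ℕ} (a : Finset I → ℝ) {x : I → Bool}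
    (h : T.newVar t x = none) : pathPoly T (t + 1) k a x = pathPoly T t k a x := by
  unfold pathPoly
  have : T.Qt (t + 1) x = T.Qt t x := by
    unfold DT.newVar at h
    cases hn : T.nxt t x with
    | none => exact T.Qt_succ_of_none t x hn
    | some j =>
      simp only [hn] at h
      rw [T.Qt_succ_of_some t x j hn]
      by_cases hm : j ∈ T.Qt t x
      · exact insert_eq_of_mem hm
      · simp [hm] at h
  rw [this]

lemma pathPoly_succ_of_some {T : DT I} {t k : ℕ} (a : Finset I → ℝ) {x : I → Bool} {j : I}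
    (h : T.newVar t x = some j) :
    pathPoly T (t + 1) (k + 1) a x =
      pathPoly T t (k + 1) a x + sgn (x j) * pathPoly T t k (aShift a j) x := by
  obtain ⟨hn, hj⟩ := DT.newVar_some h
  unfold pathPoly
  rw [T.Qt_succ_of_some t x j hn, powersetCard_succ_insert hj, sum_union, sum_image, mul_sum]
  · congr 1
    refine sum_congr rfl fun S hS => ?_
    have hS' : j ∉ S := fun hh => hj ((mem_powersetCard.mp hS).1 hh)
    unfold aShift mono
    rw [if_neg hS', prod_insert hS']
    ring
  · intro S hS S' hS' e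
    have h1 : j ∉ S := fun hh => hj ((mem_powersetCard.mp (by simpa using hS)).1 hh)
    have h2 : j ∉ S' := fun hh => hj ((mem_powersetCard.mp (by simpa using hS')).1 hh)
    have e' := congrArg (fun U => Finset.erase U j) e
    simpa [erase_insert h1, erase_insert h2] using e'
  · rw [disjoint_left]
    intro S hS hS2
    rw [mem_image] at hS2
    obtain ⟨S', _, rfl⟩ := hS2
    exact hj ((mem_powersetCard.mp hS).1 (mem_insert_self _ _))


/-- The increment of the path polynomial. -/
noncomputable def pathInc (T : DT I) (t k : ℕ) (a : Finset I → ℝ) (x : I → Bool) : ℝ :=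
  match T.newVar t x with
  | some j => pathPoly T t k (aShift a j) x
  | none => 0

lemma sum_comp_act (T : DT I) (t : ℕ) (g : (I → Bool) → ℝ) :
    ∑ x, g (T.act t x) = ∑ x, g x :=
  Equiv.sum_comp (DT.act_involutive T t).toPerm g

lemma moment_step (T : DT I) (t k r : ℕ) (hr : 1 ≤ r) (a : Finset I → ℝ) :
    ∑ x, (pathPoly T (t + 1) (k + 1) a x) ^ (2 * r) ≤
      ∑ x, ((pathPoly T t (k + 1) a x) ^ 2 + (2 * (r : ℝ) - 1) * (pathInc T t k a x) ^ 2) ^ r := by
  set Z := fun x => (pathPoly T (t + 1) (k + 1) a x) ^ (2 * r) with hZ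
  have hpt : ∀ x, Z x + Z (T.act t x) ≤
      2 * ((pathPoly T t (k + 1) a x) ^ 2 + (2 * (r : ℝ) - 1) * (pathInc T t k a x) ^ 2) ^ r := by
    intro x
    have hr' : (0 : ℝ) ≤ 2 * (r : ℝ) - 1 := by
      have : (1 : ℝ) ≤ r := by exact_mod_cast hr
      linarith
    cases h : T.newVar t x with
    | none =>
      have hinc : pathInc T t k a x = 0 := by simp [pathInc, h]
      rw [DT.act_of_none h, hinc]
      simp only [hZ]
      rw [pathPoly_succ_of_none a h]
      have : (pathPoly T t (k + 1) a x) ^ (2 * r) =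
          ((pathPoly T t (k + 1) a x) ^ 2 + (2 * (r : ℝ) - 1) * (0 : ℝ) ^ 2) ^ r := by
        rw [pow_mul]; simp
      rw [this]; ring_nf; rfl
    | some j =>
      have hj := (DT.newVar_some h).2
      have hinc : pathInc T t k a x = pathPoly T t k (aShift a j) x := by simp [pathInc, h]
      have hy : T.newVar t (flipAt x j) = some j := by rw [DT.newVar_flip hj, h]
      rw [DT.act_of_some h, hinc]
      simp only [hZ]
      rw [pathPoly_succ_of_some a h, pathPoly_succ_of_some a hy, pathPoly_flip _ hj,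
        pathPoly_flip _ hj, flipAt_self, sgn_not]
      set X := pathPoly T t (k + 1) a x
      set N := pathPoly T t k (aShift a j) x
      have h2 := two_point X (sgn (x j) * N) r hr
      have hsq : (sgn (x j) * N) ^ 2 = N ^ 2 := by rw [mul_pow, sgn_sq, one_mul]
      rw [hsq] at h2
      have e : X + -sgn (x j) * N = X - sgn (x j) * N := by ring
      rw [e]
      linarith
  have h1 : 2 * ∑ x, Z x = ∑ x, (Z x + Z (T.act t x)) := by
    rw [sum_add_distrib, sum_comp_act T t Z]; ring
  have h2 := sum_le_sum (fun x (_ : x ∈ (univ : Finset (I → Bool))) => hpt x)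
  rw [← h1, ← mul_sum] at h2
  linarith

lemma pathInc_pow_le (T : DT I) (t k r : ℕ) (hr : 1 ≤ r) (a : Finset I → ℝ) (x : I → Bool) :
    (pathInc T t k a x) ^ (2 * r) ≤ ∑ j, (pathPoly T t k (aShift a j) x) ^ (2 * r) := by
  have hnn : ∀ j, 0 ≤ (pathPoly T t k (aShift a j) x) ^ (2 * r) := fun j => by
    rw [pow_mul]; positivity
  cases h : T.newVar t x with
  | none =>
    have hinc : pathInc T t k a x = 0 := by simp [pathInc, h]
    rw [hinc, zero_pow (by omega)]
    exact sum_nonneg fun j _ => hnn j
  | some j =>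
    have hinc : pathInc T t k a x = pathPoly T t k (aShift a j) x := by simp [pathInc, h]
    rw [hinc]
    exact single_le_sum (f := fun j => (pathPoly T t k (aShift a j) x) ^ (2 * r))
      (fun j _ => hnn j) (mem_univ j)

/-- **The moment bound** `‖M_t‖_{2r}² ≤ K^k C(t,k)`, in the form without roots. -/
theorem moment_bound (T : DT I) (r : ℕ) (hr : 1 ≤ r) (K : ℝ) (hK0 : 0 ≤ K)
    (hK : K ^ r = (2 * (r : ℝ) - 1) ^ r * (Fintype.card I : ℝ)) :
    ∀ (t k : ℕ) (a : Finset I → ℝ), (∀ S, |a S| ≤ 1) →
      ∑ x, (pathPoly T t k a x) ^ (2 * r) ≤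
        (Fintype.card (I → Bool) : ℝ) * (K ^ k * (Nat.choose t k : ℝ)) ^ r := by
  have hC : (0 : ℝ) ≤ (Fintype.card (I → Bool) : ℝ) := by positivity
  have hr' : (0 : ℝ) ≤ 2 * (r : ℝ) - 1 := by
    have : (1 : ℝ) ≤ r := by exact_mod_cast hr
    linarith
  intro t
  induction t with
  | zero =>
    intro k a ha
    cases k with
    | zero =>
      simp only [pathPoly, DT.Qt_zero, powersetCard_zero, sum_singleton, mono, prod_empty,
        mul_one, pow_zero, Nat.choose_self, Nat.cast_one, one_pow]
      have h1 : (a ∅) ^ (2 * r) ≤ 1 := by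
        rw [pow_mul]
        have : (a ∅) ^ 2 ≤ 1 := by
          have := ha ∅
          rw [sq_le_one_iff_abs_le_one]; exact this
        exact pow_le_one₀ (by positivity) this
      calc ∑ _x : I → Bool, (a ∅) ^ (2 * r) ≤ ∑ _x : I → Bool, (1 : ℝ) :=
            sum_le_sum fun _ _ => h1
        _ = _ := by simp
    | succ k =>
      have : ∀ x, pathPoly T 0 (k + 1) a x = 0 := by
        intro x
        unfold pathPoly
        rw [DT.Qt_zero]
        apply sum_eq_zero
        intro S hS
        obtain ⟨h1, h2⟩ := mem_powersetCard.mp hS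
        have h3 := subset_empty.mp h1
        subst h3
        simp at h2
      simp only [this, Nat.choose_zero_succ]
      rw [zero_pow (by omega : 2 * r ≠ 0)]
      simp
  | succ t ih =>
    intro k a ha
    cases k with
    | zero =>
      simp only [pathPoly, powersetCard_zero, sum_singleton, mono, prod_empty,
        mul_one, pow_zero, Nat.choose_zero_right, Nat.cast_one, one_pow]
      have h1 : (a ∅) ^ (2 * r) ≤ 1 := by
        rw [pow_mul]
        have : (a ∅) ^ 2 ≤ 1 := by
          have := ha ∅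
          rw [sq_le_one_iff_abs_le_one]; exact this
        exact pow_le_one₀ (by positivity) this
      calc ∑ _x : I → Bool, (a ∅) ^ (2 * r) ≤ ∑ _x : I → Bool, (1 : ℝ) :=
            sum_le_sum fun _ _ => h1
        _ = _ := by simp
    | succ k =>
      refine le_trans (moment_step T t k r hr a) ?_
      set C := (Fintype.card (I → Bool) : ℝ) with hCdef
      set A := K ^ (k + 1) * (Nat.choose t (k + 1) : ℝ) with hA
      set D := K ^ (k + 1) * (Nat.choose t k : ℝ) with hD
      have hA0 : 0 ≤ A := by positivity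
      have hD0 : 0 ≤ D := by positivity
      have h1 : ∑ x, ((pathPoly T t (k + 1) a x) ^ 2) ^ r ≤ C * A ^ r := by
        have := ih (k + 1) a ha
        simp only [← pow_mul]
        exact this
      have h2 : ∑ x, ((2 * (r : ℝ) - 1) * (pathInc T t k a x) ^ 2) ^ r ≤ C * D ^ r := by
        have e1 : ∀ x, ((2 * (r : ℝ) - 1) * (pathInc T t k a x) ^ 2) ^ r =
            (2 * (r : ℝ) - 1) ^ r * (pathInc T t k a x) ^ (2 * r) := by
          intro x; rw [mul_pow, ← pow_mul]
        simp only [e1]
        rw [← mul_sum]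
        have e2 : ∑ x, (pathInc T t k a x) ^ (2 * r) ≤
            (Fintype.card I : ℝ) * (C * (K ^ k * (Nat.choose t k : ℝ)) ^ r) := by
          calc ∑ x, (pathInc T t k a x) ^ (2 * r)
              ≤ ∑ x, ∑ j, (pathPoly T t k (aShift a j) x) ^ (2 * r) :=
                sum_le_sum fun x _ => pathInc_pow_le T t k r hr a x
            _ = ∑ j, ∑ x, (pathPoly T t k (aShift a j) x) ^ (2 * r) := sum_comm
            _ ≤ ∑ _j : I, (C * (K ^ k * (Nat.choose t k : ℝ)) ^ r) :=
                sum_le_sum fun j _ => ih k (aShift a j) (abs_aShift_le ha j)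
            _ = _ := by simp
        calc (2 * (r : ℝ) - 1) ^ r * ∑ x, (pathInc T t k a x) ^ (2 * r)
            ≤ (2 * (r : ℝ) - 1) ^ r *
                ((Fintype.card I : ℝ) * (C * (K ^ k * (Nat.choose t k : ℝ)) ^ r)) :=
              mul_le_mul_of_nonneg_left e2 (pow_nonneg hr' r)
          _ = K ^ r * (C * (K ^ k * (Nat.choose t k : ℝ)) ^ r) := by rw [hK]; ring
          _ = C * D ^ r := by rw [hD, pow_succ K k, mul_pow (K ^ k * K), mul_pow (K ^ k) K]; ring
      have h3 := minkowski_pow (fun x => (pathPoly T t (k + 1) a x) ^ 2)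
        (fun x => (2 * (r : ℝ) - 1) * (pathInc T t k a x) ^ 2) (fun x => by positivity)
        (fun x => mul_nonneg hr' (by positivity)) r hr C A D hC hA0 hD0 h1 h2
      refine le_trans h3 (le_of_eq ?_)
      congr 2
      rw [hA, hD, Nat.choose_succ_succ]
      push_cast
      ring


/-! ### Fourier coefficients of a tree live on the queried set -/

/-- The unnormalised Fourier coefficient is supported on the queried set. -/
lemma fourier_path (T : DT I) (d : ℕ) (hd : T.depth ≤ d) (S : Finset I) :
    ∑ x, T.val x * mono S x = ∑ x, T.val x * (if S ⊆ T.Qt d x then mono S x else 0) := by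
  have hsplit : ∀ x, T.val x * mono S x = T.val x * (if S ⊆ T.Qt d x then mono S x else 0) +
      (if S ⊆ T.Qt d x then 0 else T.val x * mono S x) := by
    intro x
    by_cases h : S ⊆ T.Qt d x <;> simp [h]
  rw [sum_congr rfl (fun x _ => hsplit x), sum_add_distrib]
  suffices h0 : ∑ x, (if S ⊆ T.Qt d x then 0 else T.val x * mono S x) = 0 by
    rw [h0, add_zero]
  -- sign-reversing involution
  have hne : ∀ x, ¬ S ⊆ T.Qt d x → (S \ T.Qt d x).Nonempty := by
    intro x hx
    rw [sdiff_nonempty]
    exact hx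
  have hchoose : ∀ (U V : Finset I) (hU : U.Nonempty) (hV : V.Nonempty), U = V →
      hU.choose = hV.choose := by
    rintro U _ hU hV rfl; rfl
  have hfilter : ∑ x, (if S ⊆ T.Qt d x then 0 else T.val x * mono S x) =
      ∑ x ∈ univ.filter (fun x => ¬ S ⊆ T.Qt d x), T.val x * mono S x := by
    rw [sum_filter]
    refine sum_congr rfl fun x _ => ?_
    by_cases h : S ⊆ T.Qt d x <;> simp [h]
  rw [hfilter]
  have hq : ∀ x (h : ¬ S ⊆ T.Qt d x), (hne x h).choose ∈ S ∧ (hne x h).choose ∉ T.Qt d x := by
    intro x h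
    have := (hne x h).choose_spec
    exact mem_sdiff.mp this
  refine sum_involution
    (fun x hx => flipAt x (hne x (mem_filter.mp hx).2).choose) ?_ ?_ ?_ ?_
  · intro x hx
    have h := (mem_filter.mp hx).2
    obtain ⟨h1, h2⟩ := hq x h
    have hv : T.val (flipAt x (hne x h).choose) = T.val x := by
      unfold DT.val
      have hag : ∀ i ∈ T.Qt d x, flipAt x (hne x h).choose i = x i :=
        fun i hi => flipAt_ne x (fun e => h2 (by rw [← e]; exact hi))
      rw [T.eval_congr d x _ hd hag]
    rw [hv, mono_flip_of_mem h1]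
    ring
  · intro x hx _ e
    have h := (mem_filter.mp hx).2
    have := congrFun e (hne x h).choose
    rw [flipAt_self] at this
    cases hb : x (hne x h).choose <;> simp [hb] at this
  · intro x hx
    have h := (mem_filter.mp hx).2
    obtain ⟨h1, h2⟩ := hq x h
    rw [mem_filter]
    refine ⟨mem_univ _, ?_⟩
    rw [DT.Qt_flip h2]
    exact h
  · intro x hx
    have h := (mem_filter.mp hx).2
    obtain ⟨h1, h2⟩ := hq x h
    have hQ : T.Qt d (flipAt x (hne x h).choose) = T.Qt d x := DT.Qt_flip h2
    have hh : ¬ S ⊆ T.Qt d (flipAt x (hne x h).choose) := by rw [hQ]; exact h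
    have e : (hne _ hh).choose = (hne x h).choose :=
      hchoose _ _ _ _ (by rw [hQ])
    show flipAt (flipAt x (hne x h).choose) (hne _ hh).choose = x
    rw [e, flipAt_flipAt]

/-- `extD` at the origin is a Fourier coefficient. -/
lemma extD_zero (f : (I → Bool) → ℝ) (S : Finset I) :
    extD f S 0 = (∑ x, f x * mono S x) / (Fintype.card (I → Bool) : ℝ) := by
  unfold extD
  have hcard : (Fintype.card (I → Bool) : ℝ) = 2 ^ Fintype.card I := by
    simp [Fintype.card_fun]
  rw [hcard, sum_div]
  refine sum_congr rfl fun x _ => ?_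
  have : ∏ i, (if i ∈ S then sgn (x i) / 2 else (1 + sgn (x i) * (0 : I → ℝ) i) / 2) =
      (∏ i ∈ S, sgn (x i)) / 2 ^ Fintype.card I := by
    have e : ∀ i, (if i ∈ S then sgn (x i) / 2 else (1 + sgn (x i) * (0 : I → ℝ) i) / 2) =
        (if i ∈ S then sgn (x i) else 1) * (1 / 2) := by
      intro i
      split_ifs <;> simp <;> ring
    simp only [e]
    rw [prod_mul_distrib]
    simp [prod_ite_mem, mul_comm, div_eq_mul_inv]
  rw [this]
  unfold mono
  ring

/-- The level sum at the origin as an average of the path polynomial. -/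
lemma level_sum_zero (T : DT I) (d k : ℕ) (hd : T.depth ≤ d) (a : Finset I → ℝ) :
    ∑ S ∈ powersetCard k univ, a S * extD T.val S 0 =
      (∑ x, T.val x * pathPoly T d k a x) / (Fintype.card (I → Bool) : ℝ) := by
  simp only [extD_zero, fourier_path T d hd]
  have e1 : ∀ S, a S * ((∑ x, T.val x * (if S ⊆ T.Qt d x then mono S x else 0)) /
      (Fintype.card (I → Bool) : ℝ)) =
      (∑ x, T.val x * (if S ⊆ T.Qt d x then a S * mono S x else 0)) /
      (Fintype.card (I → Bool) : ℝ) := by
    intro S
    rw [mul_div_assoc', mul_sum]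
    congr 1
    refine sum_congr rfl fun x _ => ?_
    by_cases h : S ⊆ T.Qt d x
    · simp only [h, if_true]; ring
    · simp [h]
  simp only [e1]
  rw [← sum_div, sum_comm]
  congr 1
  refine sum_congr rfl fun x _ => ?_
  rw [← mul_sum]
  congr 1
  unfold pathPoly
  rw [← sum_filter]
  refine sum_congr ?_ fun _ _ => rfl
  ext S
  simp only [mem_filter, mem_powersetCard, subset_univ, true_and]
  tauto

omit [DecidableEq I] in
lemma DT.abs_val_le (T : DT I) (x : I → Bool) : |T.val x| ≤ 1 := by
  unfold DT.val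
  split_ifs <;> simp

/-- Level bound at the origin, squared. -/
theorem level_zero (T : DT I) (d k r : ℕ) (hd : T.depth ≤ d) (hr : 1 ≤ r) (K : ℝ) (hK0 : 0 ≤ K)
    (hK : K ^ r = (2 * (r : ℝ) - 1) ^ r * (Fintype.card I : ℝ))
    (a : Finset I → ℝ) (ha : ∀ S, |a S| ≤ 1) :
    (∑ S ∈ powersetCard k univ, a S * extD T.val S 0) ^ 2 ≤ K ^ k * (Nat.choose d k : ℝ) := by
  rw [level_sum_zero T d k hd a]
  set C := (Fintype.card (I → Bool) : ℝ) with hC
  have hCpos : 0 < C := by
    rw [hC]; exact_mod_cast Fintype.card_pos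
  set M := pathPoly T d k a with hM
  have hmom := moment_bound T r hr K hK0 hK d k a ha
  -- power mean
  have hpm : ((∑ x, (1 / C) * |M x|)) ^ (2 * r) ≤ ∑ x, (1 / C) * |M x| ^ (2 * r) := by
    apply Real.pow_arith_mean_le_arith_mean_pow
    · intro x _; positivity
    · rw [sum_const, nsmul_eq_mul, card_univ, ← hC]
      field_simp
    · intro x _; positivity
  have hsum : ∑ x, (1 / C) * |M x| ^ (2 * r) = (1 / C) * ∑ x, M x ^ (2 * r) := by
    rw [mul_sum]
    refine sum_congr rfl fun x _ => ?_
    rw [pow_mul, sq_abs, ← pow_mul]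
  have hB : ((∑ x, (1 / C) * |M x|)) ^ (2 * r) ≤ (K ^ k * (Nat.choose d k : ℝ)) ^ r := by
    calc _ ≤ ∑ x, (1 / C) * |M x| ^ (2 * r) := hpm
      _ = (1 / C) * ∑ x, M x ^ (2 * r) := hsum
      _ ≤ (1 / C) * (C * (K ^ k * (Nat.choose d k : ℝ)) ^ r) :=
          mul_le_mul_of_nonneg_left hmom (by positivity)
      _ = _ := by field_simp
  have hZ : |(∑ x, T.val x * M x) / C| ≤ ∑ x, (1 / C) * |M x| := by
    rw [abs_div, abs_of_pos hCpos, ← mul_sum, one_div, inv_mul_eq_div]
    apply div_le_div_of_nonneg_right _ hCpos.le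
    refine le_trans (abs_sum_le_sum_abs _ _) (sum_le_sum fun x _ => ?_)
    rw [abs_mul]
    have h1 := T.abs_val_le x
    have h2 := abs_nonneg (M x)
    nlinarith
  set Z := (∑ x, T.val x * M x) / C with hZdef
  have hB0 : 0 ≤ K ^ k * (Nat.choose d k : ℝ) := by positivity
  have hfin : (Z ^ 2) ^ r ≤ (K ^ k * (Nat.choose d k : ℝ)) ^ r := by
    calc (Z ^ 2) ^ r = |Z| ^ (2 * r) := by rw [pow_mul, sq_abs]
      _ ≤ (∑ x, (1 / C) * |M x|) ^ (2 * r) := pow_le_pow_left₀ (abs_nonneg _) hZ _
      _ ≤ _ := hB
  exact (pow_le_pow_iff_left₀ (by positivity) hB0 (by omega)).mp hfin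

/-- Scaled version of the level bound at the origin. -/
theorem level_zero_scaled (T : DT I) (d k r : ℕ) (hd : T.depth ≤ d) (hr : 1 ≤ r) (K : ℝ)
    (hK0 : 0 ≤ K) (hK : K ^ r = (2 * (r : ℝ) - 1) ^ r * (Fintype.card I : ℝ))
    (a : Finset I → ℝ) (A : ℝ) (hA : 0 ≤ A) (ha : ∀ S ∈ powersetCard k (univ : Finset I), |a S| ≤ A) :
    |∑ S ∈ powersetCard k univ, a S * extD T.val S 0| ≤
      A * Real.sqrt (K ^ k * (Nat.choose d k : ℝ)) := by
  rcases eq_or_lt_of_le hA with hA0 | hApos
  · subst hA0
    have : ∑ S ∈ powersetCard k (univ : Finset I), a S * extD T.val S 0 = 0 := by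
      apply sum_eq_zero
      intro S hS
      have := ha S hS
      have h0 : a S = 0 := by simpa using le_antisymm this (abs_nonneg _)
      rw [h0, zero_mul]
    rw [this]; simp
  · set a' : Finset I → ℝ := fun S => if S ∈ powersetCard k (univ : Finset I) then a S / A else 0
      with ha'
    have ha'1 : ∀ S, |a' S| ≤ 1 := by
      intro S
      simp only [ha']
      split_ifs with h
      · rw [abs_div, abs_of_pos hApos, div_le_one hApos]
        exact ha S h
      · simp
    have hsq := level_zero T d k r hd hr K hK0 hK a' ha'1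
    have hle := Real.abs_le_sqrt hsq
    have e : ∑ S ∈ powersetCard k (univ : Finset I), a S * extD T.val S 0 =
        A * ∑ S ∈ powersetCard k (univ : Finset I), a' S * extD T.val S 0 := by
      rw [mul_sum]
      refine sum_congr rfl fun S hS => ?_
      simp only [ha', if_pos hS]
      field_simp
    rw [e, abs_mul, abs_of_pos hApos]
    exact mul_le_mul_of_nonneg_left hle hA

/-! ### Restrictions and the interior point -/

namespace DT

/-- Fix the variable `i` to `c` in a tree. -/
def restr (i : I) (c : Bool) : DT I → DT I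
  | answer b => answer b
  | read j t₀ t₁ =>
    if j = i then (if c then restr i c t₁ else restr i c t₀)
    else read j (restr i c t₀) (restr i c t₁)

lemma depth_restr (i : I) (c : Bool) (T : DT I) : (restr i c T).depth ≤ T.depth := by
  induction T with
  | answer b => exact le_rfl
  | read j t₀ t₁ ih₀ ih₁ =>
    unfold restr
    by_cases h : j = i
    · rw [if_pos h]
      simp only [depth]
      cases c
      · simp only [Bool.false_eq_true, if_false]
        have := le_max_left t₀.depth t₁.depth
        omega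
      · simp only [if_true]
        have := le_max_right t₀.depth t₁.depth
        omega
    · rw [if_neg h]
      simp only [depth]
      have : max (restr i c t₀).depth (restr i c t₁).depth ≤ max t₀.depth t₁.depth :=
        max_le_max ih₀ ih₁
      omega

lemma eval_restr (i : I) (c : Bool) (T : DT I) (x : I → Bool) :
    (restr i c T).eval x = T.eval (Function.update x i c) := by
  induction T with
  | answer b => rfl
  | read j t₀ t₁ ih₀ ih₁ =>
    unfold restr
    by_cases h : j = i
    · subst h
      simp only [if_true, eval, Function.update_self]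
      cases c
      · simpa using ih₀
      · simpa using ih₁
    · rw [if_neg h]
      simp only [eval, Function.update_of_ne h]
      rw [ih₀, ih₁]

end DT

lemma extD_update_of_mem (f : (I → Bool) → ℝ) {S : Finset I} {i : I} (hi : i ∈ S) (z : I → ℝ)
    (v : ℝ) : extD f S (Function.update z i v) = extD f S z := by
  unfold extD
  refine sum_congr rfl fun x _ => ?_
  congr 1
  refine prod_congr rfl fun j _ => ?_
  by_cases hj : j ∈ S
  · simp [hj]
  · have : j ≠ i := fun e => hj (e ▸ hi)
    simp [hj, Function.update_of_ne this]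

lemma extD_affine (f : (I → Bool) → ℝ) {S : Finset I} {i : I} (hi : i ∉ S) (z : I → ℝ) (u e : ℝ)
    (hz : z i = u * e) :
    extD f S z = (1 - u) * extD f S (Function.update z i 0) +
      u * extD f S (Function.update z i e) := by
  unfold extD
  rw [mul_sum, mul_sum, ← sum_add_distrib]
  refine sum_congr rfl fun x _ => ?_
  set fac : (I → ℝ) → I → ℝ := fun w j =>
    if j ∈ S then sgn (x j) / 2 else (1 + sgn (x j) * w j) / 2 with hfac
  change f x * ∏ j, fac z j = (1 - u) * (f x * ∏ j, fac (Function.update z i 0) j) +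
    u * (f x * ∏ j, fac (Function.update z i e) j)
  rw [← mul_prod_erase univ _ (mem_univ i), ← mul_prod_erase univ (fac (Function.update z i 0))
    (mem_univ i), ← mul_prod_erase univ (fac (Function.update z i e)) (mem_univ i)]
  have h0 : ∏ j ∈ univ.erase i, fac (Function.update z i 0) j = ∏ j ∈ univ.erase i, fac z j := by
    refine prod_congr rfl fun j hj => ?_
    simp only [hfac, Function.update_of_ne (ne_of_mem_erase hj)]
  have h1 : ∏ j ∈ univ.erase i, fac (Function.update z i e) j = ∏ j ∈ univ.erase i, fac z j := by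
    refine prod_congr rfl fun j hj => ?_
    simp only [hfac, Function.update_of_ne (ne_of_mem_erase hj)]
  rw [h0, h1]
  simp only [hfac, if_neg hi, Function.update_self, hz]
  ring

lemma sum_comp_flip (i : I) (g : (I → Bool) → ℝ) : ∑ x, g (flipAt x i) = ∑ x, g x := by
  have hinv : Function.Involutive (fun x : I → Bool => flipAt x i) := fun x => flipAt_flipAt x i
  exact Equiv.sum_comp hinv.toPerm g

lemma extD_fix (f : (I → Bool) → ℝ) {S : Finset I} {i : I} (hi : i ∉ S) (z : I → ℝ) (c : Bool) :
    extD f S (Function.update z i (sgn c)) =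
      extD (fun x => f (Function.update x i c)) S (Function.update z i 0) := by
  unfold extD
  set P : (I → Bool) → ℝ := fun x => ∏ j ∈ univ.erase i,
    (if j ∈ S then sgn (x j) / 2 else (1 + sgn (x j) * z j) / 2) with hP
  have hPflip : ∀ x, P (flipAt x i) = P x := by
    intro x
    refine prod_congr rfl fun j hj => ?_
    rw [flipAt_ne x (ne_of_mem_erase hj)]
  have hL : ∀ x, ∏ j, (if j ∈ S then sgn (x j) / 2 else
      (1 + sgn (x j) * Function.update z i (sgn c) j) / 2) =
      (1 + sgn (x i) * sgn c) / 2 * P x := by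
    intro x
    rw [← mul_prod_erase univ _ (mem_univ i)]
    simp only [if_neg hi, Function.update_self]
    congr 1
    refine prod_congr rfl fun j hj => ?_
    simp only [Function.update_of_ne (ne_of_mem_erase hj)]
  have hR : ∀ x, ∏ j, (if j ∈ S then sgn (x j) / 2 else
      (1 + sgn (x j) * Function.update z i 0 j) / 2) = 1 / 2 * P x := by
    intro x
    rw [← mul_prod_erase univ _ (mem_univ i)]
    simp only [if_neg hi, Function.update_self, mul_zero, add_zero]
    congr 1
    refine prod_congr rfl fun j hj => ?_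
    simp only [Function.update_of_ne (ne_of_mem_erase hj)]
  simp only [hL, hR]
  set lam : (I → Bool) → ℝ := fun x => f x * ((1 + sgn (x i) * sgn c) / 2 * P x) with hlam
  have hpair : ∀ x, lam x + lam (flipAt x i) = 2 * (f (Function.update x i c) * (1 / 2 * P x)) := by
    intro x
    simp only [hlam, hPflip, flipAt_self, sgn_not]
    by_cases hc : x i = c
    · subst hc
      have : Function.update x i (x i) = x := Function.update_eq_self i x
      have h2 : -sgn (x i) * sgn (x i) = -1 := by rw [neg_mul, sgn_mul_self]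
      rw [this, sgn_mul_self, h2]
      ring
    · have hc' : c = !x i := by
        cases hb : x i <;> cases c <;> simp_all
      subst hc'
      have : Function.update x i (!x i) = flipAt x i := rfl
      rw [this, sgn_not, mul_neg, sgn_mul_self]
      have h2 : -sgn (x i) * -sgn (x i) = 1 := by rw [neg_mul_neg, sgn_mul_self]
      rw [h2]
      ring
  have hsum := sum_congr (rfl : (univ : Finset (I → Bool)) = univ) (fun x _ => hpair x)
  rw [sum_add_distrib, sum_comp_flip i lam, ← mul_sum] at hsum
  linarith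

/-- The induction on the support of `z`. -/
theorem level_aux (d k : ℕ) (L : ℝ) (hL : 0 ≤ L)
    (h0 : ∀ (T : DT I) (a : Finset I → ℝ) (A : ℝ), T.depth ≤ d → 0 ≤ A →
      (∀ S ∈ powersetCard k (univ : Finset I), |a S| ≤ A) →
      |∑ S ∈ powersetCard k univ, a S * extD T.val S 0| ≤ A * L)
    (W : Finset I) :
    ∀ (T : DT I) (z : I → ℝ) (a : Finset I → ℝ) (A : ℝ), T.depth ≤ d → (∀ j, j ∉ W → z j = 0) →
      (∀ j, |z j| < 1) → 0 ≤ A →
      (∀ S ∈ powersetCard k (univ : Finset I), |a S| ≤ A * ∏ j ∈ S, (1 - |z j|)) →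
      |∑ S ∈ powersetCard k univ, a S * extD T.val S z| ≤ A * L := by
  induction W using Finset.induction_on with
  | empty =>
    intro T z a A hd hW _ hA ha
    have hz0 : z = 0 := funext fun j => hW j (notMem_empty j)
    subst hz0
    refine h0 T a A hd hA fun S hS => ?_
    have := ha S hS
    simpa using this
  | insert i W' hi ih =>
    intro T z a A hd hW hz1 hA ha
    by_cases hzi : z i = 0
    · refine ih T z a A hd (fun j hj => ?_) hz1 hA ha
      by_cases hji : j = i
      · rw [hji]; exact hzi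
      · exact hW j (by simp [hji, hj])
    · set u := |z i| with hu
      have hu0 : 0 < u := abs_pos.mpr hzi
      have hu1 : u < 1 := hz1 i
      obtain ⟨c, hc⟩ : ∃ c : Bool, z i = u * sgn c := by
        rcases lt_or_gt_of_ne hzi with h | h
        · exact ⟨true, by simp [sgn, hu, abs_of_neg h]⟩
        · exact ⟨false, by simp [sgn, hu, abs_of_pos h]⟩
      set z0 := Function.update z i 0 with hz0
      set b : Finset I → ℝ := fun S => if i ∈ S then a S / (1 - u) else a S with hb
      set e : Finset I → ℝ := fun S => if i ∈ S then 0 else a S with he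
      have hu1' : 0 < 1 - u := by linarith
      have hz0abs : ∀ j, |z0 j| < 1 := by
        intro j
        by_cases hj : j = i
        · subst hj; simp [hz0]
        · simp only [hz0, Function.update_of_ne hj]; exact hz1 j
      have hz0W : ∀ j, j ∉ W' → z0 j = 0 := by
        intro j hj
        by_cases hji : j = i
        · subst hji; simp [hz0]
        · simp only [hz0, Function.update_of_ne hji]
          exact hW j (by simp [hji, hj])
      have hprodnn : ∀ S : Finset I, 0 ≤ ∏ j ∈ S, (1 - |z0 j|) := by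
        intro S
        exact prod_nonneg fun j _ => by have := hz0abs j; linarith
      have hprodne : ∀ S : Finset I, i ∉ S → ∏ j ∈ S, (1 - |z0 j|) = ∏ j ∈ S, (1 - |z j|) := by
        intro S hS
        refine prod_congr rfl fun j hj => ?_
        have : j ≠ i := fun h => hS (h ▸ hj)
        simp only [hz0, Function.update_of_ne this]
      have hprodin : ∀ S : Finset I, i ∈ S →
          ∏ j ∈ S, (1 - |z j|) = (1 - u) * ∏ j ∈ S, (1 - |z0 j|) := by
        intro S hS
        rw [← mul_prod_erase S _ hS, ← mul_prod_erase S (fun j => 1 - |z0 j|) hS]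
        have : ∏ j ∈ S.erase i, (1 - |z0 j|) = ∏ j ∈ S.erase i, (1 - |z j|) := by
          refine prod_congr rfl fun j hj => ?_
          simp only [hz0, Function.update_of_ne (ne_of_mem_erase hj)]
        rw [this]
        simp [hz0, hu]
      have hbb : ∀ S ∈ powersetCard k (univ : Finset I), |b S| ≤ A * ∏ j ∈ S, (1 - |z0 j|) := by
        intro S hS
        simp only [hb]
        by_cases hiS : i ∈ S
        · rw [if_pos hiS, abs_div, abs_of_pos hu1', div_le_iff₀ hu1']
          have := ha S hS
          rw [hprodin S hiS] at this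
          nlinarith
        · rw [if_neg hiS, hprodne S hiS]
          exact ha S hS
      have hee : ∀ S ∈ powersetCard k (univ : Finset I), |e S| ≤ A * ∏ j ∈ S, (1 - |z0 j|) := by
        intro S hS
        simp only [he]
        by_cases hiS : i ∈ S
        · rw [if_pos hiS, abs_zero]
          exact mul_nonneg hA (hprodnn S)
        · rw [if_neg hiS, hprodne S hiS]
          exact ha S hS
      have hsplit : ∑ S ∈ powersetCard k univ, a S * extD T.val S z =
          (1 - u) * ∑ S ∈ powersetCard k univ, b S * extD T.val S z0 +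
          u * ∑ S ∈ powersetCard k univ, e S * extD (T.restr i c).val S z0 := by
        rw [mul_sum, mul_sum, ← sum_add_distrib]
        refine sum_congr rfl fun S _ => ?_
        simp only [hb, he]
        by_cases hiS : i ∈ S
        · rw [if_pos hiS, if_pos hiS, ← extD_update_of_mem T.val hiS z 0]
          field_simp
          ring
        · rw [if_neg hiS, if_neg hiS, extD_affine T.val hiS z u (sgn c) hc,
            extD_fix T.val hiS z c]
          have : (fun x => T.val (Function.update x i c)) = (T.restr i c).val := by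
            funext x
            unfold DT.val
            rw [DT.eval_restr]
          rw [this]
          ring
      rw [hsplit]
      have h1 := ih T z0 b A hd hz0W hz0abs hA hbb
      have h2 := ih (T.restr i c) z0 e A (le_trans (DT.depth_restr i c T) hd) hz0W hz0abs hA hee
      calc |(1 - u) * ∑ S ∈ powersetCard k univ, b S * extD T.val S z0 +
            u * ∑ S ∈ powersetCard k univ, e S * extD (T.restr i c).val S z0|
          ≤ (1 - u) * |∑ S ∈ powersetCard k univ, b S * extD T.val S z0| +
            u * |∑ S ∈ powersetCard k univ, e S * extD (T.restr i c).val S z0| := by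
            refine le_trans (abs_add_le _ _) ?_
            rw [abs_mul, abs_mul, abs_of_pos hu1', abs_of_pos hu0]
        _ ≤ (1 - u) * (A * L) + u * (A * L) := by
            gcongr
        _ = A * L := by ring

/-- **Level bound at an interior point.** For a tree of depth at most `d`, weights `|a S| ≤ 1`,
any even `q ≥ 2` and `|z i| ≤ 1/2`:
`|∑_{|S|=m} a S ∂_S (ext T) z| ≤ 2^m (K d)^(m/2)`, `K = (q-1) |I|^(2/q)`.
Stated for the square to avoid half powers. -/
theorem level_bound (T : DT I) (d m q : ℕ) (hd : T.depth ≤ d) (hq : 2 ≤ q) (hq2 : Even q)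
    (a : Finset I → ℝ) (ha : ∀ S, |a S| ≤ 1) (z : I → ℝ) (hz : ∀ i, |z i| ≤ 1 / 2) :
    (∑ S ∈ powersetCard m univ, a S * extD T.val S z) ^ 2 ≤
      4 ^ m * (((q : ℝ) - 1) * (Fintype.card I : ℝ) ^ (2 / (q : ℝ)) * d) ^ m := by
  obtain ⟨r, hr⟩ := hq2
  have hr1 : 1 ≤ r := by omega
  have hqr : (q : ℝ) = 2 * (r : ℝ) := by rw [hr]; push_cast; ring
  set K := ((q : ℝ) - 1) * (Fintype.card I : ℝ) ^ (2 / (q : ℝ)) with hKdef
  have hrR : (1 : ℝ) ≤ r := by exact_mod_cast hr1
  have hK0 : 0 ≤ K := by
    apply mul_nonneg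
    · rw [hqr]; linarith
    · positivity
  have hK : K ^ r = (2 * (r : ℝ) - 1) ^ r * (Fintype.card I : ℝ) := by
    rw [hKdef, mul_pow, hqr]
    congr 1
    rw [← Real.rpow_natCast, ← Real.rpow_mul (by positivity)]
    have : 2 / (2 * (r : ℝ)) * (r : ℝ) = 1 := by field_simp
    rw [this, Real.rpow_one]
  set L := Real.sqrt (K ^ m * (Nat.choose d m : ℝ)) with hLdef
  have hL0 : 0 ≤ L := Real.sqrt_nonneg _
  have hmain := level_aux d m L hL0
    (fun T a A hT hA haA => level_zero_scaled T d m r hT hr1 K hK0 hK a A hA haA)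
    univ T z a (2 ^ m) hd (fun j hj => absurd (mem_univ j) hj)
    (fun j => lt_of_le_of_lt (hz j) (by norm_num)) (by positivity)
    (by
      intro S hS
      have hcard := (mem_powersetCard.mp hS).2
      have h1 : (1 / 2 : ℝ) ^ m ≤ ∏ j ∈ S, (1 - |z j|) := by
        rw [← hcard, ← prod_const]
        refine prod_le_prod (fun _ _ => by norm_num) fun j _ => ?_
        have := hz j
        linarith
      have h2 : (1 : ℝ) ≤ 2 ^ m * ∏ j ∈ S, (1 - |z j|) := by
        calc (1 : ℝ) = 2 ^ m * (1 / 2) ^ m := by rw [← mul_pow]; norm_num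
          _ ≤ _ := mul_le_mul_of_nonneg_left h1 (by positivity)
      exact le_trans (ha S) h2)
  have hsq : (∑ S ∈ powersetCard m univ, a S * extD T.val S z) ^ 2 ≤ (2 ^ m * L) ^ 2 := by
    rw [← sq_abs]
    exact pow_le_pow_left₀ (abs_nonneg _) hmain 2
  refine le_trans hsq ?_
  have hB0 : 0 ≤ K ^ m * (Nat.choose d m : ℝ) := by positivity
  rw [mul_pow, hLdef, Real.sq_sqrt hB0]
  have e4 : ((2 : ℝ) ^ m) ^ 2 = 4 ^ m := by
    rw [← pow_mul, mul_comm, pow_mul]; norm_num
  rw [e4, mul_pow K]
  have hch : (Nat.choose d m : ℝ) ≤ (d : ℝ) ^ m := by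
    have h1 : (Nat.choose d m : ℝ) ≤ (d : ℝ) ^ m / (m.factorial : ℝ) := Nat.choose_le_pow_div m d
    have h2 : (d : ℝ) ^ m / (m.factorial : ℝ) ≤ (d : ℝ) ^ m :=
      div_le_self (by positivity) (by exact_mod_cast Nat.one_le_iff_ne_zero.mpr (Nat.factorial_ne_zero m))
    linarith
  gcongr

end Crest.Agent.QuartSep
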