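-- Row 350 (S0554): the action of formal differential polynomials on `ext f`.  helper36.
import Crest.Agent.Lib.QuartSep.DTFourier

set_option autoImplicit false

namespace Crest.Agent.QuartSep

open Finset BigOperators

section Act

variable {I : Type} [Fintype I] [DecidableEq I] (f : (I → Bool) → ℝ)

/-- One factor of `extD`. -/
noncomputable def aFac (S : Finset I) (x : I → Bool) (z : I → ℝ) (i : I) : ℝ :=
  if i ∈ S then sgn (x i) / 2 else (1 + sgn (x i) * z i) / 2

theorem extD_eq (S : Finset I) (z : I → ℝ) : extD f S z = ∑ x, f x * ∏ i, aFac S x z i := rfl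

theorem extD_empty (z : I → ℝ) : extD f ∅ z = ext f z := by
  simp [extD, ext]

theorem sgn_sq0 (b : Bool) : sgn b ^ 2 = 1 := by cases b <;> simp [sgn]

theorem abs_sgn0 (b : Bool) : |sgn b| = 1 := by cases b <;> simp [sgn]

theorem aFac_term_hasFDerivAt (S : Finset I) (x : I → Bool) (z : I → ℝ) :
    HasFDerivAt (fun z : I → ℝ => ∏ i, aFac S x z i)
      (∑ i, (if i ∈ S then (0 : ℝ) else ∏ j, aFac (insert i S) x z j) •
        (ContinuousLinearMap.proj i : (I → ℝ) →L[ℝ] ℝ)) z := by
  have h : ∀ i ∈ (univ : Finset I), HasFDerivAt (fun z : I → ℝ => aFac S x z i)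
      ((if i ∈ S then (0 : ℝ) else sgn (x i) / 2) •
        (ContinuousLinearMap.proj i : (I → ℝ) →L[ℝ] ℝ)) z := by
    intro i _
    unfold aFac
    by_cases hi : i ∈ S
    · simp only [hi, if_true, zero_smul]
      exact hasFDerivAt_const _ _
    · simp only [hi, if_false]
      have h1 : HasFDerivAt (fun z : I → ℝ => z i)
          (ContinuousLinearMap.proj i : (I → ℝ) →L[ℝ] ℝ) z :=
        (ContinuousLinearMap.proj i : (I → ℝ) →L[ℝ] ℝ).hasFDerivAt
      have h2 := ((h1.const_mul (sgn (x i))).const_add 1).const_mul (1 / 2 : ℝ)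
      have e : (fun z : I → ℝ => (1 + sgn (x i) * z i) / 2) =
          fun z : I → ℝ => (1 / 2 : ℝ) * (1 + sgn (x i) * z i) := by
        funext z; ring
      rw [e]
      refine h2.congr_fderiv (ContinuousLinearMap.ext fun v => ?_)
      simp
      ring
  have h3 := HasFDerivAt.finsetProd h
  refine h3.congr_fderiv ?_
  refine Finset.sum_congr rfl fun i _ => ?_
  by_cases hi : i ∈ S
  · simp [hi]
  · simp only [hi, if_false]
    rw [smul_smul]
    congr 1
    rw [← Finset.mul_prod_erase univ _ (Finset.mem_univ i)]
    have e1 : aFac (insert i S) x z i = sgn (x i) / 2 := by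
      simp [aFac]
    rw [e1, mul_comm]
    congr 1
    refine Finset.prod_congr rfl fun j hj => ?_
    have hj' : j ≠ i := Finset.ne_of_mem_erase hj
    simp [aFac, hj']

/-- Derivative of `extD`. -/
theorem extD_hasFDerivAt (S : Finset I) (z : I → ℝ) :
    HasFDerivAt (extD f S)
      (∑ i, (if i ∈ S then (0 : ℝ) else extD f (insert i S) z) •
        (ContinuousLinearMap.proj i : (I → ℝ) →L[ℝ] ℝ)) z := by
  have h1 : HasFDerivAt (fun z : I → ℝ => ∑ x, f x * ∏ i, aFac S x z i)
      (∑ x, f x • ∑ i, (if i ∈ S then (0 : ℝ) else ∏ j, aFac (insert i S) x z j) •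
        (ContinuousLinearMap.proj i : (I → ℝ) →L[ℝ] ℝ)) z := by
    apply HasFDerivAt.fun_sum
    intro x _
    exact (aFac_term_hasFDerivAt S x z).const_mul (f x)
  refine h1.congr_fderiv (ContinuousLinearMap.ext fun v => ?_)
  simp only [FunLike.coe_sum, FunLike.coe_smul, Finset.sum_apply,
    Pi.smul_apply, ContinuousLinearMap.proj_apply, smul_eq_mul, Finset.mul_sum]
  rw [Finset.sum_comm]
  refine Finset.sum_congr rfl fun i _ => ?_
  by_cases hi : i ∈ S
  · simp [hi]
  · simp only [hi, if_false, extD_eq, Finset.sum_mul]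
    refine Finset.sum_congr rfl fun x _ => ?_
    ring

/-- The difference formula. -/
theorem extD_update_sub (S : Finset I) (z : I → ℝ) (i : I) :
    extD f S (Function.update z i 1) - extD f S (Function.update z i (-1)) =
      2 * (if i ∈ S then (0 : ℝ) else extD f (insert i S) z) := by
  simp only [extD_eq]
  rw [← Finset.sum_sub_distrib]
  by_cases hi : i ∈ S
  · simp only [hi, if_true, mul_zero]
    refine Finset.sum_eq_zero fun x _ => ?_
    have : ∀ v : ℝ, ∏ j, aFac S x (Function.update z i v) j = ∏ j, aFac S x z j := by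
      intro v
      refine Finset.prod_congr rfl fun j _ => ?_
      by_cases hj : j = i
      · subst hj; simp [aFac, hi]
      · simp [aFac, Function.update_of_ne hj]
    rw [this, this]; ring
  · simp only [hi, if_false, Finset.mul_sum]
    refine Finset.sum_congr rfl fun x _ => ?_
    have e : ∀ v : ℝ, ∏ j, aFac S x (Function.update z i v) j =
        ((1 + sgn (x i) * v) / 2) * ∏ j ∈ univ.erase i, aFac S x z j := by
      intro v
      rw [← Finset.mul_prod_erase univ _ (Finset.mem_univ i)]
      congr 1
      · simp [aFac, hi]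
      · refine Finset.prod_congr rfl fun j hj => ?_
        have hj' : j ≠ i := Finset.ne_of_mem_erase hj
        simp [aFac, Function.update_of_ne hj']
    have e2 : ∏ j, aFac (insert i S) x z j =
        (sgn (x i) / 2) * ∏ j ∈ univ.erase i, aFac S x z j := by
      rw [← Finset.mul_prod_erase univ _ (Finset.mem_univ i)]
      congr 1
      · simp [aFac]
      · refine Finset.prod_congr rfl fun j hj => ?_
        have hj' : j ≠ i := Finset.ne_of_mem_erase hj
        simp [aFac, hj']
    rw [e, e, e2]
    ring

/-- The product weights of `ext` sum to one. -/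
theorem sum_prod_weight0 (z : I → ℝ) :
    ∑ x : I → Bool, ∏ i, ((1 + sgn (x i) * z i) / 2) = 1 := by
  have h := (Finset.prod_univ_sum (fun _ : I => (univ : Finset Bool))
    (fun i b => (1 + sgn b * z i) / 2))
  rw [Fintype.piFinset_univ] at h
  rw [← h]
  refine Finset.prod_eq_one fun i _ => ?_
  simp [sgn]
  ring

/-- Bound for `ext` on the cube. -/
theorem ext_abs_le {B : ℝ} (hf : ∀ x, |f x| ≤ B) {z : I → ℝ} (hz : ∀ i, |z i| ≤ 1) :
    |ext f z| ≤ B := by
  unfold ext
  have hw : ∀ x : I → Bool, 0 ≤ ∏ i, ((1 + sgn (x i) * z i) / 2) := by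
    intro x
    refine Finset.prod_nonneg fun i _ => ?_
    have h1 := abs_le.1 (hz i)
    cases h : x i <;> simp [sgn] <;> linarith
  calc |∑ x : I → Bool, f x * ∏ i, ((1 + sgn (x i) * z i) / 2)|
      ≤ ∑ x : I → Bool, |f x * ∏ i, ((1 + sgn (x i) * z i) / 2)| := Finset.abs_sum_le_sum_abs _ _
    _ ≤ ∑ x : I → Bool, B * ∏ i, ((1 + sgn (x i) * z i) / 2) := by
        refine Finset.sum_le_sum fun x _ => ?_
        rw [abs_mul, abs_of_nonneg (hw x)]
        exact mul_le_mul_of_nonneg_right (hf x) (hw x)
    _ = B := by rw [← Finset.mul_sum, sum_prod_weight0, mul_one]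

/-! ### The action -/

open MvPolynomial

/-- Action of a monomial: `extD` of the support if the monomial is squarefree, otherwise zero. -/
noncomputable def actV (m : I →₀ ℕ) : (I → ℝ) → ℝ :=
  if ∀ i, m i ≤ 1 then extD f m.support else 0

/-- The action of a formal polynomial in the commuting symbols `∂_i` on `ext f`. -/
noncomputable def actP : MvPolynomial I ℝ →ₗ[ℝ] ((I → ℝ) → ℝ) :=
  (MvPolynomial.basisMonomials I ℝ).constr ℝ (actV f)

theorem actP_monomial (m : I →₀ ℕ) (c : ℝ) : actP f (monomial m c) = c • actV f m := by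
  have h : monomial m c = c • monomial m (1 : ℝ) := by
    rw [MvPolynomial.smul_monomial]; simp
  rw [h, map_smul]
  congr 1
  have := (MvPolynomial.basisMonomials I ℝ).constr_basis ℝ (actV f) m
  rw [MvPolynomial.coe_basisMonomials] at this
  exact this

theorem actP_add (p q : MvPolynomial I ℝ) (z : I → ℝ) :
    actP f (p + q) z = actP f p z + actP f q z := by simp

theorem actP_C_mul (c : ℝ) (p : MvPolynomial I ℝ) (z : I → ℝ) :
    actP f (C c * p) z = c * actP f p z := by
  rw [MvPolynomial.C_mul', map_smul]; simp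

theorem actP_sum {ι : Type*} (s : Finset ι) (p : ι → MvPolynomial I ℝ) (z : I → ℝ) :
    actP f (∑ i ∈ s, p i) z = ∑ i ∈ s, actP f (p i) z := by
  rw [map_sum, Finset.sum_apply]

theorem actP_zero (z : I → ℝ) : actP f 0 z = 0 := by simp

theorem actP_one : actP f 1 = ext f := by
  have : (1 : MvPolynomial I ℝ) = monomial 0 1 := rfl
  rw [this, actP_monomial, one_smul]
  funext z
  simp [actV, extD_empty]

theorem actV_add_single (m : I →₀ ℕ) (i : I) :
    actV f (m + Finsupp.single i 1) =
      if ∀ j, m j ≤ 1 then (if i ∈ m.support then 0 else extD f (insert i m.support)) else 0 := by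
  unfold actV
  by_cases hm : ∀ j, m j ≤ 1
  · simp only [hm, implies_true, if_true]
    by_cases hi : i ∈ m.support
    · simp only [hi, if_true]
      rw [if_neg]
      intro h
      have h1 := h i
      have h2 : 1 ≤ m i := Nat.one_le_iff_ne_zero.2 (Finsupp.mem_support_iff.1 hi)
      simp at h1
      omega
    · simp only [hi, if_false]
      have h0 : m i = 0 := by simpa using hi
      rw [if_pos]
      · congr 1
        ext j
        simp only [Finsupp.mem_support_iff, Finsupp.add_apply, Finset.mem_insert]
        by_cases hj : j = i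
        · subst hj; simp
        · simp [hj, Finsupp.single_apply, Ne.symm hj]
      · intro j
        by_cases hj : j = i
        · subst hj; simp [h0]
        · simp [Finsupp.single_apply, Ne.symm hj, hm j]
  · simp only [hm, if_false]
    rw [if_neg]
    intro h
    apply hm
    intro j
    have := h j
    simp at this
    omega

theorem actV_hasFDerivAt (m : I →₀ ℕ) (z : I → ℝ) :
    HasFDerivAt (actV f m)
      (∑ i, actV f (m + Finsupp.single i 1) z •
        (ContinuousLinearMap.proj i : (I → ℝ) →L[ℝ] ℝ)) z := by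
  simp only [actV_add_single]
  by_cases hm : ∀ j, m j ≤ 1
  · simp only [hm, implies_true, if_true]
    have := extD_hasFDerivAt f m.support z
    unfold actV
    simp only [hm, implies_true, if_true]
    refine this.congr_fderiv (Finset.sum_congr rfl fun i _ => ?_)
    by_cases hi : i ∈ m.support <;> simp [hi]
  · simp only [hm, if_false]
    unfold actV
    simp only [hm, if_false]
    have h0 : HasFDerivAt (0 : (I → ℝ) → ℝ) (0 : (I → ℝ) →L[ℝ] ℝ) z := hasFDerivAt_const (0 : ℝ) z
    simpa using h0

/-- Derivative of the action: `∂_i (actP p) = actP (p X_i)`. -/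
theorem actP_hasFDerivAt (p : MvPolynomial I ℝ) (z : I → ℝ) :
    HasFDerivAt (actP f p)
      (∑ i, actP f (p * X i) z • (ContinuousLinearMap.proj i : (I → ℝ) →L[ℝ] ℝ)) z := by
  induction p using MvPolynomial.induction_on' with
  | monomial m c =>
    rw [actP_monomial]
    have h := (actV_hasFDerivAt f m z).const_smul c
    refine h.congr_fderiv ?_
    rw [Finset.smul_sum]
    refine Finset.sum_congr rfl fun i _ => ?_
    rw [smul_smul]
    congr 1
    rw [MvPolynomial.X, MvPolynomial.monomial_mul, mul_one, actP_monomial]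
    simp
  | add p q hp hq =>
    rw [map_add]
    have h := hp.add hq
    refine h.congr_fderiv ?_
    rw [← Finset.sum_add_distrib]
    refine Finset.sum_congr rfl fun i _ => ?_
    rw [add_mul, map_add, ← add_smul]
    rfl

theorem actP_differentiable (p : MvPolynomial I ℝ) : Differentiable ℝ (actP f p) :=
  fun z => (actP_hasFDerivAt f p z).differentiableAt

theorem actP_continuous (p : MvPolynomial I ℝ) : Continuous (actP f p) :=
  (actP_differentiable f p).continuous

/-- Multi-affineness: the square of a symbol acts by zero. -/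
theorem actP_mul_X_X (p : MvPolynomial I ℝ) (i : I) : actP f (p * X i * X i) = 0 := by
  induction p using MvPolynomial.induction_on' with
  | monomial m c =>
    rw [MvPolynomial.X, MvPolynomial.monomial_mul, MvPolynomial.monomial_mul, actP_monomial]
    have : actV f (m + Finsupp.single i 1 + Finsupp.single i 1) = 0 := by
      unfold actV
      rw [if_neg]
      intro h
      have := h i
      simp at this
    rw [this, smul_zero]
  | add p q hp hq =>
    rw [add_mul, add_mul, map_add, hp, hq, add_zero]

/-- The difference formula for the action. -/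
theorem actP_update_sub (p : MvPolynomial I ℝ) (z : I → ℝ) (i : I) :
    actP f p (Function.update z i 1) - actP f p (Function.update z i (-1)) =
      2 * actP f (p * X i) z := by
  induction p using MvPolynomial.induction_on' with
  | monomial m c =>
    rw [MvPolynomial.X, MvPolynomial.monomial_mul, actP_monomial, actP_monomial, mul_one]
    simp only [Pi.smul_apply, smul_eq_mul]
    rw [← mul_sub]
    have : actV f m (Function.update z i 1) - actV f m (Function.update z i (-1)) =
        2 * actV f (m + Finsupp.single i 1) z := by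
      rw [actV_add_single]
      unfold actV
      by_cases hm : ∀ j, m j ≤ 1
      · simp only [hm, implies_true, if_true]
        rw [extD_update_sub]
        by_cases hi : i ∈ m.support <;> simp [hi]
      · simp [hm]
    rw [this]; ring
  | add p q hp hq =>
    simp only [add_mul, map_add, Pi.add_apply]
    linarith

/-- `BddA f p K`: the action of `p` is bounded by `K` on the cube. -/
def BddA (p : MvPolynomial I ℝ) (K : ℝ) : Prop :=
  ∀ z : I → ℝ, (∀ i, |z i| ≤ 1) → |actP f p z| ≤ K

theorem BddA.mul_X {p : MvPolynomial I ℝ} {K : ℝ} (h : BddA f p K) (i : I) :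
    BddA f (p * X i) K := by
  intro z hz
  have h1 : ∀ v : ℝ, |v| ≤ 1 → ∀ j, |Function.update z i v j| ≤ 1 := by
    intro v hv j
    by_cases hj : j = i
    · subst hj; simpa using hv
    · simpa [Function.update_of_ne hj] using hz j
  have h2 := h _ (h1 1 (by simp))
  have h3 := h _ (h1 (-1) (by simp))
  have h4 := actP_update_sub f p z i
  have h5 := abs_le.1 h2
  have h6 := abs_le.1 h3
  rw [abs_le]
  constructor <;> linarith

theorem BddA.add {p q : MvPolynomial I ℝ} {K L : ℝ} (h : BddA f p K) (h' : BddA f q L) :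
    BddA f (p + q) (K + L) := by
  intro z hz
  rw [actP_add]
  exact (abs_add_le _ _).trans (add_le_add (h z hz) (h' z hz))

theorem BddA.C_mul {p : MvPolynomial I ℝ} {K : ℝ} (h : BddA f p K) (c : ℝ) :
    BddA f (C c * p) (|c| * K) := by
  intro z hz
  rw [actP_C_mul, abs_mul]
  exact mul_le_mul_of_nonneg_left (h z hz) (abs_nonneg c)

theorem BddA.mono {p : MvPolynomial I ℝ} {K L : ℝ} (h : BddA f p K) (hKL : K ≤ L) :
    BddA f p L := fun z hz => (h z hz).trans hKL

theorem BddA.sum {ι : Type*} (s : Finset ι) (p : ι → MvPolynomial I ℝ) (K : ι → ℝ)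
    (h : ∀ i ∈ s, BddA f (p i) (K i)) : BddA f (∑ i ∈ s, p i) (∑ i ∈ s, K i) := by
  intro z hz
  rw [actP_sum]
  refine (Finset.abs_sum_le_sum_abs _ _).trans (Finset.sum_le_sum fun i hi => h i hi z hz)

theorem BddA.one {B : ℝ} (hf : ∀ x, |f x| ≤ B) : BddA f 1 B := by
  intro z hz
  rw [actP_one]
  exact ext_abs_le f hf hz

/-- Every polynomial has a bound. -/
theorem exists_bddA (p : MvPolynomial I ℝ) : ∃ K, BddA f p K := by
  obtain ⟨B, hB⟩ : ∃ B, ∀ x, |f x| ≤ B :=
    ⟨∑ x, |f x|, fun x => Finset.single_le_sum (f := fun x => |f x|)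
      (fun _ _ => abs_nonneg _) (Finset.mem_univ x)⟩
  induction p using MvPolynomial.induction_on with
  | C a =>
    refine ⟨|a| * B, ?_⟩
    have := (BddA.one f hB).C_mul f a
    simpa using this
  | add p q hp hq =>
    obtain ⟨K, hK⟩ := hp
    obtain ⟨L, hL⟩ := hq
    exact ⟨K + L, hK.add f hL⟩
  | mul_X p i hp =>
    obtain ⟨K, hK⟩ := hp
    exact ⟨K, hK.mul_X f i⟩

/-- The product of distinct symbols acts as `extD`. -/
theorem actP_prod_X (S : Finset I) : actP f (∏ i ∈ S, X i) = extD f S := by
  have h : (∏ i ∈ S, (X i : MvPolynomial I ℝ)) = monomial (∑ i ∈ S, Finsupp.single i 1) 1 := by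
    rw [MvPolynomial.monomial_sum_one]
    rfl
  rw [h, actP_monomial, one_smul]
  have hc : ∀ j, (∑ i ∈ S, Finsupp.single i 1 : I →₀ ℕ) j = if j ∈ S then 1 else 0 := by
    intro j
    rw [Finsupp.finsetSum_apply]
    simp [Finsupp.single_apply, Finset.sum_ite_eq']
  unfold actV
  rw [if_pos]
  · congr 1
    ext j
    simp only [Finsupp.mem_support_iff, hc]
    by_cases hj : j ∈ S <;> simp [hj]
  · intro j
    rw [hc]
    split_ifs <;> simp

end Act

end Crest.Agent.QuartSep
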