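-- Row 350 (S0554): Gaussian density, Stein identity, Chernoff tail, bump, generic cutoff.  helper36.
import Mathlib

set_option autoImplicit false

namespace Crest.Agent.QuartSep

open Finset BigOperators MeasureTheory

/-! ## Gaussian expectation on a finite product -/

section Generic
variable {Ω : Type} [Fintype Ω]

/-- The standard Gaussian density on `Ω → ℝ`. -/
noncomputable def gDens (g : Ω → ℝ) : ℝ :=
  ∏ ω, ((Real.sqrt (2 * Real.pi))⁻¹ * Real.exp (-(g ω) ^ 2 / 2))

/-- Expectation under the standard Gaussian measure on `Ω → ℝ`. -/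
noncomputable def gE (h : (Ω → ℝ) → ℝ) : ℝ := ∫ g, h g * gDens g

/-- The one-dimensional density. -/
noncomputable def g1 (x : ℝ) : ℝ := (Real.sqrt (2 * Real.pi))⁻¹ * Real.exp (-x ^ 2 / 2)

theorem g1_pos (x : ℝ) : 0 < g1 x := by
  unfold g1
  have : 0 < Real.sqrt (2 * Real.pi) := Real.sqrt_pos.2 (by positivity)
  positivity

theorem gDens_eq_prod (g : Ω → ℝ) : gDens g = ∏ ω, g1 (g ω) := rfl

theorem gDens_pos (g : Ω → ℝ) : 0 < gDens g :=
  Finset.prod_pos fun _ _ => g1_pos _

theorem gDens_nonneg (g : Ω → ℝ) : 0 ≤ gDens g := (gDens_pos g).le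

theorem g1_continuous : Continuous g1 := by
  unfold g1; fun_prop

theorem gDens_continuous : Continuous (gDens : (Ω → ℝ) → ℝ) := by
  unfold gDens; fun_prop

theorem integrable_exp_half : Integrable (fun x : ℝ => Real.exp (-x ^ 2 / 2)) := by
  have := integrable_exp_neg_mul_sq (b := 1 / 2) (by norm_num)
  refine this.congr (Filter.Eventually.of_forall fun x => ?_)
  simp only
  congr 1; ring

theorem integral_exp_half : ∫ x : ℝ, Real.exp (-x ^ 2 / 2) = Real.sqrt (2 * Real.pi) := by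
  have := integral_gaussian (1 / 2)
  calc ∫ x : ℝ, Real.exp (-x ^ 2 / 2) = ∫ x : ℝ, Real.exp (-(1 / 2) * x ^ 2) := by
        congr 1; ext x; congr 1; ring
    _ = Real.sqrt (Real.pi / (1 / 2)) := this
    _ = Real.sqrt (2 * Real.pi) := by congr 1; ring

theorem g1_integrable : Integrable g1 := by
  unfold g1; exact integrable_exp_half.const_mul _

theorem g1_integral : ∫ x, g1 x = 1 := by
  unfold g1
  rw [integral_const_mul, integral_exp_half]
  have : 0 < Real.sqrt (2 * Real.pi) := Real.sqrt_pos.2 (by positivity)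
  field_simp

/-- Exponential moment of the one-dimensional Gaussian. -/
theorem exp_mul_g1_eq (c x : ℝ) :
    Real.exp (c * x) * g1 x = Real.exp (c ^ 2 / 2) * g1 (x - c) := by
  unfold g1
  have : Real.exp (c * x) * Real.exp (-x ^ 2 / 2) =
      Real.exp (c ^ 2 / 2) * Real.exp (-(x - c) ^ 2 / 2) := by
    rw [← Real.exp_add, ← Real.exp_add]; congr 1; ring
  calc Real.exp (c * x) * ((Real.sqrt (2 * Real.pi))⁻¹ * Real.exp (-x ^ 2 / 2))
      = (Real.sqrt (2 * Real.pi))⁻¹ * (Real.exp (c * x) * Real.exp (-x ^ 2 / 2)) := by ring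
    _ = _ := by rw [this]; ring

theorem exp_mul_g1_integrable (c : ℝ) : Integrable (fun x => Real.exp (c * x) * g1 x) := by
  have h : Integrable (fun x => Real.exp (c ^ 2 / 2) * g1 (x - c)) :=
    (g1_integrable.comp_sub_right c).const_mul _
  exact h.congr (Filter.Eventually.of_forall fun x => (exp_mul_g1_eq c x).symm)

theorem exp_mul_g1_integral (c : ℝ) : ∫ x, Real.exp (c * x) * g1 x = Real.exp (c ^ 2 / 2) := by
  simp_rw [exp_mul_g1_eq c]
  rw [integral_const_mul, integral_sub_right_eq_self (fun x => g1 x) c, g1_integral, mul_one]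

/-- The density is integrable with mass one. -/
theorem gDens_integrable : Integrable (gDens : (Ω → ℝ) → ℝ) := by
  have := Integrable.fintype_prod (ι := Ω) (E := ℝ) (f := fun _ => g1)
    (μ := fun _ => volume) (fun _ => g1_integrable)
  exact this

theorem gDens_integral : ∫ g : Ω → ℝ, gDens g = 1 := by
  have := integral_fintype_prod_volume_eq_prod (ι := Ω) (E := fun _ => ℝ) (𝕜 := ℝ)
    (fun _ => g1)
  simp only [g1_integral, Finset.prod_const_one] at this
  exact this

theorem gE_one : gE (fun _ : Ω → ℝ => (1 : ℝ)) = 1 := by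
  unfold gE; simpa using gDens_integral

/-- Exponential moment of a linear form. -/
theorem exp_form_integrable (c : Ω → ℝ) :
    Integrable (fun g : Ω → ℝ => Real.exp (∑ ω, c ω * g ω) * gDens g) := by
  have h := Integrable.fintype_prod (ι := Ω) (E := ℝ)
    (f := fun ω x => Real.exp (c ω * x) * g1 x) (μ := fun _ => volume)
    (fun ω => exp_mul_g1_integrable (c ω))
  refine h.congr (Filter.Eventually.of_forall fun g => ?_)
  simp only [gDens_eq_prod, Real.exp_sum, Finset.prod_mul_distrib]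

theorem exp_form_integral (c : Ω → ℝ) :
    ∫ g : Ω → ℝ, Real.exp (∑ ω, c ω * g ω) * gDens g = Real.exp ((∑ ω, c ω ^ 2) / 2) := by
  have h := integral_fintype_prod_volume_eq_prod (ι := Ω) (E := fun _ => ℝ) (𝕜 := ℝ)
    (fun ω x => Real.exp (c ω * x) * g1 x)
  simp only [exp_mul_g1_integral] at h
  have e : ∀ g : Ω → ℝ, Real.exp (∑ ω, c ω * g ω) * gDens g =
      ∏ ω, (Real.exp (c ω * g ω) * g1 (g ω)) := by
    intro g
    simp only [gDens_eq_prod, Real.exp_sum, Finset.prod_mul_distrib]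
  simp_rw [e]
  rw [h, ← Real.exp_sum, Finset.sum_div]

/-- The function controlling the two-sided tail of a linear form, at level `u`. -/
noncomputable def tailFn (c : Ω → ℝ) (u : ℝ) (g : Ω → ℝ) : ℝ :=
  Real.exp (u * ((∑ ω, c ω * g ω) - u)) + Real.exp (u * (-(∑ ω, c ω * g ω) - u))

theorem tailFn_nonneg (c : Ω → ℝ) (u : ℝ) (g : Ω → ℝ) : 0 ≤ tailFn c u g := by
  unfold tailFn; positivity

/-- If the form is large, the tail function is at least one. -/
theorem one_le_tailFn (c : Ω → ℝ) {u : ℝ} (hu : 0 ≤ u) (g : Ω → ℝ)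
    (h : u ≤ |∑ ω, c ω * g ω|) : 1 ≤ tailFn c u g := by
  unfold tailFn
  rcases le_abs'.1 h with h | h
  · have : 0 ≤ u * (-(∑ ω, c ω * g ω) - u) := mul_nonneg hu (by linarith)
    have h1 := Real.one_le_exp this
    have h2 := Real.exp_pos (u * ((∑ ω, c ω * g ω) - u))
    linarith
  · have : 0 ≤ u * ((∑ ω, c ω * g ω) - u) := mul_nonneg hu (by linarith)
    have h1 := Real.one_le_exp this
    have h2 := Real.exp_pos (u * (-(∑ ω, c ω * g ω) - u))
    linarith

theorem tail_e1 (c : Ω → ℝ) (u : ℝ) (g : Ω → ℝ) : Real.exp (u * ((∑ ω, c ω * g ω) - u)) * gDens g =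
      Real.exp (-(u * u)) * (Real.exp (∑ ω, (u * c ω) * g ω) * gDens g) := by
  have : ∑ ω, (u * c ω) * g ω = u * ∑ ω, c ω * g ω := by
    rw [Finset.mul_sum]; exact Finset.sum_congr rfl fun ω _ => by ring
  rw [this, ← mul_assoc, ← Real.exp_add]
  congr 2
  ring

theorem tail_e2 (c : Ω → ℝ) (u : ℝ) (g : Ω → ℝ) : Real.exp (u * (-(∑ ω, c ω * g ω) - u)) * gDens g =
      Real.exp (-(u * u)) * (Real.exp (∑ ω, (-(u * c ω)) * g ω) * gDens g) := by
  have : ∑ ω, (-(u * c ω)) * g ω = -(u * ∑ ω, c ω * g ω) := by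
    rw [Finset.mul_sum, ← Finset.sum_neg_distrib]; exact Finset.sum_congr rfl fun ω _ => by ring
  rw [this, ← mul_assoc, ← Real.exp_add]
  congr 2
  ring

theorem tailFn_integrable (c : Ω → ℝ) (u : ℝ) :
    Integrable (fun g : Ω → ℝ => tailFn c u g * gDens g) := by
  have e1 := tail_e1 c u
  have e2 := tail_e2 c u
  unfold tailFn
  simp only [add_mul, e1, e2]
  exact ((exp_form_integrable _).const_mul _).add ((exp_form_integrable _).const_mul _)

/-- The Chernoff bound for a linear form of unit norm. -/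
theorem tailFn_integral_le (c : Ω → ℝ) (hc : ∑ ω, c ω ^ 2 ≤ 1) {u : ℝ} (hu : 0 ≤ u) :
    ∫ g : Ω → ℝ, tailFn c u g * gDens g ≤ 2 * Real.exp (-u ^ 2 / 2) := by
  have e1 := tail_e1 c u
  have e2 := tail_e2 c u
  unfold tailFn
  simp only [add_mul, e1, e2]
  rw [integral_add ((exp_form_integrable _).const_mul _) ((exp_form_integrable _).const_mul _),
    integral_const_mul, integral_const_mul, exp_form_integral, exp_form_integral]
  have s1 : ∑ ω, (u * c ω) ^ 2 = u ^ 2 * ∑ ω, c ω ^ 2 := by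
    rw [Finset.mul_sum]; exact Finset.sum_congr rfl fun ω _ => by ring
  have s2 : ∑ ω, (-(u * c ω)) ^ 2 = u ^ 2 * ∑ ω, c ω ^ 2 := by
    rw [Finset.mul_sum]; exact Finset.sum_congr rfl fun ω _ => by ring
  rw [s1, s2, ← Real.exp_add]
  have : -(u * u) + u ^ 2 * (∑ ω, c ω ^ 2) / 2 ≤ -u ^ 2 / 2 := by
    have : u ^ 2 * ∑ ω, c ω ^ 2 ≤ u ^ 2 * 1 := mul_le_mul_of_nonneg_left hc (by positivity)
    nlinarith
  have h2 := Real.exp_le_exp.2 this
  linarith

/-! ## Line derivative of the density and Stein identity -/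

variable [DecidableEq Ω]

theorem gDens_eq_exp (g : Ω → ℝ) : gDens g =
    ((Real.sqrt (2 * Real.pi))⁻¹) ^ Fintype.card Ω * Real.exp (-(∑ ω, g ω ^ 2) / 2) := by
  unfold gDens
  rw [Finset.prod_mul_distrib, Finset.prod_const, ← Real.exp_sum, Finset.card_univ]
  congr 2
  rw [← Finset.sum_div, Finset.sum_neg_distrib]

theorem gDens_hasLineDerivAt (ω : Ω) (g : Ω → ℝ) :
    HasLineDerivAt ℝ gDens (-g ω * gDens g) g (Pi.single ω (1 : ℝ)) := by
  unfold HasLineDerivAt
  have h0 : HasDerivAt (fun s : ℝ => -(∑ ω', (g ω' + s * (Pi.single ω (1 : ℝ) : Ω → ℝ) ω') ^ 2) / 2)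
      (-g ω) 0 := by
    have h1 : ∀ ω' ∈ (Finset.univ : Finset Ω), HasDerivAt
        (fun s : ℝ => (g ω' + s * (Pi.single ω (1 : ℝ) : Ω → ℝ) ω') ^ 2)
        (2 * g ω' * (Pi.single ω (1 : ℝ) : Ω → ℝ) ω') 0 := by
      intro ω' _
      have h2 : HasDerivAt (fun s : ℝ => g ω' + s * (Pi.single ω (1 : ℝ) : Ω → ℝ) ω')
          ((Pi.single ω (1 : ℝ) : Ω → ℝ) ω') 0 := by
        simpa using ((hasDerivAt_id (0 : ℝ)).mul_const
          ((Pi.single ω (1 : ℝ) : Ω → ℝ) ω')).const_add (g ω')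
      have h3 := h2.fun_pow 2
      simpa using h3
    have h4 := (HasDerivAt.fun_sum h1).fun_neg.div_const 2
    have : ∑ ω', 2 * g ω' * (Pi.single ω (1 : ℝ) : Ω → ℝ) ω' = 2 * g ω := by
      rw [Finset.sum_eq_single ω]
      · simp
      · intro b _ hb; simp [Pi.single_eq_of_ne hb]
      · simp
    rw [this] at h4
    have e : -(2 * g ω) / 2 = -g ω := by ring
    rw [e] at h4
    exact h4
  have h5 := h0.exp.const_mul (((Real.sqrt (2 * Real.pi))⁻¹) ^ Fintype.card Ω)
  have e : (fun t : ℝ => gDens (g + t • (Pi.single ω (1 : ℝ) : Ω → ℝ))) =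
      fun s : ℝ => ((Real.sqrt (2 * Real.pi))⁻¹) ^ Fintype.card Ω *
        Real.exp (-(∑ ω', (g ω' + s * (Pi.single ω (1 : ℝ) : Ω → ℝ) ω') ^ 2) / 2) := by
    funext s
    rw [gDens_eq_exp]
    simp
  rw [e]
  have e3 : -g ω * gDens g = ((Real.sqrt (2 * Real.pi))⁻¹) ^ Fintype.card Ω *
      (Real.exp (-(∑ ω', (g ω' + 0 * (Pi.single ω (1 : ℝ) : Ω → ℝ) ω') ^ 2) / 2) * -g ω) := by
    rw [gDens_eq_exp]
    simp
    ring
  rw [e3]
  exact h5

/-- **Stein identity.** -/
theorem stein {ω : Ω} {h h' : (Ω → ℝ) → ℝ}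
    (hd : ∀ g, HasLineDerivAt ℝ h (h' g) g (Pi.single ω (1 : ℝ)))
    (hc : Continuous h) (hc' : Continuous h') (hs : HasCompactSupport h)
    (hs' : HasCompactSupport h') :
    ∫ g, g ω * h g * gDens g = ∫ g, h' g * gDens g := by
  have i1 : Integrable (fun g => h' g * gDens g) :=
    (hc'.mul gDens_continuous).integrable_of_hasCompactSupport hs'.mul_right
  have i2 : Integrable (fun g => h g * (-g ω * gDens g)) := by
    refine Continuous.integrable_of_hasCompactSupport
      (hc.mul (((continuous_apply ω).neg).mul gDens_continuous)) ?_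
    exact hs.mul_right
  have i3 : Integrable (fun g => h g * gDens g) :=
    (hc.mul gDens_continuous).integrable_of_hasCompactSupport hs.mul_right
  have key := integral_bilinear_hasLineDerivAt_right_eq_neg_left_of_integrable (μ := (volume : Measure (Ω → ℝ)))
    (f := h) (f' := h') (g := gDens) (g' := fun g => -g ω * gDens g) (v := Pi.single ω (1 : ℝ))
    (B := ContinuousLinearMap.mul ℝ ℝ)
    (by simpa using i1) (by simpa using i2) (by simpa using i3)
    (fun g _ => hd g) (fun g _ => gDens_hasLineDerivAt ω g)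
  simp only [ContinuousLinearMap.mul_apply'] at key
  have e : ∀ g : Ω → ℝ, g ω * h g * gDens g = -(h g * (-g ω * gDens g)) := fun g => by ring
  simp_rw [e]
  rw [integral_neg, key, neg_neg]

end Generic

/-! ## The bump -/

/-- The bump function: `1` on `|x| ≤ 1/4`, `0` on `|x| ≥ 1/2`, values in `[0,1]`, smooth. -/
noncomputable def phiBump (x : ℝ) : ℝ :=
  (⟨1 / 4, 1 / 2, by norm_num, by norm_num⟩ : ContDiffBump (0 : ℝ)) x

/-- A bound for the derivative of the bump. -/
noncomputable def bumpM : ℝ := 1 + sSup (Set.range fun x => |deriv phiBump x|)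

theorem phiBump_contDiff : ContDiff ℝ 2 phiBump :=
  (⟨1 / 4, 1 / 2, by norm_num, by norm_num⟩ : ContDiffBump (0 : ℝ)).contDiff

theorem phiBump_differentiable : Differentiable ℝ phiBump :=
  phiBump_contDiff.differentiable (by norm_num)

theorem phiBump_cont0 : Continuous phiBump := phiBump_differentiable.continuous

theorem deriv_phiBump_continuous : Continuous (deriv phiBump) :=
  phiBump_contDiff.continuous_deriv (by norm_num)

theorem phiBump_nonneg (x : ℝ) : 0 ≤ phiBump x :=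
  (⟨1 / 4, 1 / 2, by norm_num, by norm_num⟩ : ContDiffBump (0 : ℝ)).nonneg

theorem phiBump_le_one (x : ℝ) : phiBump x ≤ 1 :=
  (⟨1 / 4, 1 / 2, by norm_num, by norm_num⟩ : ContDiffBump (0 : ℝ)).le_one

theorem phiBump_eq_one {x : ℝ} (h : |x| ≤ 1 / 4) : phiBump x = 1 := by
  apply (⟨1 / 4, 1 / 2, by norm_num, by norm_num⟩ : ContDiffBump (0 : ℝ)).one_of_mem_closedBall
  simpa [Metric.mem_closedBall, Real.dist_eq] using h

theorem phiBump_eq_zero0 {x : ℝ} (h : 1 / 2 ≤ |x|) : phiBump x = 0 := by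
  apply (⟨1 / 4, 1 / 2, by norm_num, by norm_num⟩ : ContDiffBump (0 : ℝ)).zero_of_le_dist
  simpa [Real.dist_eq] using h

theorem abs_lt_of_phiBump_ne {x : ℝ} (h : phiBump x ≠ 0) : |x| < 1 / 2 := by
  by_contra h'
  exact h (phiBump_eq_zero0 (not_lt.1 h'))

theorem deriv_phiBump_eq_zero_of_lt {x : ℝ} (h : |x| < 1 / 4) : deriv phiBump x = 0 := by
  have : phiBump =ᶠ[nhds x] fun _ => (1 : ℝ) := by
    have hm : Set.Ioo (-(1 / 4) : ℝ) (1 / 4) ∈ nhds x :=
      Ioo_mem_nhds (abs_lt.1 h).1 (abs_lt.1 h).2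
    filter_upwards [hm] with y hy
    exact phiBump_eq_one (abs_le.2 ⟨hy.1.le, hy.2.le⟩)
  rw [this.deriv_eq]; simp

theorem deriv_phiBump_eq_zero_of_gt {x : ℝ} (h : 1 / 2 < |x|) : deriv phiBump x = 0 := by
  have : phiBump =ᶠ[nhds x] fun _ => (0 : ℝ) := by
    have hm : {y : ℝ | 1 / 2 < |y|} ∈ nhds x :=
      (isOpen_lt continuous_const continuous_abs).mem_nhds h
    filter_upwards [hm] with y hy
    exact phiBump_eq_zero0 (le_of_lt hy)
  rw [this.deriv_eq]; simp

theorem deriv_phiBump_hasCompactSupport : HasCompactSupport (deriv phiBump) := by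
  refine HasCompactSupport.intro (K := Set.Icc (-(1 / 2 : ℝ)) (1 / 2)) isCompact_Icc ?_
  intro x hx
  apply deriv_phiBump_eq_zero_of_gt
  by_contra h
  exact hx (abs_le.1 (not_lt.1 h))

theorem deriv_phiBump_bdd : BddAbove (Set.range fun x => |deriv phiBump x|) := by
  have h := deriv_phiBump_continuous.bounded_above_of_compact_support deriv_phiBump_hasCompactSupport
  obtain ⟨C, hC⟩ := h
  exact ⟨C, by rintro _ ⟨x, rfl⟩; simpa using hC x⟩

theorem abs_deriv_phiBump_le (x : ℝ) : |deriv phiBump x| ≤ bumpM := by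
  have := le_csSup deriv_phiBump_bdd (Set.mem_range_self x)
  unfold bumpM
  linarith

theorem bumpM_pos : 0 < bumpM := by
  have := abs_deriv_phiBump_le 0
  have h0 : 0 ≤ sSup (Set.range fun x => |deriv phiBump x|) :=
    le_trans (abs_nonneg _) (le_csSup deriv_phiBump_bdd (Set.mem_range_self 0))
  unfold bumpM; linarith

theorem bumpM_ge_one0 : 1 ≤ bumpM := by
  have h0 : 0 ≤ sSup (Set.range fun x => |deriv phiBump x|) :=
    le_trans (abs_nonneg _) (le_csSup deriv_phiBump_bdd (Set.mem_range_self 0))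
  unfold bumpM; linarith

end Crest.Agent.QuartSep
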