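-- Row 350 (S0554): generic smooth cutoff along a family of linear forms.  helper36.
import Crest.Agent.Lib.QuartSep.Gauss1

set_option autoImplicit false

namespace Crest.Agent.QuartSep

open Finset BigOperators MeasureTheory

section Cut

variable {Ω B : Type} [Fintype Ω] [Fintype B] [DecidableEq Ω] [DecidableEq B]
  (c : B → Ω → ℝ) (τ : ℝ)

/-- The linear form number `β`. -/
noncomputable def Lform (β : B) (g : Ω → ℝ) : ℝ := ∑ ω, c β ω * g ω

/-- The cutoff. -/
noncomputable def chiGen (g : Ω → ℝ) : ℝ := ∏ β, phiBump (τ * Lform c β g)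

/-- The derivative of the cutoff in direction `ω`. -/
noncomputable def chiGenD (ω : Ω) (g : Ω → ℝ) : ℝ :=
  ∑ β, τ * c β ω * deriv phiBump (τ * Lform c β g) *
    ∏ β' ∈ univ.erase β, phiBump (τ * Lform c β' g)

/-- All forms are small. -/
def InBox (g : Ω → ℝ) : Prop := ∀ β, |τ * Lform c β g| ≤ 1 / 2

omit [DecidableEq B] in
theorem Lform_add_smul (β : B) (g : Ω → ℝ) (ω : Ω) (s : ℝ) :
    Lform c β (g + s • Pi.single ω (1 : ℝ)) = Lform c β g + s * c β ω := by
  unfold Lform
  simp only [Pi.add_apply, Pi.smul_apply, smul_eq_mul, mul_add, Finset.sum_add_distrib]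
  congr 1
  rw [Finset.sum_eq_single ω]
  · simp; ring
  · intro b _ hb; simp [Pi.single_eq_of_ne hb]
  · simp

omit [DecidableEq Ω] [DecidableEq B] in
theorem Lform_continuous (β : B) : Continuous (Lform c β : (Ω → ℝ) → ℝ) := by
  unfold Lform; fun_prop

omit [DecidableEq Ω] [DecidableEq B] in
theorem chiGen_continuous : Continuous (chiGen c τ : (Ω → ℝ) → ℝ) := by
  unfold chiGen
  exact continuous_finsetProd _ fun β _ =>
    phiBump_cont0.comp (continuous_const.mul (Lform_continuous c β))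

omit [DecidableEq Ω] in
theorem chiGenD_continuous (ω : Ω) : Continuous (chiGenD c τ ω : (Ω → ℝ) → ℝ) := by
  unfold chiGenD
  refine continuous_finsetSum _ fun β _ => ?_
  refine Continuous.mul (continuous_const.mul
    (deriv_phiBump_continuous.comp (continuous_const.mul (Lform_continuous c β)))) ?_
  exact continuous_finsetProd _ fun β' _ =>
    phiBump_cont0.comp (continuous_const.mul (Lform_continuous c β'))

omit [DecidableEq Ω] [DecidableEq B] in
theorem chiGen_nonneg (g : Ω → ℝ) : 0 ≤ chiGen c τ g :=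
  Finset.prod_nonneg fun _ _ => phiBump_nonneg _

omit [DecidableEq Ω] [DecidableEq B] in
theorem chiGen_le_one (g : Ω → ℝ) : chiGen c τ g ≤ 1 :=
  Finset.prod_le_one (fun _ _ => phiBump_nonneg _) fun _ _ => phiBump_le_one _

theorem chiGen_hasLineDerivAt (ω : Ω) (g : Ω → ℝ) :
    HasLineDerivAt ℝ (chiGen c τ) (chiGenD c τ ω g) g (Pi.single ω (1 : ℝ)) := by
  unfold HasLineDerivAt
  have h : ∀ β ∈ (univ : Finset B), HasDerivAt
      (fun s : ℝ => phiBump (τ * Lform c β (g + s • Pi.single ω (1 : ℝ))))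
      (deriv phiBump (τ * Lform c β g) * (τ * c β ω)) 0 := by
    intro β _
    have h1 : HasDerivAt (fun s : ℝ => τ * Lform c β (g + s • Pi.single ω (1 : ℝ)))
        (τ * c β ω) 0 := by
      simp_rw [Lform_add_smul]
      have := ((hasDerivAt_id (0 : ℝ)).mul_const (c β ω)).const_add (Lform c β g)
      simpa using this.const_mul τ
    have h2 : HasDerivAt phiBump (deriv phiBump (τ * Lform c β g))
        (τ * Lform c β (g + (0 : ℝ) • Pi.single ω (1 : ℝ))) := by
      simp only [zero_smul, add_zero]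
      exact (phiBump_differentiable _).hasDerivAt
    exact h2.comp (0 : ℝ) h1
  have h3 := HasDerivAt.fun_finsetProd h
  unfold chiGen chiGenD
  refine h3.congr_deriv ?_
  refine Finset.sum_congr rfl fun β _ => ?_
  simp only [zero_smul, add_zero, smul_eq_mul]
  ring

omit [DecidableEq Ω] [DecidableEq B] in
theorem inBox_of_chiGen_ne {g : Ω → ℝ} (h : chiGen c τ g ≠ 0) : InBox c τ g := by
  intro β
  have := Finset.prod_ne_zero_iff.1 h β (Finset.mem_univ β)
  exact (abs_lt_of_phiBump_ne this).le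

omit [DecidableEq Ω] in
theorem inBox_of_chiGenD_ne {ω : Ω} {g : Ω → ℝ} (h : chiGenD c τ ω g ≠ 0) : InBox c τ g := by
  obtain ⟨β, _, hβ⟩ := Finset.exists_ne_zero_of_sum_ne_zero h
  intro β'
  by_cases hb : β' = β
  · subst hb
    by_contra h'
    apply hβ
    rw [deriv_phiBump_eq_zero_of_gt (not_le.1 h')]
    simp
  · have h1 : ∏ β' ∈ univ.erase β, phiBump (τ * Lform c β' g) ≠ 0 := by
      intro h0
      apply hβ
      rw [h0, mul_zero]
    have := Finset.prod_ne_zero_iff.1 h1 β' (Finset.mem_erase.2 ⟨hb, Finset.mem_univ _⟩)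
    exact (abs_lt_of_phiBump_ne this).le

omit [DecidableEq Ω] [DecidableEq B] in
/-- The compact box containing `InBox`. -/
theorem isCompact_box (hτ : 0 < τ) :
    IsCompact (Set.pi Set.univ fun _ : Ω => Set.Icc (-(1 / (2 * τ))) (1 / (2 * τ))) :=
  isCompact_univ_pi fun _ => isCompact_Icc

omit [DecidableEq Ω] [DecidableEq B] in
theorem inBox_subset_box (hτ : 0 < τ) (hcoord : ∀ ω, ∃ β, ∀ g : Ω → ℝ, Lform c β g = g ω)
    {g : Ω → ℝ} (h : InBox c τ g) :
    g ∈ Set.pi Set.univ fun _ : Ω => Set.Icc (-(1 / (2 * τ))) (1 / (2 * τ)) := by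
  intro ω _
  obtain ⟨β, hβ⟩ := hcoord ω
  have h1 := h β
  rw [hβ, abs_mul, abs_of_pos hτ] at h1
  have h2 : |g ω| ≤ 1 / (2 * τ) := by
    rw [le_div_iff₀ (by positivity)]
    linarith
  exact abs_le.1 h2

omit [DecidableEq Ω] [DecidableEq B] in
theorem chiGen_hasCompactSupport (hτ : 0 < τ)
    (hcoord : ∀ ω, ∃ β, ∀ g : Ω → ℝ, Lform c β g = g ω) :
    HasCompactSupport (chiGen c τ : (Ω → ℝ) → ℝ) := by
  refine HasCompactSupport.intro (isCompact_box τ hτ) fun g hg => ?_
  by_contra h
  exact hg (inBox_subset_box c τ hτ hcoord (inBox_of_chiGen_ne c τ h))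

omit [DecidableEq Ω] in
theorem chiGenD_hasCompactSupport (hτ : 0 < τ)
    (hcoord : ∀ ω, ∃ β, ∀ g : Ω → ℝ, Lform c β g = g ω) (ω : Ω) :
    HasCompactSupport (chiGenD c τ ω : (Ω → ℝ) → ℝ) := by
  refine HasCompactSupport.intro (isCompact_box τ hτ) fun g hg => ?_
  by_contra h
  exact hg (inBox_subset_box c τ hτ hcoord (inBox_of_chiGenD_ne c τ h))

/-- Sum of the tail functions of all forms. -/
noncomputable def tailSum (u : ℝ) (g : Ω → ℝ) : ℝ := ∑ β, tailFn (c β) u g

omit [DecidableEq Ω] [DecidableEq B] in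
theorem tailSum_nonneg (u : ℝ) (g : Ω → ℝ) : 0 ≤ tailSum c u g :=
  Finset.sum_nonneg fun _ _ => tailFn_nonneg _ _ _

omit [DecidableEq Ω] [DecidableEq B] in
theorem one_le_tailSum {u : ℝ} (hu : 0 ≤ u) (g : Ω → ℝ) (β : B) (h : u ≤ |Lform c β g|) :
    1 ≤ tailSum c u g := by
  have h1 := one_le_tailFn (c β) hu g h
  have h2 : tailFn (c β) u g ≤ tailSum c u g :=
    Finset.single_le_sum (f := fun β => tailFn (c β) u g) (fun _ _ => tailFn_nonneg _ _ _)
      (Finset.mem_univ β)
  linarith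

omit [DecidableEq Ω] [DecidableEq B] in
theorem tailSum_integrable (u : ℝ) : Integrable (fun g : Ω → ℝ => tailSum c u g * gDens g) := by
  unfold tailSum
  simp only [Finset.sum_mul]
  exact integrable_finsetSum _ fun β _ => tailFn_integrable (c β) u

omit [DecidableEq Ω] [DecidableEq B] in
theorem tailSum_integral_le (hc : ∀ β, ∑ ω, c β ω ^ 2 ≤ 1) {u : ℝ} (hu : 0 ≤ u) :
    ∫ g : Ω → ℝ, tailSum c u g * gDens g ≤ Fintype.card B * (2 * Real.exp (-u ^ 2 / 2)) := by
  unfold tailSum
  simp only [Finset.sum_mul]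
  rw [integral_finsetSum _ fun β _ => tailFn_integrable (c β) u]
  calc ∑ β, ∫ g : Ω → ℝ, tailFn (c β) u g * gDens g
      ≤ ∑ _β : B, 2 * Real.exp (-u ^ 2 / 2) :=
        Finset.sum_le_sum fun β _ => tailFn_integral_le (c β) (hc β) hu
    _ = _ := by simp

omit [DecidableEq Ω] in
/-- Pointwise bound for the derivative of the cutoff. -/
theorem chiGenD_abs_le (hτ : 0 < τ) (ω : Ω) (g : Ω → ℝ) :
    |chiGenD c τ ω g| ≤
      τ * bumpM * (∑ β, |c β ω|) * tailSum c (1 / (4 * τ)) g := by
  unfold chiGenD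
  refine (Finset.abs_sum_le_sum_abs _ _).trans ?_
  rw [Finset.mul_sum, Finset.sum_mul]
  refine Finset.sum_le_sum fun β _ => ?_
  have hT := tailSum_nonneg c (1 / (4 * τ)) g
  have hM := bumpM_pos
  by_cases h0 : deriv phiBump (τ * Lform c β g) = 0
  · rw [h0]
    simp only [mul_zero, zero_mul, abs_zero]
    positivity
  · have h1 : 1 / 4 ≤ |τ * Lform c β g| := by
      by_contra h
      exact h0 (deriv_phiBump_eq_zero_of_lt (not_le.1 h))
    have h2 : 1 / (4 * τ) ≤ |Lform c β g| := by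
      rw [abs_mul, abs_of_pos hτ] at h1
      rw [div_le_iff₀ (by positivity)]
      linarith
    have h3 := one_le_tailSum c (by positivity) g β h2
    have h4 : |∏ β' ∈ univ.erase β, phiBump (τ * Lform c β' g)| ≤ 1 := by
      rw [abs_of_nonneg (Finset.prod_nonneg fun _ _ => phiBump_nonneg _)]
      exact Finset.prod_le_one (fun _ _ => phiBump_nonneg _) fun _ _ => phiBump_le_one _
    rw [abs_mul, abs_mul, abs_mul, abs_of_pos hτ]
    calc τ * |c β ω| * |deriv phiBump (τ * Lform c β g)| *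
          |∏ β' ∈ univ.erase β, phiBump (τ * Lform c β' g)|
        ≤ τ * |c β ω| * bumpM * 1 := by
          gcongr
          · exact abs_deriv_phiBump_le _
        _ ≤ τ * |c β ω| * bumpM * tailSum c (1 / (4 * τ)) g := by gcongr
        _ = _ := by ring

omit [DecidableEq Ω] [DecidableEq B] in
theorem one_sub_chiGen_le (hτ : 0 < τ) (g : Ω → ℝ) :
    1 - chiGen c τ g ≤ tailSum c (1 / (4 * τ)) g := by
  by_cases h : ∀ β, |τ * Lform c β g| ≤ 1 / 4
  · have : chiGen c τ g = 1 := Finset.prod_eq_one fun β _ => phiBump_eq_one (h β)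
    rw [this]
    simpa using tailSum_nonneg c _ g
  · push Not at h
    obtain ⟨β, hβ⟩ := h
    have h2 : 1 / (4 * τ) ≤ |Lform c β g| := by
      rw [abs_mul, abs_of_pos hτ] at hβ
      rw [div_le_iff₀ (by positivity)]
      linarith
    have h3 := one_le_tailSum c (by positivity) g β h2
    have h4 := chiGen_nonneg c τ g
    linarith

omit [DecidableEq Ω] [DecidableEq B] in
/-- Continuous times cutoff is integrable against the Gaussian. -/
theorem integrable_mul_chiGen (hτ : 0 < τ)
    (hcoord : ∀ ω, ∃ β, ∀ g : Ω → ℝ, Lform c β g = g ω)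
    {G : (Ω → ℝ) → ℝ} (hG : Continuous G) :
    Integrable (fun g => G g * chiGen c τ g * gDens g) := by
  refine Continuous.integrable_of_hasCompactSupport
    ((hG.mul (chiGen_continuous c τ)).mul gDens_continuous) ?_
  exact ((chiGen_hasCompactSupport c τ hτ hcoord).mul_left).mul_right

omit [DecidableEq Ω] in
theorem integrable_mul_chiGenD (hτ : 0 < τ)
    (hcoord : ∀ ω, ∃ β, ∀ g : Ω → ℝ, Lform c β g = g ω) (ω : Ω)
    {G : (Ω → ℝ) → ℝ} (hG : Continuous G) :
    Integrable (fun g => G g * chiGenD c τ ω g * gDens g) := by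
  refine Continuous.integrable_of_hasCompactSupport
    ((hG.mul (chiGenD_continuous c τ ω)).mul gDens_continuous) ?_
  exact ((chiGenD_hasCompactSupport c τ hτ hcoord ω).mul_left).mul_right

omit [DecidableEq Ω] in
/-- Error estimate: a function bounded by `K` on the box, integrated against the derivative of the
cutoff. -/
theorem chiGenD_err (hτ : 0 < τ) (hc : ∀ β, ∑ ω, c β ω ^ 2 ≤ 1) (ω : Ω)
    {G : (Ω → ℝ) → ℝ} {K : ℝ} (hK : 0 ≤ K) (hG : ∀ g, InBox c τ g → |G g| ≤ K) :
    |∫ g, G g * chiGenD c τ ω g * gDens g| ≤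
      K * (τ * bumpM * (∑ β, |c β ω|) *
        (Fintype.card B * (2 * Real.exp (-(1 / (4 * τ)) ^ 2 / 2)))) := by
  have hM := bumpM_pos
  have hS : 0 ≤ ∑ β, |c β ω| := Finset.sum_nonneg fun _ _ => abs_nonneg _
  have hint := (tailSum_integrable c (1 / (4 * τ))).const_mul (K * (τ * bumpM * ∑ β, |c β ω|))
  have h1 : ‖∫ g, G g * chiGenD c τ ω g * gDens g‖ ≤
      ∫ g, K * (τ * bumpM * ∑ β, |c β ω|) * (tailSum c (1 / (4 * τ)) g * gDens g) := by
    refine norm_integral_le_of_norm_le hint (Filter.Eventually.of_forall fun g => ?_)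
    have hd := gDens_pos g
    rw [Real.norm_eq_abs, abs_mul, abs_mul, abs_of_pos hd]
    by_cases h0 : chiGenD c τ ω g = 0
    · rw [h0]
      have := tailSum_nonneg c (1 / (4 * τ)) g
      simp only [abs_zero, mul_zero, zero_mul]
      positivity
    · have h2 := hG g (inBox_of_chiGenD_ne c τ h0)
      have h3 := chiGenD_abs_le c τ hτ ω g
      calc |G g| * |chiGenD c τ ω g| * gDens g
          ≤ K * (τ * bumpM * (∑ β, |c β ω|) * tailSum c (1 / (4 * τ)) g) * gDens g := by gcongr
        _ = _ := by ring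
  rw [Real.norm_eq_abs] at h1
  refine h1.trans ?_
  rw [integral_const_mul]
  have h4 := tailSum_integral_le c hc (u := 1 / (4 * τ)) (by positivity)
  calc K * (τ * bumpM * ∑ β, |c β ω|) * ∫ g, tailSum c (1 / (4 * τ)) g * gDens g
      ≤ K * (τ * bumpM * ∑ β, |c β ω|) *
          (Fintype.card B * (2 * Real.exp (-(1 / (4 * τ)) ^ 2 / 2))) := by gcongr
    _ = _ := by ring

omit [DecidableEq Ω] [DecidableEq B] in
/-- Mass of the cutoff. -/
theorem gE_chiGen_ge (hτ : 0 < τ) (hc : ∀ β, ∑ ω, c β ω ^ 2 ≤ 1)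
    (hcoord : ∀ ω, ∃ β, ∀ g : Ω → ℝ, Lform c β g = g ω) :
    1 - Fintype.card B * (2 * Real.exp (-(1 / (4 * τ)) ^ 2 / 2)) ≤ gE (chiGen c τ) := by
  have h1 : Integrable (fun g : Ω → ℝ => chiGen c τ g * gDens g) := by
    simpa using integrable_mul_chiGen c τ hτ hcoord (G := fun _ => 1) continuous_const
  have h2 : ∫ g : Ω → ℝ, (1 - tailSum c (1 / (4 * τ)) g) * gDens g ≤
      ∫ g : Ω → ℝ, chiGen c τ g * gDens g := by
    refine integral_mono ?_ h1 fun g => ?_
    · simp only [sub_mul, one_mul]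
      exact gDens_integrable.sub (tailSum_integrable c _)
    · have := one_sub_chiGen_le c τ hτ g
      have hd := gDens_pos g
      simp only
      gcongr
      linarith
  have h3 : ∫ g : Ω → ℝ, (1 - tailSum c (1 / (4 * τ)) g) * gDens g =
      1 - ∫ g : Ω → ℝ, tailSum c (1 / (4 * τ)) g * gDens g := by
    simp only [sub_mul, one_mul]
    rw [integral_sub gDens_integrable (tailSum_integrable c _), gDens_integral]
  have h4 := tailSum_integral_le c hc (u := 1 / (4 * τ)) (by positivity)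
  unfold gE
  rw [h3] at h2
  linarith

end Cut

end Crest.Agent.QuartSep
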