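-- Row 350 (S0554): the Gaussian chain identity (blueprint 3b).  helper36.
import Crest.Agent.Lib.QuartSep.DTFourier
import Crest.Agent.Lib.QuartSep.Chain
import Crest.Agent.Lib.QuartSep.GaussAct
import Crest.Agent.Lib.QuartSep.GaussCut

set_option autoImplicit false

namespace Crest.Agent.QuartSep

open Finset BigOperators MeasureTheory

/-! ## The chain variables -/

variable {k ν : ℕ}

/-- Gaussian coordinates: `k-1` blocks (`g^0,…,g^{k-2}`), each indexed by `Vec ν`. -/
abbrev GIdx (k ν : ℕ) : Type := Fin (k - 1) × Vec ν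

/-- Coordinates of the cube: `k` blocks, each indexed by `Vec ν`. -/
abbrev ZIdx (k ν : ℕ) : Type := Fin k × Vec ν

/-- Block `b` of `g`, extended by zero to all natural numbers. -/
def gb (g : GIdx k ν → ℝ) (b : ℕ) (i : Vec ν) : ℝ :=
  if h : b < k - 1 then g (⟨b, h⟩, i) else 0

/-- `W_a(j) = t g^a_j` for `a + 1 < k`, and `W_{k-1}(j) = 1`. -/
noncomputable def Wv (t : ℝ) (g : GIdx k ν → ℝ) (a : ℕ) (j : Vec ν) : ℝ :=
  if a + 1 < k then t * gb g a j else 1

/-- `Y_0(j) = 1`, and `Y_a(j) = t (H g^{a-1})_j` for `a > 0`. -/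
noncomputable def Yv (t : ℝ) (g : GIdx k ν → ℝ) (a : ℕ) (j : Vec ν) : ℝ :=
  if a = 0 then 1 else t * ∑ i, hadamard j i * gb g (a - 1) i

/-- The point of the cube `Z_t(g)`: `Z_t(a,j) = Y_a(j) W_a(j)`. -/
noncomputable def Zval (t : ℝ) (g : GIdx k ν → ℝ) : ZIdx k ν → ℝ :=
  fun i => Yv t g i.1 i.2 * Wv t g i.1 i.2

/-- The cutoff `χ(g) = ∏ φ(τ g^b_l) ∏ φ(τ (H g^b)_l)`. -/
noncomputable def chiCut (τ : ℝ) (g : GIdx k ν → ℝ) : ℝ :=
  (∏ ω : GIdx k ν, phiBump (τ * g ω)) *
    ∏ ω : GIdx k ν, phiBump (τ * ∑ i, hadamard ω.2 i * g (ω.1, i))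

/-- `Φ_f(t) = E[ext f (Z_t) χ]`. -/
noncomputable def PhiG (τ : ℝ) (f : (ZIdx k ν → Bool) → ℝ) (t : ℝ) : ℝ :=
  gE (fun g : GIdx k ν → ℝ => ext f (Zval t g) * chiCut τ g)

/-- The chain operator at the point `z`:
`D f z = ∑_{r : Fin k → Vec ν} (∏_{a+1<k} H(r_a, r_{a+1})) ∂_{(0,r_0)} ⋯ ∂_{(k-1,r_{k-1})} (ext f) z`. -/
noncomputable def chainD (f : (ZIdx k ν → Bool) → ℝ) (z : ZIdx k ν → ℝ) : ℝ :=
  ∑ r : Fin k → Vec ν,
    (∏ a : Fin k, if h : a.val + 1 < k then hadamard (r a) (r ⟨a.val + 1, h⟩) else 1) *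
      extD f (univ.image fun a : Fin k => (a, r a)) z

/-- `Ψ_f(t) = E[(D f)(Z_t) χ]`. -/
noncomputable def PsiG (τ : ℝ) (f : (ZIdx k ν → Bool) → ℝ) (t : ℝ) : ℝ :=
  gE (fun g : GIdx k ν → ℝ => chainD f (Zval t g) * chiCut τ g)

/-- The error term (`N = 2^ν`), per unit of `sup |f|`. -/
noncomputable def gaussErr (k ν : ℕ) (τ : ℝ) : ℝ :=
  32 * bumpM * (k : ℝ) ^ 3 * ((2 : ℝ) ^ ν) ^ (k + 4) * Real.exp (-1 / (32 * τ ^ 2))

/-! ## Hadamard facts -/

theorem hadamard_symm (u v : Vec ν) : hadamard u v = hadamard v u := by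
  unfold hadamard chi
  congr 1
  refine Finset.prod_congr rfl fun i _ => ?_
  rw [Bool.and_comm]

theorem hadamard_abs_le (u v : Vec ν) : |hadamard u v| ≤ 1 := by
  have h := hadamard_orth u u
  simp only [if_true] at h
  have h2 : hadamard u v * hadamard u v ≤ ∑ w, hadamard u w * hadamard u w :=
    Finset.single_le_sum (f := fun w => hadamard u w * hadamard u w)
      (fun w _ => mul_self_nonneg _) (Finset.mem_univ v)
  rw [h] at h2
  exact abs_le.2 ⟨by nlinarith, by nlinarith⟩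

theorem card_vecG : Fintype.card (Vec ν) = 2 ^ ν := by simp

theorem sum_const_vecG (c : ℝ) : ∑ _l : Vec ν, c = (2 : ℝ) ^ ν * c := by
  simp [Finset.card_univ, card_vecG]

theorem two_pow_ge_oneG : (1 : ℝ) ≤ (2 : ℝ) ^ ν := one_le_pow₀ (by norm_num)

/-! ## The family of forms -/

/-- Index set of the forms. -/
abbrev BIdx (k ν : ℕ) : Type := GIdx k ν ⊕ GIdx k ν

/-- Coefficients of the forms. -/
noncomputable def cCut : BIdx k ν → GIdx k ν → ℝ
  | Sum.inl ω, ω' => if ω' = ω then 1 else 0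
  | Sum.inr ω, ω' => if ω'.1 = ω.1 then hadamard ω.2 ω'.2 else 0

theorem Lform_inl (ω : GIdx k ν) (g : GIdx k ν → ℝ) :
    Lform (cCut (k := k) (ν := ν)) (Sum.inl ω) g = g ω := by
  unfold Lform
  simp [cCut]

theorem Lform_inr (ω : GIdx k ν) (g : GIdx k ν → ℝ) :
    Lform (cCut (k := k) (ν := ν)) (Sum.inr ω) g = ∑ i, hadamard ω.2 i * g (ω.1, i) := by
  unfold Lform
  simp only [cCut, Fintype.sum_prod_type]
  rw [Finset.sum_eq_single ω.1]
  · simp
  · intro b _ hb
    simp [hb]
  · simp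

theorem chiCut_eq (τ : ℝ) (g : GIdx k ν → ℝ) : chiCut τ g = chiGen cCut τ g := by
  unfold chiCut chiGen
  rw [Fintype.prod_sum_type]
  simp only [Lform_inl, Lform_inr]

theorem chiCut_fun (τ : ℝ) : (chiCut τ : (GIdx k ν → ℝ) → ℝ) = chiGen cCut τ :=
  funext (chiCut_eq τ)

theorem cCut_norm (β : BIdx k ν) : ∑ ω, cCut β ω ^ 2 ≤ 1 := by
  rcases β with ω | ω
  · simp [cCut]
  · simp only [cCut, Fintype.sum_prod_type]
    rw [Finset.sum_eq_single ω.1]
    · simp only [if_true]
      have h := hadamard_orth ω.2 ω.2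
      simp only [if_true] at h
      have : ∀ i, hadamard ω.2 i ^ 2 = hadamard ω.2 i * hadamard ω.2 i := fun i => by ring
      simp only [this, h]
      exact le_refl _
    · intro b _ hb
      simp [hb]
    · simp

theorem cCut_coord (ω : GIdx k ν) : ∃ β : BIdx k ν, ∀ g : GIdx k ν → ℝ, Lform cCut β g = g ω :=
  ⟨Sum.inl ω, fun g => Lform_inl ω g⟩

theorem cCut_sum_abs (ω : GIdx k ν) : ∑ β : BIdx k ν, |cCut β ω| ≤ 1 + (2 : ℝ) ^ ν := by
  rw [Fintype.sum_sum_type]
  refine add_le_add ?_ ?_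
  · simp only [cCut]
    rw [Finset.sum_eq_single ω]
    · simp
    · intro b _ hb
      simp [Ne.symm hb]
    · simp
  · simp only [cCut, Fintype.sum_prod_type]
    rw [Finset.sum_eq_single ω.1]
    · simp only [if_true]
      calc ∑ l : Vec ν, |hadamard l ω.2| ≤ ∑ _l : Vec ν, (1 : ℝ) :=
            Finset.sum_le_sum fun l _ => hadamard_abs_le _ _
        _ = (2 : ℝ) ^ ν := by simp [Finset.card_univ, card_vecG]
    · intro b _ hb
      have : ω.1 ≠ b := fun h => hb h.symm
      simp [this]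
    · simp

/-- The derivative of the cutoff. -/
noncomputable def chiD (τ : ℝ) (ω : GIdx k ν) (g : GIdx k ν → ℝ) : ℝ := chiGenD cCut τ ω g

/-- Unit of error. -/
noncomputable def errC (k ν : ℕ) (τ : ℝ) : ℝ :=
  τ * bumpM * (1 + (2 : ℝ) ^ ν) *
    ((Fintype.card (BIdx k ν) : ℝ) * (2 * Real.exp (-(1 / (4 * τ)) ^ 2 / 2)))

theorem errC_nonneg {τ : ℝ} (hτ : 0 < τ) : 0 ≤ errC k ν τ := by
  unfold errC
  have := bumpM_pos
  positivity

/-- Basic error estimate. -/
theorem chiD_err {τ : ℝ} (hτ : 0 < τ) (ω : GIdx k ν) {G : (GIdx k ν → ℝ) → ℝ} {K : ℝ}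
    (hK : 0 ≤ K) (hG : ∀ g, InBox cCut τ g → |G g| ≤ K) :
    |gE (fun g => G g * chiD τ ω g)| ≤ K * errC k ν τ := by
  have h := chiGenD_err (cCut (k := k) (ν := ν)) τ hτ cCut_norm ω hK hG
  refine h.trans ?_
  unfold errC
  have := bumpM_pos
  have h2 := cCut_sum_abs ω
  gcongr

/-! ## Box bounds -/

theorem inBox_coord {τ : ℝ} {g : GIdx k ν → ℝ} (h : InBox cCut τ g) (ω : GIdx k ν) :
    |τ * g ω| ≤ 1 / 2 := by
  have := h (Sum.inl ω)
  rwa [Lform_inl] at this

theorem inBox_had {τ : ℝ} {g : GIdx k ν → ℝ} (h : InBox cCut τ g) (ω : GIdx k ν) :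
    |τ * ∑ i, hadamard ω.2 i * g (ω.1, i)| ≤ 1 / 2 := by
  have := h (Sum.inr ω)
  rwa [Lform_inr] at this

theorem scale_abs_le {τ t x : ℝ} (ht0 : 0 ≤ t) (htτ : t ≤ τ) (h : |τ * x| ≤ 1 / 2) :
    |t * x| ≤ 1 / 2 := by
  rw [abs_mul, abs_of_nonneg ht0]
  have hτ : 0 ≤ τ := ht0.trans htτ
  rw [abs_mul, abs_of_nonneg hτ] at h
  calc t * |x| ≤ τ * |x| := by gcongr
    _ ≤ 1 / 2 := h

theorem Wv_abs_le_half {τ t : ℝ} (ht0 : 0 ≤ t) (htτ : t ≤ τ) {g : GIdx k ν → ℝ}
    (h : InBox cCut τ g) {a : ℕ} (ha : a + 1 < k) (j : Vec ν) : |Wv t g a j| ≤ 1 / 2 := by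
  have ha' : a < k - 1 := by omega
  simp only [Wv, ha, if_true, gb, ha', dif_pos]
  exact scale_abs_le ht0 htτ (inBox_coord h (⟨a, ha'⟩, j))

theorem Wv_abs_le_one {τ t : ℝ} (ht0 : 0 ≤ t) (htτ : t ≤ τ) {g : GIdx k ν → ℝ}
    (h : InBox cCut τ g) (a : ℕ) (j : Vec ν) : |Wv t g a j| ≤ 1 := by
  by_cases ha : a + 1 < k
  · exact (Wv_abs_le_half ht0 htτ h ha j).trans (by norm_num)
  · simp [Wv, ha]

theorem Yv_abs_le_half {τ t : ℝ} (ht0 : 0 ≤ t) (htτ : t ≤ τ) {g : GIdx k ν → ℝ}
    (h : InBox cCut τ g) {a : ℕ} (ha : a ≠ 0) (j : Vec ν) : |Yv t g a j| ≤ 1 / 2 := by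
  simp only [Yv, ha, if_false]
  by_cases hb : a - 1 < k - 1
  · simp only [gb, hb, dif_pos]
    exact scale_abs_le ht0 htτ (inBox_had h (⟨a - 1, hb⟩, j))
  · simp [gb, hb]

theorem Yv_abs_le_one {τ t : ℝ} (ht0 : 0 ≤ t) (htτ : t ≤ τ) {g : GIdx k ν → ℝ}
    (h : InBox cCut τ g) (a : ℕ) (j : Vec ν) : |Yv t g a j| ≤ 1 := by
  by_cases ha : a = 0
  · simp [Yv, ha]
  · exact (Yv_abs_le_half ht0 htτ h ha j).trans (by norm_num)

theorem Zval_abs_le_half (hk : 2 ≤ k) {τ t : ℝ} (ht0 : 0 ≤ t) (htτ : t ≤ τ) {g : GIdx k ν → ℝ}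
    (h : InBox cCut τ g) (i : ZIdx k ν) : |Zval t g i| ≤ 1 / 2 := by
  unfold Zval
  rw [abs_mul]
  have hY1 := Yv_abs_le_one ht0 htτ h i.1 i.2
  have hW1 := Wv_abs_le_one ht0 htτ h i.1 i.2
  by_cases ha : (i.1 : ℕ) = 0
  · have : (i.1 : ℕ) + 1 < k := by omega
    have hW := Wv_abs_le_half ht0 htτ h this i.2
    calc _ ≤ 1 * (1 / 2 : ℝ) := mul_le_mul hY1 hW (abs_nonneg _) (by norm_num)
      _ = 1 / 2 := by norm_num
  · have hY := Yv_abs_le_half ht0 htτ h ha i.2
    calc _ ≤ (1 / 2 : ℝ) * 1 := mul_le_mul hY hW1 (abs_nonneg _) (by norm_num)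
      _ = 1 / 2 := by norm_num

theorem Zval_abs_le_one (hk : 2 ≤ k) {τ t : ℝ} (ht0 : 0 ≤ t) (htτ : t ≤ τ) {g : GIdx k ν → ℝ}
    (h : InBox cCut τ g) (i : ZIdx k ν) : |Zval t g i| ≤ 1 :=
  (Zval_abs_le_half hk ht0 htτ h i).trans (by norm_num)

/-! ## Statements on the cutoff -/

theorem chiCut_nonneg (τ : ℝ) (g : GIdx k ν → ℝ) : 0 ≤ chiCut τ g := by
  rw [chiCut_eq]; exact chiGen_nonneg _ _ _

theorem chiCut_le_one (τ : ℝ) (g : GIdx k ν → ℝ) : chiCut τ g ≤ 1 := by
  rw [chiCut_eq]; exact chiGen_le_one _ _ _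

theorem inBox_of_chiCut_ne {τ : ℝ} {g : GIdx k ν → ℝ} (h : chiCut τ g ≠ 0) : InBox cCut τ g := by
  rw [chiCut_eq] at h
  exact inBox_of_chiGen_ne _ _ h

theorem chiCut_cont0 (τ : ℝ) : Continuous (chiCut τ : (GIdx k ν → ℝ) → ℝ) := by
  rw [chiCut_fun]; exact chiGen_continuous _ _

/-- On the support of the cutoff every coordinate of `Z_t` is at most `1/2`, for `0 ≤ t ≤ τ`. -/
theorem Zval_abs_le (hk : 2 ≤ k) {τ t : ℝ} (_hτ : 0 < τ) (ht0 : 0 ≤ t) (htτ : t ≤ τ)
    {g : GIdx k ν → ℝ} (hg : chiCut τ g ≠ 0) (i : ZIdx k ν) : |Zval t g i| ≤ 1 / 2 :=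
  Zval_abs_le_half hk ht0 htτ (inBox_of_chiCut_ne hg) i

/-- `Z_0 = 0`. -/
theorem Zval_zero (hk : 2 ≤ k) (g : GIdx k ν → ℝ) (i : ZIdx k ν) : Zval 0 g i = 0 := by
  unfold Zval
  by_cases ha : (i.1 : ℕ) = 0
  · have : (i.1 : ℕ) + 1 < k := by omega
    simp [Wv, this]
  · simp [Yv, ha]

/-- Total mass of the cutoff. -/
theorem gE_chiCut_ge (hk : 2 ≤ k) {τ : ℝ} (hτ : 0 < τ) :
    1 - 8 * (k : ℝ) * (2 : ℝ) ^ ν * Real.exp (-1 / (32 * τ ^ 2)) ≤
      gE (fun g : GIdx k ν → ℝ => chiCut τ g) := by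
  have h := gE_chiGen_ge (cCut (k := k) (ν := ν)) τ hτ cCut_norm cCut_coord
  have e : (fun g : GIdx k ν → ℝ => chiCut τ g) = chiGen cCut τ := chiCut_fun τ
  rw [e]
  refine le_trans ?_ h
  have hexp : -(1 / (4 * τ)) ^ 2 / 2 = -1 / (32 * τ ^ 2) := by
    field_simp
    ring
  rw [hexp]
  have hc : (Fintype.card (BIdx k ν) : ℝ) ≤ 2 * (k : ℝ) * (2 : ℝ) ^ ν := by
    have h1 : Fintype.card (BIdx k ν) = 2 * ((k - 1) * 2 ^ ν) := by
      simp [Fintype.card_sum, Fintype.card_prod]
      ring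
    rw [h1]
    push_cast
    have h2 : ((k - 1 : ℕ) : ℝ) ≤ k := by exact_mod_cast Nat.sub_le _ _
    have h3 : (0 : ℝ) < 2 ^ ν := by positivity
    nlinarith
  have hE : 0 < Real.exp (-1 / (32 * τ ^ 2)) := Real.exp_pos _
  nlinarith

theorem gE_chiCut_le (τ : ℝ) : gE (fun g : GIdx k ν → ℝ => chiCut τ g) ≤ 1 := by
  have h1 : Integrable (fun g : GIdx k ν → ℝ => chiCut τ g * gDens g) := by
    refine gDens_integrable.mono' ((chiCut_cont0 τ).mul gDens_continuous).aestronglyMeasurable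
      (Filter.Eventually.of_forall fun g => ?_)
    rw [Real.norm_eq_abs, abs_mul, abs_of_nonneg (chiCut_nonneg τ g),
      abs_of_nonneg (gDens_nonneg g)]
    exact mul_le_of_le_one_left (gDens_nonneg g) (chiCut_le_one τ g)
  unfold gE
  calc ∫ g : GIdx k ν → ℝ, chiCut τ g * gDens g ≤ ∫ g : GIdx k ν → ℝ, gDens g :=
        integral_mono h1 gDens_integrable fun g =>
          mul_le_of_le_one_left (gDens_nonneg g) (chiCut_le_one τ g)
    _ = 1 := gDens_integral

/-- Integrability of a continuous function times the cutoff against the Gaussian. -/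
theorem integrable_mul_chiCut {τ : ℝ} (hτ : 0 < τ) {G : (GIdx k ν → ℝ) → ℝ} (hG : Continuous G) :
    Integrable (fun g => G g * chiCut τ g * gDens g) := by
  rw [chiCut_fun]
  exact integrable_mul_chiGen cCut τ hτ cCut_coord hG

theorem integrable_mul_chiD {τ : ℝ} (hτ : 0 < τ) (ω : GIdx k ν) {G : (GIdx k ν → ℝ) → ℝ}
    (hG : Continuous G) :
    Integrable (fun g => G g * chiD τ ω g * gDens g) :=
  integrable_mul_chiGenD cCut τ hτ cCut_coord ω hG

/-- A bounded continuous function times the cutoff has a well-defined expectation with the obvious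
bound. This is the form needed for `Φ` and `Ψ`. -/
theorem gE_mul_chiCut_abs_le (_hk : 2 ≤ k) {τ : ℝ} (hτ : 0 < τ) {G : (GIdx k ν → ℝ) → ℝ}
    (_hG : Continuous G) {C : ℝ} (hC : ∀ g, chiCut τ g ≠ 0 → |G g| ≤ C) :
    |gE (fun g => G g * chiCut τ g)| ≤ C := by
  have h0 : chiCut τ (0 : GIdx k ν → ℝ) ≠ 0 := by
    have : chiCut τ (0 : GIdx k ν → ℝ) = 1 := by
      unfold chiCut
      simp [phiBump_eq_one]
    rw [this]; norm_num
  have hC0 : 0 ≤ C := (abs_nonneg _).trans (hC _ h0)
  have hint : Integrable (fun g : GIdx k ν → ℝ => C * gDens g) := gDens_integrable.const_mul C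
  have h1 : ‖∫ g, G g * chiCut τ g * gDens g‖ ≤ ∫ g : GIdx k ν → ℝ, C * gDens g := by
    refine norm_integral_le_of_norm_le hint (Filter.Eventually.of_forall fun g => ?_)
    rw [Real.norm_eq_abs, abs_mul, abs_mul, abs_of_nonneg (gDens_nonneg g),
      abs_of_nonneg (chiCut_nonneg τ g)]
    by_cases h : chiCut τ g = 0
    · rw [h]; simp; exact mul_nonneg hC0 (gDens_nonneg g)
    · have h5 : |G g| * chiCut τ g ≤ C * 1 := mul_le_mul (hC g h) (chiCut_le_one τ g)
            (chiCut_nonneg τ g) hC0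
      rw [mul_one] at h5
      exact mul_le_mul_of_nonneg_right h5 (gDens_nonneg g)
  rw [integral_const_mul, gDens_integral, mul_one] at h1
  exact h1

/-! ## Expectation against the cutoff is linear on continuous functions -/

/-- Expectation against the cutoff. -/
noncomputable def EE (τ : ℝ) (G : (GIdx k ν → ℝ) → ℝ) : ℝ := gE (fun g => G g * chiCut τ g)

theorem EE_add {τ : ℝ} (hτ : 0 < τ) {G G' : (GIdx k ν → ℝ) → ℝ} (hG : Continuous G)
    (hG' : Continuous G') : EE τ (fun g => G g + G' g) = EE τ G + EE τ G' := by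
  unfold EE gE
  rw [← integral_add (integrable_mul_chiCut hτ hG) (integrable_mul_chiCut hτ hG')]
  congr 1; ext g; ring

theorem EE_const_mul (τ c : ℝ) (G : (GIdx k ν → ℝ) → ℝ) :
    EE τ (fun g => c * G g) = c * EE τ G := by
  unfold EE gE
  rw [← integral_const_mul]
  congr 1; ext g; ring

theorem EE_sum {τ : ℝ} (hτ : 0 < τ) {ι : Type*} (s : Finset ι) (G : ι → (GIdx k ν → ℝ) → ℝ)
    (hG : ∀ i ∈ s, Continuous (G i)) :
    EE τ (fun g => ∑ i ∈ s, G i g) = ∑ i ∈ s, EE τ (G i) := by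
  unfold EE gE
  rw [← integral_finsetSum _ fun i hi => integrable_mul_chiCut hτ (hG i hi)]
  congr 1; ext g
  show (∑ i ∈ s, G i g) * chiCut τ g * gDens g = _
  rw [Finset.sum_mul, Finset.sum_mul]

theorem EE_congr {τ : ℝ} {G G' : (GIdx k ν → ℝ) → ℝ} (h : ∀ g, G g = G' g) :
    EE τ G = EE τ G' := by
  have : G = G' := funext h
  rw [this]

/-! ## Continuity -/

theorem gb_cont0 (b : ℕ) (i : Vec ν) : Continuous (fun g : GIdx k ν → ℝ => gb g b i) := by
  unfold gb
  by_cases h : b < k - 1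
  · simp only [h, dif_pos]; exact continuous_apply _
  · simp only [h, dif_neg, not_false_iff]; exact continuous_const

theorem Wv_continuous (t : ℝ) (a : ℕ) (j : Vec ν) :
    Continuous (fun g : GIdx k ν → ℝ => Wv t g a j) := by
  unfold Wv
  by_cases h : a + 1 < k
  · simp only [h, if_true]; exact continuous_const.mul (gb_cont0 a j)
  · simp only [h, if_false]; exact continuous_const

theorem Yv_continuous (t : ℝ) (a : ℕ) (j : Vec ν) :
    Continuous (fun g : GIdx k ν → ℝ => Yv t g a j) := by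
  unfold Yv
  by_cases h : a = 0
  · simp only [h, if_true]; exact continuous_const
  · simp only [h, if_false]
    refine continuous_const.mul (continuous_finsetSum _ fun i _ => ?_)
    exact continuous_const.mul (gb_cont0 _ i)

theorem Zval_cont0 (t : ℝ) : Continuous (fun g : GIdx k ν → ℝ => Zval t g) := by
  refine continuous_pi fun i => ?_
  exact (Yv_continuous t i.1 i.2).mul (Wv_continuous t i.1 i.2)

theorem act_Zval_continuous (f : (ZIdx k ν → Bool) → ℝ) (p : MvPolynomial (ZIdx k ν) ℝ) (t : ℝ) :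
    Continuous (fun g : GIdx k ν → ℝ => actP f p (Zval t g)) :=
  (actP_continuous f p).comp (Zval_cont0 t)

/-! ## The symbols and the chain rule in `g` -/

open MvPolynomial in
/-- The symbol `∂_{(a,j)}`. -/
noncomputable def eX (k : ℕ) {ν : ℕ} (a : ℕ) (j : Vec ν) : MvPolynomial (ZIdx k ν) ℝ :=
  if h : a < k then X (⟨a, h⟩, j) else 0

open MvPolynomial in
theorem eX_of_lt {a : ℕ} (h : a < k) (j : Vec ν) : eX k a j = X (⟨a, h⟩, j) := by
  simp [eX, h]

open MvPolynomial in
theorem eX_val (a : Fin k) (j : Vec ν) : eX k a.val j = X (a, j) := by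
  simp [eX, a.isLt]

theorem act_mul_eX_eX (f : (ZIdx k ν → Bool) → ℝ) (p : MvPolynomial (ZIdx k ν) ℝ) (a : ℕ)
    (j : Vec ν) : actP f (p * eX k a j * eX k a j) = 0 := by
  by_cases h : a < k
  · rw [eX_of_lt h]; exact actP_mul_X_X f p _
  · simp [eX, h]

theorem BddA_mul_eX {f : (ZIdx k ν → Bool) → ℝ} {p : MvPolynomial (ZIdx k ν) ℝ} {K : ℝ}
    (h : BddA f p K) (hK : 0 ≤ K) (a : ℕ) (j : Vec ν) : BddA f (p * eX k a j) K := by
  by_cases ha : a < k
  · rw [eX_of_lt ha]; exact h.mul_X f _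
  · intro z _
    simp [eX, ha, hK]

theorem gb_add_smul (g : GIdx k ν → ℝ) (ω : GIdx k ν) (s : ℝ) (a : ℕ) (i : Vec ν) :
    gb (g + s • Pi.single ω (1 : ℝ)) a i =
      gb g a i + s * (if a = ω.1.val ∧ i = ω.2 then 1 else 0) := by
  unfold gb
  by_cases h : a < k - 1
  · simp only [h, dif_pos, Pi.add_apply, Pi.smul_apply, smul_eq_mul]
    congr 2
    by_cases h2 : a = ω.1.val ∧ i = ω.2
    · have : (⟨a, h⟩, i) = ω := by
        apply Prod.ext
        · exact Fin.ext h2.1
        · exact h2.2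
      simp [h2, this]
    · have : (⟨a, h⟩, i) ≠ ω := by
        intro h3
        apply h2
        subst h3
        simp
      simp [h2, Pi.single_eq_of_ne this]
  · have : ¬ (a = ω.1.val ∧ i = ω.2) := by
      intro h2
      apply h
      rw [h2.1]
      exact ω.1.isLt
    simp [h, this]

theorem Wv_hasDerivAt (t : ℝ) (g : GIdx k ν → ℝ) (ω : GIdx k ν) (a : ℕ) (j : Vec ν) :
    HasDerivAt (fun s : ℝ => Wv t (g + s • Pi.single ω (1 : ℝ)) a j)
      (if a = ω.1.val ∧ j = ω.2 then t else 0) 0 := by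
  unfold Wv
  by_cases h : a + 1 < k
  · simp only [h, if_true, gb_add_smul]
    by_cases h2 : a = ω.1.val ∧ j = ω.2
    · simp only [h2, and_self, if_true, mul_one]
      have := ((hasDerivAt_id (0 : ℝ)).const_add (gb g ω.1.val ω.2)).const_mul t
      simpa using this
    · simp only [h2, if_false, mul_zero, add_zero]
      exact hasDerivAt_const _ _
  · have : ¬ (a = ω.1.val ∧ j = ω.2) := by
      intro h2
      apply h
      have := ω.1.isLt
      omega
    simp only [h, if_false, this]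
    exact hasDerivAt_const _ _

theorem Yv_hasDerivAt (t : ℝ) (g : GIdx k ν → ℝ) (ω : GIdx k ν) (a : ℕ) (j : Vec ν) :
    HasDerivAt (fun s : ℝ => Yv t (g + s • Pi.single ω (1 : ℝ)) a j)
      (if a = ω.1.val + 1 then t * hadamard j ω.2 else 0) 0 := by
  unfold Yv
  by_cases h : a = 0
  · have : a ≠ ω.1.val + 1 := by omega
    simp only [h, if_true, if_false]
    simp only [show ¬ (0 = ω.1.val + 1) by omega, if_false]
    exact hasDerivAt_const _ _
  · simp only [h, if_false, gb_add_smul]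
    have e : ∀ s : ℝ, t * ∑ i, hadamard j i *
        (gb g (a - 1) i + s * (if a - 1 = ω.1.val ∧ i = ω.2 then 1 else 0)) =
        t * ∑ i, hadamard j i * gb g (a - 1) i +
          s * (if a = ω.1.val + 1 then t * hadamard j ω.2 else 0) := by
      intro s
      have h1 : ∑ i, hadamard j i * (gb g (a - 1) i +
          s * (if a - 1 = ω.1.val ∧ i = ω.2 then 1 else 0)) =
          ∑ i, hadamard j i * gb g (a - 1) i +
            ∑ i, hadamard j i * (s * (if a - 1 = ω.1.val ∧ i = ω.2 then 1 else 0)) := by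
        rw [← Finset.sum_add_distrib]
        exact Finset.sum_congr rfl fun i _ => by ring
      rw [h1, mul_add]
      congr 1
      by_cases h2 : a = ω.1.val + 1
      · have h3 : a - 1 = ω.1.val := by omega
        simp only [h2, if_true]
        simp only [Nat.add_sub_cancel, true_and]
        rw [Finset.sum_eq_single ω.2]
        · simp; ring
        · intro b _ hb; simp [hb]
        · simp
      · have h3 : a - 1 ≠ ω.1.val := by omega
        simp [h2, h3]
    simp only [e]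
    have := ((hasDerivAt_id (0 : ℝ)).mul_const
      (if a = ω.1.val + 1 then t * hadamard j ω.2 else 0)).const_add
        (t * ∑ i, hadamard j i * gb g (a - 1) i)
    simpa using this

open MvPolynomial in
/-- Chain rule: the line derivative of `actP p ∘ Z_t`. -/
theorem act_Zval_hasLineDerivAt (f : (ZIdx k ν → Bool) → ℝ) (p : MvPolynomial (ZIdx k ν) ℝ)
    (t : ℝ) (ω : GIdx k ν) (g : GIdx k ν → ℝ) :
    HasLineDerivAt ℝ (fun g : GIdx k ν → ℝ => actP f p (Zval t g))
      (t * Yv t g ω.1.val ω.2 * actP f (p * eX k ω.1.val ω.2) (Zval t g) +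
        t * ∑ j, hadamard j ω.2 * Wv t g (ω.1.val + 1) j *
          actP f (p * eX k (ω.1.val + 1) j) (Zval t g)) g (Pi.single ω (1 : ℝ)) := by
  unfold HasLineDerivAt
  have hZ : HasDerivAt (fun s : ℝ => Zval t (g + s • Pi.single ω (1 : ℝ)))
      (fun i : ZIdx k ν =>
        (if (i.1 : ℕ) = ω.1.val + 1 then t * hadamard i.2 ω.2 else 0) * Wv t g i.1 i.2 +
        Yv t g i.1 i.2 * (if (i.1 : ℕ) = ω.1.val ∧ i.2 = ω.2 then t else 0)) 0 := by
    rw [hasDerivAt_pi]
    intro i
    refine ((Yv_hasDerivAt t g ω i.1 i.2).fun_mul (Wv_hasDerivAt t g ω i.1 i.2)).congr_deriv ?_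
    simp only [zero_smul, add_zero]
  have hF : HasFDerivAt (actP f p)
      (∑ i, actP f (p * X i) (Zval t g) • (ContinuousLinearMap.proj i : (ZIdx k ν → ℝ) →L[ℝ] ℝ))
      (Zval t (g + (0 : ℝ) • Pi.single ω (1 : ℝ))) := by
    simp only [zero_smul, add_zero]
    exact actP_hasFDerivAt f p _
  have h2 := hF.comp_hasDerivAt (0 : ℝ) hZ
  refine h2.congr_deriv ?_
  simp only [FunLike.coe_sum, Finset.sum_apply, FunLike.coe_smul, Pi.smul_apply,
    ContinuousLinearMap.proj_apply, smul_eq_mul]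
  rw [Fintype.sum_prod_type]
  have hb : ω.1.val + 1 < k := by have := ω.1.isLt; omega
  have hb' : ω.1.val < k := by omega
  have e1 : ∀ (a : Fin k) (j : Vec ν), actP f (p * X (a, j)) (Zval t g) *
      ((if (a : ℕ) = ω.1.val + 1 then t * hadamard j ω.2 else 0) * Wv t g a j +
        Yv t g a j * (if (a : ℕ) = ω.1.val ∧ j = ω.2 then t else 0)) =
      (if (a : ℕ) = ω.1.val + 1 then
          t * (hadamard j ω.2 * Wv t g (ω.1.val + 1) j *
            actP f (p * eX k (ω.1.val + 1) j) (Zval t g)) else 0) +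
        (if (a : ℕ) = ω.1.val ∧ j = ω.2 then
          t * Yv t g ω.1.val ω.2 * actP f (p * eX k ω.1.val ω.2) (Zval t g) else 0) := by
    intro a j
    have h3 : eX k a.val j = X (a, j) := eX_val a j
    by_cases h4 : (a : ℕ) = ω.1.val + 1
    · have h5 : ¬ ((a : ℕ) = ω.1.val ∧ j = ω.2) := by
        intro h; omega
      rw [if_pos h4, if_neg h5, if_pos h4, if_neg h5, ← h4, h3]
      ring
    · by_cases h6 : (a : ℕ) = ω.1.val ∧ j = ω.2
      · rw [if_neg h4, if_pos h6, if_neg h4, if_pos h6, ← h6.1, ← h6.2, h3]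
        ring
      · rw [if_neg h4, if_neg h6, if_neg h4, if_neg h6]
        ring
  simp only [e1, Finset.sum_add_distrib]
  rw [add_comm]
  congr 1
  · rw [Finset.sum_eq_single (⟨ω.1.val, hb'⟩ : Fin k)]
    · rw [Finset.sum_eq_single ω.2]
      · simp
      · intro b _ hb2
        simp [hb2]
      · simp
    · intro a _ ha
      refine Finset.sum_eq_zero fun j _ => ?_
      have : (a : ℕ) ≠ ω.1.val := fun h => ha (Fin.ext h)
      simp [this]
    · simp
  · rw [Finset.sum_eq_single (⟨ω.1.val + 1, hb⟩ : Fin k)]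
    · simp [Finset.mul_sum]
    · intro a _ ha
      refine Finset.sum_eq_zero fun j _ => ?_
      have : (a : ℕ) ≠ ω.1.val + 1 := fun h => ha (Fin.ext h)
      simp [this]
    · simp

/-- The derivative expression of the chain rule, continuous in `g`. -/
noncomputable def dAct (f : (ZIdx k ν → Bool) → ℝ) (p : MvPolynomial (ZIdx k ν) ℝ)
    (t : ℝ) (ω : GIdx k ν) (g : GIdx k ν → ℝ) : ℝ :=
  t * Yv t g ω.1.val ω.2 * actP f (p * eX k ω.1.val ω.2) (Zval t g) +
    t * ∑ j, hadamard j ω.2 * Wv t g (ω.1.val + 1) j *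
      actP f (p * eX k (ω.1.val + 1) j) (Zval t g)

theorem dAct_continuous (f : (ZIdx k ν → Bool) → ℝ) (p : MvPolynomial (ZIdx k ν) ℝ)
    (t : ℝ) (ω : GIdx k ν) : Continuous (dAct f p t ω) := by
  unfold dAct
  refine Continuous.add ?_ ?_
  · exact (continuous_const.mul (Yv_continuous t _ _)).mul (act_Zval_continuous f _ t)
  · refine continuous_const.mul (continuous_finsetSum _ fun j _ => ?_)
    exact (continuous_const.mul (Wv_continuous t _ _)).mul (act_Zval_continuous f _ t)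

/-- **Stein identity for test functions of the chain.** -/
theorem stein_act {τ : ℝ} (hτ : 0 < τ) (f : (ZIdx k ν → Bool) → ℝ)
    (p : MvPolynomial (ZIdx k ν) ℝ) (t : ℝ) (ω : GIdx k ν) {A₀ : (GIdx k ν → ℝ) → ℝ}
    (hc : Continuous A₀) (hd : ∀ g, HasLineDerivAt ℝ A₀ 0 g (Pi.single ω (1 : ℝ))) :
    EE τ (fun g => g ω * (A₀ g * actP f p (Zval t g))) =
      EE τ (fun g => A₀ g * dAct f p t ω g) +
        gE (fun g => (A₀ g * actP f p (Zval t g)) * chiD τ ω g) := by
  have hB : Continuous (fun g : GIdx k ν → ℝ => A₀ g * actP f p (Zval t g)) :=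
    hc.mul (act_Zval_continuous f p t)
  have hB' : Continuous (fun g : GIdx k ν → ℝ => A₀ g * dAct f p t ω g) :=
    hc.mul (dAct_continuous f p t ω)
  have hchi := chiGen_hasCompactSupport (cCut (k := k) (ν := ν)) τ hτ cCut_coord
  have hchiD := chiGenD_hasCompactSupport (cCut (k := k) (ν := ν)) τ hτ cCut_coord ω
  have hder : ∀ g, HasLineDerivAt ℝ (fun g => (A₀ g * actP f p (Zval t g)) * chiGen cCut τ g)
      ((A₀ g * dAct f p t ω g) * chiGen cCut τ g +
        (A₀ g * actP f p (Zval t g)) * chiGenD cCut τ ω g) g (Pi.single ω (1 : ℝ)) := by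
    intro g
    have h1 := hd g
    have h2 := act_Zval_hasLineDerivAt f p t ω g
    have h3 := chiGen_hasLineDerivAt (cCut (k := k) (ν := ν)) τ ω g
    unfold HasLineDerivAt at h1 h2 h3 ⊢
    have h4 := (h1.fun_mul h2).fun_mul h3
    refine h4.congr_deriv ?_
    simp only [zero_smul, add_zero, dAct]
    ring
  have hs := stein hder (hB.mul (chiGen_continuous _ _))
    ((hB'.mul (chiGen_continuous _ _)).add (hB.mul (chiGenD_continuous _ _ _)))
    hchi.mul_left (hchi.mul_left.add hchiD.mul_left)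
  unfold EE gE
  simp only [chiCut_fun] at *
  have i1 : Integrable (fun g => (A₀ g * dAct f p t ω g) * chiGen cCut τ g * gDens g) :=
    integrable_mul_chiGen cCut τ hτ cCut_coord hB'
  have i2 : Integrable (fun g => (A₀ g * actP f p (Zval t g)) * chiGenD cCut τ ω g * gDens g) :=
    integrable_mul_chiGenD cCut τ hτ cCut_coord ω hB
  have e1 : ∫ g, g ω * (A₀ g * actP f p (Zval t g)) * chiGen cCut τ g * gDens g =
      ∫ g, g ω * ((A₀ g * actP f p (Zval t g)) * chiGen cCut τ g) * gDens g := by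
    congr 1; ext g; ring
  simp only [chiD]
  rw [e1, hs, ← integral_add i1 i2]
  congr 1; ext g
  ring

/-! ## The formal chains -/

open MvPolynomial in
/-- Right chain: `R_b(l) = ∑_m H(l,m) e_{b+1,m} R_{b+1}(m)`; `n` is the number of remaining steps. -/
noncomputable def chainR (k : ℕ) {ν : ℕ} : ℕ → ℕ → Vec ν → MvPolynomial (ZIdx k ν) ℝ
  | 0, _, _ => 1
  | n + 1, b, l => ∑ m, C (hadamard l m) * (eX k (b + 1) m * chainR k n (b + 1) m)

open MvPolynomial in
/-- Left chain: `L_0(j) = 1`, `L_{a+1}(m) = ∑_l L_a(l) e_{a,l} H(l,m)`. -/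
noncomputable def chainL (k : ℕ) {ν : ℕ} : ℕ → Vec ν → MvPolynomial (ZIdx k ν) ℝ
  | 0, _ => 1
  | a + 1, m => ∑ l, C (hadamard l m) * (chainL k a l * eX k a l)

/-- The chain operator as a formal polynomial. -/
noncomputable def chainDp (k : ℕ) {ν : ℕ} : MvPolynomial (ZIdx k ν) ℝ :=
  ∑ j : Vec ν, eX k 0 j * chainR k (k - 1) 0 j

open MvPolynomial in
theorem chain_step (a n : ℕ) :
    ∑ j : Vec ν, chainL k (a + 1) j * eX k (a + 1) j * chainR k n (a + 1) j =
      ∑ j : Vec ν, chainL k a j * eX k a j * chainR k (n + 1) a j := by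
  simp only [chainL, chainR, Finset.sum_mul, Finset.mul_sum]
  rw [Finset.sum_comm]
  refine Finset.sum_congr rfl fun l _ => Finset.sum_congr rfl fun m _ => ?_
  ring

/-- All the `D_a` coincide. -/
theorem chain_conserved (a : ℕ) (ha : a < k) :
    ∑ j : Vec ν, chainL k a j * eX k a j * chainR k (k - 1 - a) a j = chainDp k := by
  induction a with
  | zero =>
    unfold chainDp
    refine Finset.sum_congr rfl fun j _ => ?_
    simp [chainL]
  | succ a ih =>
    rw [← ih (by omega)]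
    have : k - 1 - a = (k - 1 - (a + 1)) + 1 := by omega
    rw [this, chain_step]

/-! ## One Stein step on the right -/

theorem Wv_eq_of_gidx (t : ℝ) (g : GIdx k ν → ℝ) (ω : GIdx k ν) :
    Wv t g ω.1.val ω.2 = t * g ω := by
  have h := ω.1.isLt
  have h2 : ω.1.val + 1 < k := by omega
  simp [Wv, h2, gb, h]

theorem Yv_succ_eq (t : ℝ) (g : GIdx k ν → ℝ) (b : Fin (k - 1)) (j : Vec ν) :
    Yv t g (b.val + 1) j = t * ∑ i, hadamard j i * g (b, i) := by
  have h := b.isLt
  simp [Yv, gb, h]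

/-- Independence of the coefficient `Y` from later blocks. -/
theorem Yv_lineDeriv_zero (t : ℝ) (a : ℕ) (j : Vec ν) (ω : GIdx k ν) (hω : a ≤ ω.1.val)
    (g : GIdx k ν → ℝ) :
    HasLineDerivAt ℝ (fun g : GIdx k ν → ℝ => Yv t g a j) 0 g (Pi.single ω (1 : ℝ)) := by
  unfold HasLineDerivAt
  have := Yv_hasDerivAt t g ω a j
  rwa [if_neg (by omega)] at this

theorem const_lineDeriv_zero (c : ℝ) (ω : GIdx k ν) (g : GIdx k ν → ℝ) :
    HasLineDerivAt ℝ (fun _ : GIdx k ν → ℝ => c) 0 g (Pi.single ω (1 : ℝ)) := by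
  unfold HasLineDerivAt
  exact hasDerivAt_const _ _

/-- One Stein step on the right. -/
theorem right_step {τ : ℝ} (hτ : 0 < τ) (f : (ZIdx k ν → Bool) → ℝ)
    (p : MvPolynomial (ZIdx k ν) ℝ) (t : ℝ) (ω : GIdx k ν) {A₀ : (GIdx k ν → ℝ) → ℝ}
    (hc : Continuous A₀) (hd : ∀ g, HasLineDerivAt ℝ A₀ 0 g (Pi.single ω (1 : ℝ))) :
    EE τ (fun g => A₀ g * Wv t g ω.1.val ω.2 * actP f (p * eX k ω.1.val ω.2) (Zval t g)) =
      t ^ 2 * ∑ j, hadamard j ω.2 *
        EE τ (fun g => A₀ g * Wv t g (ω.1.val + 1) j *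
          actP f (p * eX k ω.1.val ω.2 * eX k (ω.1.val + 1) j) (Zval t g)) +
        t * gE (fun g => (A₀ g * actP f (p * eX k ω.1.val ω.2) (Zval t g)) * chiD τ ω g) := by
  have h := stein_act hτ f (p * eX k ω.1.val ω.2) t ω hc hd
  have e1 : EE τ (fun g => A₀ g * Wv t g ω.1.val ω.2 * actP f (p * eX k ω.1.val ω.2) (Zval t g)) =
      t * EE τ (fun g => g ω * (A₀ g * actP f (p * eX k ω.1.val ω.2) (Zval t g))) := by
    rw [← EE_const_mul]
    refine EE_congr fun g => ?_
    rw [Wv_eq_of_gidx]; ring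
  have e2 : EE τ (fun g => A₀ g * dAct f (p * eX k ω.1.val ω.2) t ω g) =
      t * ∑ j, hadamard j ω.2 *
        EE τ (fun g => A₀ g * Wv t g (ω.1.val + 1) j *
          actP f (p * eX k ω.1.val ω.2 * eX k (ω.1.val + 1) j) (Zval t g)) := by
    have hcont : ∀ j ∈ (univ : Finset (Vec ν)), Continuous (fun g : GIdx k ν → ℝ =>
        t * (hadamard j ω.2 * (A₀ g * Wv t g (ω.1.val + 1) j *
          actP f (p * eX k ω.1.val ω.2 * eX k (ω.1.val + 1) j) (Zval t g)))) := fun j _ =>
      continuous_const.mul (continuous_const.mul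
        ((hc.mul (Wv_continuous t _ _)).mul (act_Zval_continuous f _ t)))
    have e3 : (fun g : GIdx k ν → ℝ => A₀ g * dAct f (p * eX k ω.1.val ω.2) t ω g) =
        fun g => ∑ j, t * (hadamard j ω.2 * (A₀ g * Wv t g (ω.1.val + 1) j *
          actP f (p * eX k ω.1.val ω.2 * eX k (ω.1.val + 1) j) (Zval t g))) := by
      funext g
      unfold dAct
      rw [act_mul_eX_eX]
      simp only [Pi.zero_apply, mul_zero, zero_add, Finset.mul_sum]
      refine Finset.sum_congr rfl fun j _ => ?_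
      ring
    rw [e3, EE_sum hτ _ _ hcont, Finset.mul_sum]
    refine Finset.sum_congr rfl fun j _ => ?_
    rw [EE_const_mul, EE_const_mul]
  rw [e1, h, e2]
  ring

/-- One Stein step on the left. -/
theorem left_step {τ : ℝ} (hτ : 0 < τ) (f : (ZIdx k ν → Bool) → ℝ)
    (q : MvPolynomial (ZIdx k ν) ℝ) (t : ℝ) (b : Fin (k - 1)) (j : Vec ν) :
    EE τ (fun g => Yv t g (b.val + 1) j * actP f (q * eX k (b.val + 1) j) (Zval t g)) =
      t ^ 2 * ∑ i, hadamard j i *
        EE τ (fun g => Yv t g b.val i *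
          actP f (q * eX k (b.val + 1) j * eX k b.val i) (Zval t g)) +
        t * ∑ i, hadamard j i *
          gE (fun g => actP f (q * eX k (b.val + 1) j) (Zval t g) * chiD τ (b, i) g) := by
  have hB : Continuous (fun g : GIdx k ν → ℝ => actP f (q * eX k (b.val + 1) j) (Zval t g)) :=
    act_Zval_continuous f _ t
  -- expand `Y`
  have e0 : EE τ (fun g => Yv t g (b.val + 1) j * actP f (q * eX k (b.val + 1) j) (Zval t g)) =
      t * ∑ i, hadamard j i *
        EE τ (fun g => g (b, i) * (1 * actP f (q * eX k (b.val + 1) j) (Zval t g))) := by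
    have hcont : ∀ i ∈ (univ : Finset (Vec ν)), Continuous (fun g : GIdx k ν → ℝ =>
        t * (hadamard j i * (g (b, i) * (1 * actP f (q * eX k (b.val + 1) j) (Zval t g))))) :=
      fun i _ => continuous_const.mul (continuous_const.mul
        ((continuous_apply _).mul (continuous_const.mul hB)))
    have e3 : (fun g : GIdx k ν → ℝ =>
        Yv t g (b.val + 1) j * actP f (q * eX k (b.val + 1) j) (Zval t g)) =
        fun g => ∑ i, t * (hadamard j i * (g (b, i) *
          (1 * actP f (q * eX k (b.val + 1) j) (Zval t g)))) := by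
      funext g
      rw [Yv_succ_eq, mul_assoc, Finset.sum_mul, Finset.mul_sum]
      refine Finset.sum_congr rfl fun i _ => ?_
      ring
    rw [e3, EE_sum hτ _ _ hcont, Finset.mul_sum]
    refine Finset.sum_congr rfl fun i _ => ?_
    rw [EE_const_mul, EE_const_mul]
  rw [e0]
  -- apply Stein for each `i`
  have hS : ∀ i : Vec ν, EE τ (fun g => g (b, i) * (1 * actP f (q * eX k (b.val + 1) j) (Zval t g))) =
      t * EE τ (fun g => Yv t g b.val i *
          actP f (q * eX k (b.val + 1) j * eX k b.val i) (Zval t g)) +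
      t * ∑ l, hadamard l i * EE τ (fun g => Wv t g (b.val + 1) l *
          actP f (q * eX k (b.val + 1) j * eX k (b.val + 1) l) (Zval t g)) +
      gE (fun g => actP f (q * eX k (b.val + 1) j) (Zval t g) * chiD τ (b, i) g) := by
    intro i
    have h := stein_act hτ f (q * eX k (b.val + 1) j) t (b, i)
      (A₀ := fun _ => (1 : ℝ)) continuous_const (fun g => const_lineDeriv_zero 1 _ g)
    rw [h]
    have e1 : EE τ (fun g => (1 : ℝ) * dAct f (q * eX k (b.val + 1) j) t (b, i) g) =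
        t * EE τ (fun g => Yv t g b.val i *
          actP f (q * eX k (b.val + 1) j * eX k b.val i) (Zval t g)) +
        t * ∑ l, hadamard l i * EE τ (fun g => Wv t g (b.val + 1) l *
          actP f (q * eX k (b.val + 1) j * eX k (b.val + 1) l) (Zval t g)) := by
      have c1 : Continuous (fun g : GIdx k ν → ℝ => t * (Yv t g b.val i *
          actP f (q * eX k (b.val + 1) j * eX k b.val i) (Zval t g))) :=
        continuous_const.mul ((Yv_continuous t _ _).mul (act_Zval_continuous f _ t))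
      have c2 : ∀ l ∈ (univ : Finset (Vec ν)), Continuous (fun g : GIdx k ν → ℝ =>
          t * (hadamard l i * (Wv t g (b.val + 1) l *
            actP f (q * eX k (b.val + 1) j * eX k (b.val + 1) l) (Zval t g)))) := fun l _ =>
        continuous_const.mul (continuous_const.mul
          ((Wv_continuous t _ _).mul (act_Zval_continuous f _ t)))
      have e3 : (fun g : GIdx k ν → ℝ => (1 : ℝ) * dAct f (q * eX k (b.val + 1) j) t (b, i) g) =
          fun g => t * (Yv t g b.val i *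
            actP f (q * eX k (b.val + 1) j * eX k b.val i) (Zval t g)) +
            ∑ l, t * (hadamard l i * (Wv t g (b.val + 1) l *
              actP f (q * eX k (b.val + 1) j * eX k (b.val + 1) l) (Zval t g))) := by
        funext g
        unfold dAct
        rw [one_mul, Finset.mul_sum]
        congr 1
        · ring
        · refine Finset.sum_congr rfl fun l _ => ?_
          ring
      rw [e3, EE_add hτ c1 (continuous_finsetSum _ c2), EE_sum hτ _ _ c2, Finset.mul_sum,
        EE_const_mul]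
      congr 1
      refine Finset.sum_congr rfl fun l _ => ?_
      rw [EE_const_mul, EE_const_mul]
    rw [e1]
    simp only [one_mul]
  simp only [hS]
  -- the orthogonality
  have horth : ∑ i, hadamard j i * ∑ l, hadamard l i * EE τ (fun g => Wv t g (b.val + 1) l *
      actP f (q * eX k (b.val + 1) j * eX k (b.val + 1) l) (Zval t g)) = 0 := by
    simp only [Finset.mul_sum]
    rw [Finset.sum_comm]
    have : ∀ l : Vec ν, ∑ i, hadamard j i * (hadamard l i * EE τ (fun g => Wv t g (b.val + 1) l *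
        actP f (q * eX k (b.val + 1) j * eX k (b.val + 1) l) (Zval t g))) =
        (if j = l then 1 else 0) * EE τ (fun g => Wv t g (b.val + 1) l *
          actP f (q * eX k (b.val + 1) j * eX k (b.val + 1) l) (Zval t g)) := by
      intro l
      rw [← hadamard_orth j l, Finset.sum_mul]
      refine Finset.sum_congr rfl fun i _ => ?_
      ring
    simp only [this]
    rw [Finset.sum_eq_single j]
    · simp only [if_true, one_mul]
      rw [act_mul_eX_eX]
      unfold EE gE
      simp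
    · intro l _ hl
      simp [Ne.symm hl]
    · simp
  have : ∑ i, hadamard j i * (t * EE τ (fun g => Yv t g b.val i *
          actP f (q * eX k (b.val + 1) j * eX k b.val i) (Zval t g)) +
      t * ∑ l, hadamard l i * EE τ (fun g => Wv t g (b.val + 1) l *
          actP f (q * eX k (b.val + 1) j * eX k (b.val + 1) l) (Zval t g)) +
      gE (fun g => actP f (q * eX k (b.val + 1) j) (Zval t g) * chiD τ (b, i) g)) =
      t * (∑ i, hadamard j i * EE τ (fun g => Yv t g b.val i *
          actP f (q * eX k (b.val + 1) j * eX k b.val i) (Zval t g))) +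
      t * (∑ i, hadamard j i * ∑ l, hadamard l i * EE τ (fun g => Wv t g (b.val + 1) l *
          actP f (q * eX k (b.val + 1) j * eX k (b.val + 1) l) (Zval t g))) +
      ∑ i, hadamard j i * gE (fun g => actP f (q * eX k (b.val + 1) j) (Zval t g) * chiD τ (b, i) g) := by
    rw [Finset.mul_sum, Finset.mul_sum, ← Finset.sum_add_distrib, ← Finset.sum_add_distrib]
    refine Finset.sum_congr rfl fun i _ => ?_
    ring
  rw [this, horth]
  ring

/-! ## Extension to the right and to the left -/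

section Ext

variable {τ t : ℝ}

theorem EE_zero_fun (τ : ℝ) : EE τ (fun _ : GIdx k ν → ℝ => (0 : ℝ)) = 0 := by
  unfold EE gE; simp

theorem pow_succ_bound {N : ℝ} (hN : 1 ≤ N) (n : ℕ) : 1 ≤ N ^ n := one_le_pow₀ hN

/-- Extension to the right. -/
theorem right_ext (hk : 2 ≤ k) (hτ : 0 < τ) (ht0 : 0 ≤ t) (htτ : t ≤ τ) (ht1 : t ≤ 1)
    (f : (ZIdx k ν → Bool) → ℝ) {A₀ : (GIdx k ν → ℝ) → ℝ} (b₀ : ℕ) (hc : Continuous A₀)
    (hA : ∀ g, InBox cCut τ g → |A₀ g| ≤ 1)
    (hd : ∀ ω : GIdx k ν, b₀ ≤ ω.1.val → ∀ g, HasLineDerivAt ℝ A₀ 0 g (Pi.single ω (1 : ℝ)))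
    (n : ℕ) : ∀ (b : ℕ), b₀ ≤ b → b + n + 1 = k →
      ∀ (u : Vec ν → MvPolynomial (ZIdx k ν) ℝ) (K : Vec ν → ℝ), (∀ l, 0 ≤ K l) →
      (∀ l, BddA f (u l) (K l)) →
      |∑ l, EE τ (fun g => A₀ g * Wv t g b l * actP f (u l * eX k b l) (Zval t g)) -
        t ^ (2 * n) * EE τ (fun g => A₀ g *
          actP f (∑ l, u l * eX k b l * chainR k n b l) (Zval t g))| ≤
        t * (∑ l, K l) * errC k ν τ * ((n : ℝ) * ((2 : ℝ) ^ ν) ^ n) := by
  have hE := errC_nonneg (k := k) (ν := ν) hτ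
  have hN : (1 : ℝ) ≤ (2 : ℝ) ^ ν := two_pow_ge_oneG
  induction n with
  | zero =>
    intro b _ hb u K hK _
    have hW : ∀ (g : GIdx k ν → ℝ) (l : Vec ν), Wv t g b l = 1 := by
      intro g l
      have : ¬ (b + 1 < k) := by omega
      simp [Wv, this]
    have hcont : ∀ l ∈ (univ : Finset (Vec ν)), Continuous (fun g : GIdx k ν → ℝ =>
        A₀ g * Wv t g b l * actP f (u l * eX k b l) (Zval t g)) := fun l _ =>
      (hc.mul (Wv_continuous t _ _)).mul (act_Zval_continuous f _ t)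
    rw [← EE_sum hτ _ _ hcont]
    have : EE τ (fun g => ∑ l, A₀ g * Wv t g b l * actP f (u l * eX k b l) (Zval t g)) =
        t ^ (2 * 0) * EE τ (fun g => A₀ g *
          actP f (∑ l, u l * eX k b l * chainR k 0 b l) (Zval t g)) := by
      rw [pow_zero, one_mul]
      refine EE_congr fun g => ?_
      rw [actP_sum, Finset.mul_sum]
      refine Finset.sum_congr rfl fun l _ => ?_
      simp [hW, chainR]
    rw [this, sub_self, abs_zero]
    simp
  | succ n ih =>
    intro b hb₀ hb u K hK hBd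
    have hbk : b < k - 1 := by omega
    set U := ∑ l, K l with hU
    have hU0 : 0 ≤ U := Finset.sum_nonneg fun l _ => hK l
    -- the new coefficients
    let u' : Vec ν → MvPolynomial (ZIdx k ν) ℝ := fun j =>
      ∑ l, MvPolynomial.C (hadamard l j) * (u l * eX k b l)
    have hBd' : ∀ j, BddA f (u' j) U := by
      intro j
      have h1 : BddA f (u' j) (∑ l, |hadamard l j| * K l) :=
        BddA.sum f _ _ _ fun l _ =>
          (BddA_mul_eX (hBd l) (hK l) b l).C_mul f (hadamard l j)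
      refine h1.mono f ?_
      refine Finset.sum_le_sum fun l _ => ?_
      have := hadamard_abs_le l j
      nlinarith [hK l]
    have hIH := ih (b + 1) (by omega) (by omega) u' (fun _ => U) (fun _ => hU0) hBd'
    -- the Stein step for each l
    have hstep : ∀ l : Vec ν,
        EE τ (fun g => A₀ g * Wv t g b l * actP f (u l * eX k b l) (Zval t g)) =
        t ^ 2 * ∑ j, hadamard l j *
          EE τ (fun g => A₀ g * Wv t g (b + 1) j *
            actP f (u l * eX k b l * eX k (b + 1) j) (Zval t g)) +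
          t * gE (fun g => (A₀ g * actP f (u l * eX k b l) (Zval t g)) *
            chiD τ ((⟨b, hbk⟩, l) : GIdx k ν) g) := by
      intro l
      have := right_step hτ f (u l) t ((⟨b, hbk⟩, l) : GIdx k ν) hc (hd _ hb₀)
      simp only [hadamard_symm _ l] at this
      exact this
    -- Q' in expanded form
    have hQ' : ∑ j, EE τ (fun g => A₀ g * Wv t g (b + 1) j *
        actP f (u' j * eX k (b + 1) j) (Zval t g)) =
        ∑ l, ∑ j, hadamard l j * EE τ (fun g => A₀ g * Wv t g (b + 1) j *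
            actP f (u l * eX k b l * eX k (b + 1) j) (Zval t g)) := by
      rw [Finset.sum_comm]
      refine Finset.sum_congr rfl fun j _ => ?_
      have hcont : ∀ l ∈ (univ : Finset (Vec ν)), Continuous (fun g : GIdx k ν → ℝ =>
          hadamard l j * (A₀ g * Wv t g (b + 1) j *
            actP f (u l * eX k b l * eX k (b + 1) j) (Zval t g))) := fun l _ =>
        continuous_const.mul ((hc.mul (Wv_continuous t _ _)).mul (act_Zval_continuous f _ t))
      have e : (fun g : GIdx k ν → ℝ => A₀ g * Wv t g (b + 1) j *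
          actP f (u' j * eX k (b + 1) j) (Zval t g)) =
          fun g => ∑ l, hadamard l j * (A₀ g * Wv t g (b + 1) j *
            actP f (u l * eX k b l * eX k (b + 1) j) (Zval t g)) := by
        funext g
        simp only [u']
        rw [Finset.sum_mul, actP_sum, Finset.mul_sum]
        refine Finset.sum_congr rfl fun l _ => ?_
        rw [mul_assoc (MvPolynomial.C _), actP_C_mul]
        ring
      rw [e, EE_sum hτ _ _ hcont]
      refine Finset.sum_congr rfl fun l _ => ?_
      rw [EE_const_mul]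
    -- the formal identity
    have hform : ∑ j, u' j * eX k (b + 1) j * chainR k n (b + 1) j =
        ∑ l, u l * eX k b l * chainR k (n + 1) b l := by
      simp only [u', chainR, Finset.sum_mul, Finset.mul_sum]
      rw [Finset.sum_comm]
      refine Finset.sum_congr rfl fun l _ => Finset.sum_congr rfl fun j _ => ?_
      ring
    -- the total
    have hQ : ∑ l, EE τ (fun g => A₀ g * Wv t g b l * actP f (u l * eX k b l) (Zval t g)) =
        t ^ 2 * (∑ j, EE τ (fun g => A₀ g * Wv t g (b + 1) j *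
            actP f (u' j * eX k (b + 1) j) (Zval t g))) +
        t * ∑ l, gE (fun g => (A₀ g * actP f (u l * eX k b l) (Zval t g)) *
            chiD τ ((⟨b, hbk⟩, l) : GIdx k ν) g) := by
      rw [hQ', Finset.mul_sum, Finset.mul_sum, ← Finset.sum_add_distrib]
      exact Finset.sum_congr rfl fun l _ => hstep l
    -- error term
    have herr : |∑ l, gE (fun g => (A₀ g * actP f (u l * eX k b l) (Zval t g)) *
        chiD τ ((⟨b, hbk⟩, l) : GIdx k ν) g)| ≤ U * errC k ν τ := by
      rw [hU, Finset.sum_mul]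
      refine (Finset.abs_sum_le_sum_abs _ _).trans (Finset.sum_le_sum fun l _ => ?_)
      refine chiD_err hτ _ (hK l) fun g hg => ?_
      rw [abs_mul]
      have h1 := hA g hg
      have h2 := (BddA_mul_eX (hBd l) (hK l) b l) (Zval t g)
        (fun i => Zval_abs_le_one hk ht0 htτ hg i)
      calc _ ≤ 1 * K l := mul_le_mul h1 h2 (abs_nonneg _) (by norm_num)
        _ = K l := one_mul _
    rw [hQ, ← hform]
    -- combine
    have hsum : ∑ _j : Vec ν, U = (2 : ℝ) ^ ν * U := sum_const_vecG U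
    rw [hsum] at hIH
    have hexp : t ^ (2 * (n + 1)) = t ^ 2 * t ^ (2 * n) := by ring
    rw [hexp]
    set Q' := ∑ j, EE τ (fun g => A₀ g * Wv t g (b + 1) j *
        actP f (u' j * eX k (b + 1) j) (Zval t g))
    set D' := EE τ (fun g => A₀ g * actP f (∑ l, u' l * eX k (b + 1) l * chainR k n (b + 1) l)
        (Zval t g))
    set Er := ∑ l, gE (fun g => (A₀ g * actP f (u l * eX k b l) (Zval t g)) *
            chiD τ ((⟨b, hbk⟩, l) : GIdx k ν) g)
    have e5 : t ^ 2 * Q' + t * Er - t ^ 2 * t ^ (2 * n) * D' =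
        t ^ 2 * (Q' - t ^ (2 * n) * D') + t * Er := by ring
    rw [e5]
    have ht2 : t ^ 2 ≤ 1 := by nlinarith
    have ht20 : 0 ≤ t ^ 2 := by positivity
    set N := (2 : ℝ) ^ ν
    have hNn : 1 ≤ N ^ (n + 1) := one_le_pow₀ hN
    have hX : 0 ≤ t * U * errC k ν τ := by positivity
    calc |t ^ 2 * (Q' - t ^ (2 * n) * D') + t * Er|
        ≤ |t ^ 2 * (Q' - t ^ (2 * n) * D')| + |t * Er| := abs_add_le _ _
      _ = t ^ 2 * |Q' - t ^ (2 * n) * D'| + t * |Er| := by
          rw [abs_mul, abs_mul, abs_of_nonneg ht20, abs_of_nonneg ht0]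
      _ ≤ 1 * (t * (N * U) * errC k ν τ * ((n : ℝ) * N ^ n)) + t * (U * errC k ν τ) := by
          gcongr
      _ = (t * U * errC k ν τ) * ((n : ℝ) * N ^ (n + 1) + 1) := by ring
      _ ≤ (t * U * errC k ν τ) * (((n + 1 : ℕ) : ℝ) * N ^ (n + 1)) := by
          gcongr
          push_cast
          nlinarith
      _ = _ := by ring

/-- Extension to the left. -/
theorem left_ext (hk : 2 ≤ k) (hτ : 0 < τ) (ht0 : 0 ≤ t) (htτ : t ≤ τ) (ht1 : t ≤ 1)
    (f : (ZIdx k ν → Bool) → ℝ) (a : ℕ) : a < k →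
      ∀ (v : Vec ν → MvPolynomial (ZIdx k ν) ℝ) (K : Vec ν → ℝ), (∀ l, 0 ≤ K l) →
      (∀ l, BddA f (v l) (K l)) →
      |∑ j, EE τ (fun g => Yv t g a j * actP f (v j * eX k a j) (Zval t g)) -
        t ^ (2 * a) * EE τ (fun g =>
          actP f (∑ j, chainL k a j * eX k a j * v j) (Zval t g))| ≤
        t * (∑ l, K l) * errC k ν τ * ((a : ℝ) * ((2 : ℝ) ^ ν) ^ a) := by
  have hE := errC_nonneg (k := k) (ν := ν) hτ
  have hN : (1 : ℝ) ≤ (2 : ℝ) ^ ν := two_pow_ge_oneG
  induction a with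
  | zero =>
    intro _ v K hK _
    have hcont : ∀ l ∈ (univ : Finset (Vec ν)), Continuous (fun g : GIdx k ν → ℝ =>
        Yv t g 0 l * actP f (v l * eX k 0 l) (Zval t g)) := fun l _ =>
      (Yv_continuous t _ _).mul (act_Zval_continuous f _ t)
    rw [← EE_sum hτ _ _ hcont]
    have : EE τ (fun g => ∑ j, Yv t g 0 j * actP f (v j * eX k 0 j) (Zval t g)) =
        t ^ (2 * 0) * EE τ (fun g =>
          actP f (∑ j, chainL k 0 j * eX k 0 j * v j) (Zval t g)) := by
      rw [pow_zero, one_mul]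
      refine EE_congr fun g => ?_
      rw [actP_sum]
      refine Finset.sum_congr rfl fun l _ => ?_
      simp [Yv, chainL, mul_comm]
    rw [this, sub_self, abs_zero]
    simp
  | succ a ih =>
    intro ha v K hK hBd
    have hak : a < k - 1 := by omega
    let b : Fin (k - 1) := ⟨a, hak⟩
    set U := ∑ l, K l with hU
    have hU0 : 0 ≤ U := Finset.sum_nonneg fun l _ => hK l
    let v' : Vec ν → MvPolynomial (ZIdx k ν) ℝ := fun i =>
      ∑ j, MvPolynomial.C (hadamard j i) * (v j * eX k (a + 1) j)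
    have hBd' : ∀ i, BddA f (v' i) U := by
      intro i
      have h1 : BddA f (v' i) (∑ j, |hadamard j i| * K j) :=
        BddA.sum f _ _ _ fun j _ =>
          (BddA_mul_eX (hBd j) (hK j) (a + 1) j).C_mul f (hadamard j i)
      refine h1.mono f ?_
      refine Finset.sum_le_sum fun l _ => ?_
      have := hadamard_abs_le l i
      nlinarith [hK l]
    have hIH := ih (by omega) v' (fun _ => U) (fun _ => hU0) hBd'
    have hstep : ∀ j : Vec ν,
        EE τ (fun g => Yv t g (a + 1) j * actP f (v j * eX k (a + 1) j) (Zval t g)) =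
        t ^ 2 * ∑ i, hadamard j i *
          EE τ (fun g => Yv t g a i *
            actP f (v j * eX k (a + 1) j * eX k a i) (Zval t g)) +
          t * ∑ i, hadamard j i *
            gE (fun g => actP f (v j * eX k (a + 1) j) (Zval t g) * chiD τ (b, i) g) :=
      fun j => left_step hτ f (v j) t b j
    have hQ' : ∑ i, EE τ (fun g => Yv t g a i * actP f (v' i * eX k a i) (Zval t g)) =
        ∑ j, ∑ i, hadamard j i * EE τ (fun g => Yv t g a i *
            actP f (v j * eX k (a + 1) j * eX k a i) (Zval t g)) := by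
      rw [Finset.sum_comm]
      refine Finset.sum_congr rfl fun i _ => ?_
      have hcont : ∀ j ∈ (univ : Finset (Vec ν)), Continuous (fun g : GIdx k ν → ℝ =>
          hadamard j i * (Yv t g a i *
            actP f (v j * eX k (a + 1) j * eX k a i) (Zval t g))) := fun j _ =>
        continuous_const.mul ((Yv_continuous t _ _).mul (act_Zval_continuous f _ t))
      have e : (fun g : GIdx k ν → ℝ => Yv t g a i * actP f (v' i * eX k a i) (Zval t g)) =
          fun g => ∑ j, hadamard j i * (Yv t g a i *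
            actP f (v j * eX k (a + 1) j * eX k a i) (Zval t g)) := by
        funext g
        simp only [v']
        rw [Finset.sum_mul, actP_sum, Finset.mul_sum]
        refine Finset.sum_congr rfl fun j _ => ?_
        rw [mul_assoc (MvPolynomial.C _), actP_C_mul]
        ring
      rw [e, EE_sum hτ _ _ hcont]
      refine Finset.sum_congr rfl fun j _ => ?_
      rw [EE_const_mul]
    have hform : ∑ i, chainL k a i * eX k a i * v' i =
        ∑ j, chainL k (a + 1) j * eX k (a + 1) j * v j := by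
      simp only [v', chainL, Finset.sum_mul, Finset.mul_sum]
      rw [Finset.sum_comm]
      refine Finset.sum_congr rfl fun j _ => Finset.sum_congr rfl fun i _ => ?_
      rw [hadamard_symm j i]
      ring
    have hQ : ∑ j, EE τ (fun g => Yv t g (a + 1) j * actP f (v j * eX k (a + 1) j) (Zval t g)) =
        t ^ 2 * (∑ i, EE τ (fun g => Yv t g a i * actP f (v' i * eX k a i) (Zval t g))) +
        t * ∑ j, ∑ i, hadamard j i *
            gE (fun g => actP f (v j * eX k (a + 1) j) (Zval t g) * chiD τ (b, i) g) := by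
      rw [hQ', Finset.mul_sum, Finset.mul_sum, ← Finset.sum_add_distrib]
      exact Finset.sum_congr rfl fun j _ => hstep j
    set N := (2 : ℝ) ^ ν
    have herr : |∑ j, ∑ i, hadamard j i *
        gE (fun g => actP f (v j * eX k (a + 1) j) (Zval t g) * chiD τ (b, i) g)| ≤
        N * (U * errC k ν τ) := by
      have h1 : ∀ j : Vec ν, |∑ i, hadamard j i *
          gE (fun g => actP f (v j * eX k (a + 1) j) (Zval t g) * chiD τ (b, i) g)| ≤
          N * (K j * errC k ν τ) := by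
        intro j
        refine (Finset.abs_sum_le_sum_abs _ _).trans ?_
        have h3 : ∀ i ∈ (univ : Finset (Vec ν)), |hadamard j i *
            gE (fun g => actP f (v j * eX k (a + 1) j) (Zval t g) * chiD τ (b, i) g)| ≤
            K j * errC k ν τ := by
          intro i _
          rw [abs_mul]
          have h4 : |gE (fun g => actP f (v j * eX k (a + 1) j) (Zval t g) * chiD τ (b, i) g)| ≤
              K j * errC k ν τ := by
            refine chiD_err hτ _ (hK j) fun g hg => ?_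
            exact (BddA_mul_eX (hBd j) (hK j) (a + 1) j) (Zval t g)
              (fun i => Zval_abs_le_one hk ht0 htτ hg i)
          calc _ ≤ 1 * (K j * errC k ν τ) :=
                mul_le_mul (hadamard_abs_le j i) h4 (abs_nonneg _) (by norm_num)
            _ = _ := one_mul _
        refine (Finset.sum_le_sum h3).trans ?_
        rw [sum_const_vecG]
      refine (Finset.abs_sum_le_sum_abs _ _).trans ?_
      refine (Finset.sum_le_sum fun j _ => h1 j).trans ?_
      rw [hU, ← Finset.mul_sum, ← Finset.sum_mul]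
    rw [hQ, ← hform]
    have hsum : ∑ _j : Vec ν, U = N * U := sum_const_vecG U
    rw [hsum] at hIH
    have hexp : t ^ (2 * (a + 1)) = t ^ 2 * t ^ (2 * a) := by ring
    rw [hexp]
    set Q' := ∑ i, EE τ (fun g => Yv t g a i * actP f (v' i * eX k a i) (Zval t g))
    set D' := EE τ (fun g => actP f (∑ i, chainL k a i * eX k a i * v' i) (Zval t g))
    set Er := ∑ j, ∑ i, hadamard j i *
        gE (fun g => actP f (v j * eX k (a + 1) j) (Zval t g) * chiD τ (b, i) g)
    have e5 : t ^ 2 * Q' + t * Er - t ^ 2 * t ^ (2 * a) * D' =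
        t ^ 2 * (Q' - t ^ (2 * a) * D') + t * Er := by ring
    rw [e5]
    have ht2 : t ^ 2 ≤ 1 := by nlinarith
    have ht20 : 0 ≤ t ^ 2 := by positivity
    have hNn : N ≤ N ^ (a + 1) := by
      calc N = N ^ 1 := (pow_one N).symm
        _ ≤ N ^ (a + 1) := pow_le_pow_right₀ hN (by omega)
    have hX : 0 ≤ t * U * errC k ν τ := by positivity
    calc |t ^ 2 * (Q' - t ^ (2 * a) * D') + t * Er|
        ≤ |t ^ 2 * (Q' - t ^ (2 * a) * D')| + |t * Er| := abs_add_le _ _
      _ = t ^ 2 * |Q' - t ^ (2 * a) * D'| + t * |Er| := by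
          rw [abs_mul, abs_mul, abs_of_nonneg ht20, abs_of_nonneg ht0]
      _ ≤ 1 * (t * (N * U) * errC k ν τ * ((a : ℝ) * N ^ a)) + t * (N * (U * errC k ν τ)) := by
          gcongr
      _ = (t * U * errC k ν τ) * ((a : ℝ) * N ^ (a + 1) + N) := by ring
      _ ≤ (t * U * errC k ν τ) * (((a + 1 : ℕ) : ℝ) * N ^ (a + 1)) := by
          gcongr
          push_cast
          nlinarith
      _ = _ := by ring

end Ext

/-! ## Combining the two extensions -/

theorem chainR_bdd' {f : (ZIdx k ν → Bool) → ℝ} {B : ℝ} (hB0 : 0 ≤ B) (hf : BddA f 1 B)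
    (n : ℕ) : ∀ (b : ℕ) (l : Vec ν), BddA f (chainR k n b l) (((2 : ℝ) ^ ν) ^ n * B) := by
  induction n with
  | zero =>
    intro b l
    simpa [chainR] using hf
  | succ n ih =>
    intro b l
    have hX : 0 ≤ ((2 : ℝ) ^ ν) ^ n * B := by positivity
    have h1 : BddA f (chainR k (n + 1) b l)
        (∑ m : Vec ν, |hadamard l m| * (((2 : ℝ) ^ ν) ^ n * B)) := by
      refine BddA.sum f _ _ _ fun m _ => ?_
      refine BddA.C_mul f ?_ (hadamard l m)
      rw [mul_comm]
      exact BddA_mul_eX (ih (b + 1) m) hX (b + 1) m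
    refine h1.mono f ?_
    calc ∑ m : Vec ν, |hadamard l m| * (((2 : ℝ) ^ ν) ^ n * B)
        ≤ ∑ _m : Vec ν, 1 * (((2 : ℝ) ^ ν) ^ n * B) :=
          Finset.sum_le_sum fun m _ => mul_le_mul_of_nonneg_right (hadamard_abs_le l m) hX
      _ = ((2 : ℝ) ^ ν) ^ (n + 1) * B := by
          rw [sum_const_vecG]
          ring

/-- The contribution of block `a`. -/
noncomputable def blockS (τ t : ℝ) (f : (ZIdx k ν → Bool) → ℝ) (a : ℕ) : ℝ :=
  ∑ j, EE τ (fun g => Yv t g a j * Wv t g a j * actP f (1 * eX k a j) (Zval t g))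

/-- Each block reduces to the full chain. -/
theorem block_term (hk : 2 ≤ k) {τ t B : ℝ} (hτ : 0 < τ) (ht0 : 0 ≤ t) (htτ : t ≤ τ) (ht1 : t ≤ 1)
    (f : (ZIdx k ν → Bool) → ℝ) (hf : ∀ x, |f x| ≤ B) (a : ℕ) (ha : a < k) :
    |blockS τ t f a - t ^ (2 * (k - 1)) * EE τ (fun g => actP f (chainDp k) (Zval t g))| ≤
      t * B * errC k ν τ * ((k : ℝ) * ((2 : ℝ) ^ ν) ^ k) := by
  have hB0 : 0 ≤ B := (abs_nonneg _).trans (hf fun _ => false)
  have h1B := BddA.one f hf
  have hE := errC_nonneg (k := k) (ν := ν) hτ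
  have hN : (1 : ℝ) ≤ (2 : ℝ) ^ ν := two_pow_ge_oneG
  set N := (2 : ℝ) ^ ν with hNdef
  obtain ⟨n, hn⟩ : ∃ n, a + n + 1 = k := ⟨k - 1 - a, by omega⟩
  -- right extension for each j
  have hR : ∀ j : Vec ν,
      |EE τ (fun g => Yv t g a j * Wv t g a j * actP f (1 * eX k a j) (Zval t g)) -
        t ^ (2 * n) * EE τ (fun g => Yv t g a j *
          actP f (chainR k n a j * eX k a j) (Zval t g))| ≤
        t * B * errC k ν τ * ((n : ℝ) * N ^ n) := by
    intro j
    have hre := right_ext hk hτ ht0 htτ ht1 f (A₀ := fun g => Yv t g a j) a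
      (Yv_continuous t a j) (fun g hg => Yv_abs_le_one ht0 htτ hg a j)
      (fun ω hω g => Yv_lineDeriv_zero t a j ω hω g) n a le_rfl hn
      (fun l => if l = j then 1 else 0) (fun l => if l = j then B else 0)
      (fun l => by split_ifs <;> simp [hB0])
      (fun l => by
        split_ifs
        · exact h1B
        · intro z _; simp)
    have e1 : ∑ l, EE τ (fun g => Yv t g a j * Wv t g a l *
        actP f ((if l = j then 1 else 0) * eX k a l) (Zval t g)) =
        EE τ (fun g => Yv t g a j * Wv t g a j * actP f (1 * eX k a j) (Zval t g)) := by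
      rw [Finset.sum_eq_single j]
      · simp
      · intro l _ hl
        simp only [hl, if_false, zero_mul, map_zero, Pi.zero_apply, mul_zero]
        exact EE_zero_fun τ
      · simp
    have e2 : ∑ l, (if l = j then (1 : MvPolynomial (ZIdx k ν) ℝ) else 0) * eX k a l *
        chainR k n a l = chainR k n a j * eX k a j := by
      rw [Finset.sum_eq_single j]
      · simp [mul_comm]
      · intro l _ hl
        simp [hl]
      · simp
    have e3 : ∑ l : Vec ν, (if l = j then B else 0) = B := by simp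
    rw [e1, e2, e3] at hre
    exact hre
  -- left extension
  have hL := left_ext hk hτ ht0 htτ ht1 f a ha (fun j => chainR k n a j)
    (fun _ => N ^ n * B) (fun _ => by positivity) (fun j => chainR_bdd' hB0 h1B n a j)
  have e4 : ∑ j : Vec ν, chainL k a j * eX k a j * chainR k n a j = chainDp k := by
    have := chain_conserved (k := k) (ν := ν) a ha
    have hn' : k - 1 - a = n := by omega
    rwa [hn'] at this
  rw [e4, sum_const_vecG] at hL
  -- combine
  set D' := EE τ (fun g => actP f (chainDp k) (Zval t g))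
  set P := ∑ j, EE τ (fun g => Yv t g a j * actP f (chainR k n a j * eX k a j) (Zval t g))
  have hS : |blockS τ t f a - t ^ (2 * n) * P| ≤ N * (t * B * errC k ν τ * ((n : ℝ) * N ^ n)) := by
    unfold blockS
    rw [Finset.mul_sum, ← Finset.sum_sub_distrib]
    refine (Finset.abs_sum_le_sum_abs _ _).trans ?_
    refine (Finset.sum_le_sum fun j _ => hR j).trans ?_
    rw [sum_const_vecG]
  have hexp : t ^ (2 * (k - 1)) = t ^ (2 * n) * t ^ (2 * a) := by
    rw [← pow_add]; congr 1; omega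
  rw [hexp]
  have e5 : blockS τ t f a - t ^ (2 * n) * t ^ (2 * a) * D' =
      (blockS τ t f a - t ^ (2 * n) * P) + t ^ (2 * n) * (P - t ^ (2 * a) * D') := by ring
  rw [e5]
  have htn : t ^ (2 * n) ≤ 1 := pow_le_one₀ ht0 ht1
  have htn0 : 0 ≤ t ^ (2 * n) := by positivity
  have hXX : 0 ≤ t * B * errC k ν τ := by positivity
  have hk1 : (a : ℝ) + n + 1 = k := by exact_mod_cast hn
  have hNk1 : N ^ (n + 1) ≤ N ^ k := pow_le_pow_right₀ hN (by omega)
  have hNk2 : N * N ^ n = N ^ (n + 1) := by ring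
  have hNk3 : N * N ^ n * N ^ a = N ^ k := by
    rw [← hn]; ring
  calc |(blockS τ t f a - t ^ (2 * n) * P) + t ^ (2 * n) * (P - t ^ (2 * a) * D')|
      ≤ |blockS τ t f a - t ^ (2 * n) * P| + |t ^ (2 * n) * (P - t ^ (2 * a) * D')| :=
        abs_add_le _ _
    _ = |blockS τ t f a - t ^ (2 * n) * P| + t ^ (2 * n) * |P - t ^ (2 * a) * D'| := by
        rw [abs_mul, abs_of_nonneg htn0]
    _ ≤ N * (t * B * errC k ν τ * ((n : ℝ) * N ^ n)) +
          1 * (t * (N * (N ^ n * B)) * errC k ν τ * ((a : ℝ) * N ^ a)) := by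
        gcongr
    _ = (t * B * errC k ν τ) * ((n : ℝ) * N ^ (n + 1) + (a : ℝ) * N ^ k) := by
        rw [← hNk3, ← hNk2]; ring
    _ ≤ (t * B * errC k ν τ) * ((n : ℝ) * N ^ k + (a : ℝ) * N ^ k) := by
        gcongr
    _ ≤ (t * B * errC k ν τ) * ((k : ℝ) * N ^ k) := by
        gcongr
        have : 0 ≤ N ^ k := by positivity
        nlinarith

/-! ## `chainD` is the action of the formal chain -/

section PathSum

open MvPolynomial

/-- Closed form for the weight of a path. -/
noncomputable def pathW0 {n : ℕ} (l : Vec ν) (r : Fin n → Vec ν) : ℝ :=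
  ∏ i : Fin n, hadamard ((Fin.cons l r : Fin (n + 1) → Vec ν) i.castSucc)
    ((Fin.cons l r : Fin (n + 1) → Vec ν) i.succ)

/-- The monomial of a path. -/
noncomputable def pathE0 (k : ℕ) {ν n : ℕ} (b : ℕ) (r : Fin n → Vec ν) :
    MvPolynomial (ZIdx k ν) ℝ :=
  ∏ i : Fin n, eX k (b + 1 + i.val) (r i)

theorem pathW0_cons {n : ℕ} (l m : Vec ν) (r : Fin n → Vec ν) :
    pathW0 l (Fin.cons m r : Fin (n + 1) → Vec ν) = hadamard l m * pathW0 m r := by
  unfold pathW0
  rw [Fin.prod_univ_succ]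
  congr 1

theorem pathE0_cons {n : ℕ} (b : ℕ) (m : Vec ν) (r : Fin n → Vec ν) :
    pathE0 k b (Fin.cons m r : Fin (n + 1) → Vec ν) = eX k (b + 1) m * pathE0 k (b + 1) r := by
  unfold pathE0
  rw [Fin.prod_univ_succ]
  simp only [Fin.val_zero, add_zero, Fin.cons_zero, Fin.cons_succ, Fin.val_succ]
  congr 1
  refine Finset.prod_congr rfl fun i _ => ?_
  congr 1
  omega

theorem sum_fin_cons {n : ℕ} {M : Type*} [AddCommMonoid M] (F : (Fin (n + 1) → Vec ν) → M) :
    ∑ r, F r = ∑ m : Vec ν, ∑ r : Fin n → Vec ν, F (Fin.cons m r) := by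
  rw [← Fintype.sum_prod_type']
  exact (Fintype.sum_equiv (Fin.consEquiv (fun _ : Fin (n + 1) => Vec ν)) _ _ (fun _ => rfl)).symm

theorem chainR_eq (n : ℕ) : ∀ (b : ℕ) (l : Vec ν),
    chainR k n b l = ∑ r : Fin n → Vec ν, C (pathW0 l r) * pathE0 k b r := by
  induction n with
  | zero =>
    intro b l
    simp [chainR, pathW0, pathE0]
  | succ n ih =>
    intro b l
    rw [sum_fin_cons]
    simp only [chainR, ih]
    refine Finset.sum_congr rfl fun m _ => ?_
    rw [Finset.mul_sum, Finset.mul_sum]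
    refine Finset.sum_congr rfl fun r _ => ?_
    rw [pathW0_cons, pathE0_cons, C_mul]
    ring

theorem prod_image_X {k' : ℕ} (r : Fin k' → Vec ν) :
    (∏ i ∈ (univ.image fun a : Fin k' => (a, r a)), (X i : MvPolynomial (ZIdx k' ν) ℝ)) =
      ∏ a : Fin k', X (a, r a) := by
  rw [Finset.prod_image]
  intro a _ b _ h
  exact (Prod.ext_iff.1 h).1

end PathSum

open MvPolynomial in
/-- `chainD` is the action of `chainDp`. -/
theorem chainD_eq_act (hk : 1 ≤ k) (f : (ZIdx k ν → Bool) → ℝ) (z : ZIdx k ν → ℝ) :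
    chainD f z = actP f (chainDp k) z := by
  obtain ⟨κ, rfl⟩ : ∃ κ, k = κ + 1 := ⟨k - 1, by omega⟩
  unfold chainD chainDp
  simp only [Nat.add_sub_cancel, chainR_eq]
  have e : (∑ j : Vec ν, eX (κ + 1) 0 j * ∑ r : Fin κ → Vec ν, C (pathW0 j r) * pathE0 (κ + 1) 0 r) =
      ∑ r : Fin (κ + 1) → Vec ν, eX (κ + 1) 0 (r 0) *
        (C (pathW0 (r 0) (Fin.tail r)) * pathE0 (κ + 1) 0 (Fin.tail r)) := by
    rw [sum_fin_cons]
    refine Finset.sum_congr rfl fun m _ => ?_
    rw [Finset.mul_sum]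
    refine Finset.sum_congr rfl fun r _ => ?_
    simp [Fin.tail_cons]
  rw [e, actP_sum]
  refine Finset.sum_congr rfl fun r _ => ?_
  have e1 : extD f (univ.image fun a : Fin (κ + 1) => (a, r a)) z =
      actP f (∏ a : Fin (κ + 1), X (a, r a)) z := by
    rw [← prod_image_X r, actP_prod_X]
  have e2 : (∏ a : Fin (κ + 1), if h : a.val + 1 < κ + 1 then
      hadamard (r a) (r ⟨a.val + 1, h⟩) else 1) = pathW0 (r 0) (Fin.tail r) := by
    unfold pathW0
    rw [Fin.cons_self_tail, Fin.prod_univ_castSucc]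
    simp only [Fin.val_last, lt_self_iff_false, dif_neg, not_false_iff, mul_one, Fin.val_castSucc]
    refine Finset.prod_congr rfl fun i _ => ?_
    have hi : i.val + 1 < κ + 1 := by have := i.isLt; omega
    rw [dif_pos hi]
    rfl
  have e3 : eX (κ + 1) 0 (r 0) * (C (pathW0 (r 0) (Fin.tail r)) * pathE0 (κ + 1) 0 (Fin.tail r)) =
      C (pathW0 (r 0) (Fin.tail r)) * ∏ a : Fin (κ + 1), X (a, r a) := by
    rw [Fin.prod_univ_succ]
    have h0 : eX (κ + 1) 0 (r 0) = X ((0 : Fin (κ + 1)), r 0) := by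
      simp [eX]
    have h1 : pathE0 (κ + 1) 0 (Fin.tail r) = ∏ i : Fin κ, X (i.succ, r i.succ) := by
      unfold pathE0
      refine Finset.prod_congr rfl fun i _ => ?_
      have hi : 0 + 1 + i.val < κ + 1 := by have := i.isLt; omega
      rw [eX_of_lt hi]
      have : (⟨0 + 1 + i.val, hi⟩ : Fin (κ + 1)) = i.succ := by
        apply Fin.ext; simp; omega
      rw [this]
      rfl
    rw [h0, h1]
    ring
  rw [e1, e2, e3, actP_C_mul]

/-! ## Derivative in `t` -/

/-- The homogeneity degree of block `a`. -/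
noncomputable def cA (k a : ℕ) : ℝ :=
  (if a ≠ 0 then 1 else 0) + (if a + 1 < k then 1 else 0)

theorem cA_nonneg (k a : ℕ) : 0 ≤ cA k a := by
  unfold cA; split_ifs <;> norm_num

theorem cA_le_two (k a : ℕ) : cA k a ≤ 2 := by
  unfold cA; split_ifs <;> norm_num

theorem sum_cA (hk : 2 ≤ k) : ∑ a : Fin k, cA k a.val = 2 * ((k : ℝ) - 1) := by
  obtain ⟨κ, rfl⟩ : ∃ κ, k = κ + 1 := ⟨k - 1, by omega⟩
  unfold cA
  rw [Fin.sum_univ_eq_sum_range (fun a => (if a ≠ 0 then (1 : ℝ) else 0) +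
    (if a + 1 < κ + 1 then (1 : ℝ) else 0)) (κ + 1)]
  rw [Finset.sum_add_distrib]
  have h1 : ∑ a ∈ Finset.range (κ + 1), (if a ≠ 0 then (1 : ℝ) else 0) = κ := by
    rw [Finset.sum_range_succ']
    simp
  have h2 : ∑ a ∈ Finset.range (κ + 1), (if a + 1 < κ + 1 then (1 : ℝ) else 0) = κ := by
    rw [Finset.sum_range_succ]
    have : ∑ a ∈ Finset.range κ, (if a + 1 < κ + 1 then (1 : ℝ) else 0) = ∑ _a ∈ Finset.range κ, 1 :=
      Finset.sum_congr rfl fun a ha => by
        have : a + 1 < κ + 1 := by have := Finset.mem_range.1 ha; omega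
        simp [this]
    rw [this]
    simp
  rw [h1, h2]
  push_cast
  ring

theorem Zval_hasDerivAt_t {t : ℝ} (ht : t ≠ 0) (g : GIdx k ν → ℝ) (i : ZIdx k ν) :
    HasDerivAt (fun t => Zval t g i) (cA k i.1 / t * Zval t g i) t := by
  have hY : HasDerivAt (fun t => Yv t g i.1 i.2)
      ((if (i.1 : ℕ) ≠ 0 then 1 else 0) / t * Yv t g i.1 i.2) t := by
    unfold Yv
    by_cases h : (i.1 : ℕ) = 0
    · simp only [h, if_true, ne_eq, not_true_eq_false, if_false, zero_div, zero_mul]
      exact hasDerivAt_const _ _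
    · simp only [h, if_false, ne_eq, not_false_eq_true, if_true]
      have := (hasDerivAt_id t).mul_const (∑ i_1, hadamard i.2 i_1 * gb g (↑i.1 - 1) i_1)
      refine this.congr_deriv ?_
      simp
      field_simp
  have hW : HasDerivAt (fun t => Wv t g i.1 i.2)
      ((if (i.1 : ℕ) + 1 < k then 1 else 0) / t * Wv t g i.1 i.2) t := by
    unfold Wv
    by_cases h : (i.1 : ℕ) + 1 < k
    · simp only [h, if_true]
      have := (hasDerivAt_id t).mul_const (gb g i.1 i.2)
      refine this.congr_deriv ?_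
      simp
      field_simp
    · simp only [h, if_false, zero_div, zero_mul]
      exact hasDerivAt_const _ _
  refine (hY.fun_mul hW).congr_deriv ?_
  unfold Zval cA
  field_simp

theorem Zval_continuous_t (g : GIdx k ν → ℝ) : Continuous (fun t => Zval t g) := by
  refine continuous_pi fun i => ?_
  unfold Zval Yv Wv
  refine Continuous.mul ?_ ?_
  · split_ifs
    · exact continuous_const
    · exact continuous_id.mul continuous_const
  · split_ifs
    · exact continuous_id.mul continuous_const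
    · exact continuous_const

open MvPolynomial in
/-- The `t`-derivative of the integrand (without cutoff). -/
noncomputable def dtF (f : (ZIdx k ν → Bool) → ℝ) (t : ℝ) (g : GIdx k ν → ℝ) : ℝ :=
  ∑ i : ZIdx k ν, actP f (1 * X i) (Zval t g) * (cA k i.1 / t * Zval t g i)

open MvPolynomial in
theorem ext_Zval_hasDerivAt_t (f : (ZIdx k ν → Bool) → ℝ) {t : ℝ} (ht : t ≠ 0)
    (g : GIdx k ν → ℝ) :
    HasDerivAt (fun t => ext f (Zval t g)) (dtF f t g) t := by
  have hF := actP_hasFDerivAt f 1 (Zval t g)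
  rw [actP_one] at hF
  have hZ : HasDerivAt (fun t => Zval t g)
      (fun i : ZIdx k ν => cA k i.1 / t * Zval t g i) t := by
    rw [hasDerivAt_pi]
    exact fun i => Zval_hasDerivAt_t ht g i
  have h := hF.comp_hasDerivAt t hZ
  refine h.congr_deriv ?_
  simp [dtF, actP_one]

open MvPolynomial in
theorem dtF_continuous_g (f : (ZIdx k ν → Bool) → ℝ) (t : ℝ) :
    Continuous (dtF f t : (GIdx k ν → ℝ) → ℝ) := by
  unfold dtF
  refine continuous_finsetSum _ fun i _ => ?_
  refine (act_Zval_continuous f _ t).mul (continuous_const.mul ?_)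
  exact (continuous_apply i).comp (Zval_cont0 t)

open MvPolynomial in
/-- `dtF` as a sum of blocks. -/
theorem EE_dtF {τ t : ℝ} (hτ : 0 < τ) (f : (ZIdx k ν → Bool) → ℝ) :
    EE τ (dtF f t) = ∑ a : Fin k, cA k a.val / t * blockS τ t f a.val := by
  have hc : ∀ i ∈ (univ : Finset (ZIdx k ν)), Continuous (fun g : GIdx k ν → ℝ =>
      cA k i.1 / t * (Yv t g i.1 i.2 * Wv t g i.1 i.2 * actP f (1 * eX k i.1 i.2) (Zval t g))) :=
    fun i _ => continuous_const.mul
      (((Yv_continuous t _ _).mul (Wv_continuous t _ _)).mul (act_Zval_continuous f _ t))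
  have e : dtF f t = fun g : GIdx k ν → ℝ => ∑ i : ZIdx k ν,
      cA k i.1 / t * (Yv t g i.1 i.2 * Wv t g i.1 i.2 * actP f (1 * eX k i.1 i.2) (Zval t g)) := by
    funext g
    unfold dtF
    refine Finset.sum_congr rfl fun i _ => ?_
    have : eX k i.1.val i.2 = X i := by
      rw [eX_val]
    rw [this]
    unfold Zval
    ring
  rw [e, EE_sum hτ _ _ hc, Fintype.sum_prod_type]
  refine Finset.sum_congr rfl fun a _ => ?_
  unfold blockS
  rw [Finset.mul_sum]
  refine Finset.sum_congr rfl fun j _ => ?_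
  rw [EE_const_mul]

open MvPolynomial in
/-- Differentiation under the integral sign. -/
theorem PhiG_hasDerivAt_aux (hk : 2 ≤ k) {τ t B : ℝ} (hτ : 0 < τ) (ht0 : 0 < t)
    (htτ : t < τ) (f : (ZIdx k ν → Bool) → ℝ) (hf : ∀ x, |f x| ≤ B) :
    HasDerivAt (PhiG τ f) (EE τ (dtF f t)) t := by
  have hB0 : 0 ≤ B := (abs_nonneg _).trans (hf fun _ => false)
  have h1B := BddA.one f hf
  set C : ℝ := (Fintype.card (ZIdx k ν) : ℝ) * (B * (2 / t)) with hC
  have hC0 : 0 ≤ C := by positivity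
  have hs : Set.Ioo (t / 2) τ ∈ nhds t := Ioo_mem_nhds (by linarith) htτ
  have hcF : ∀ x : ℝ, Continuous (fun g : GIdx k ν → ℝ => ext f (Zval x g) * chiCut τ g * gDens g) := by
    intro x
    have : (fun g : GIdx k ν → ℝ => ext f (Zval x g)) =
        fun g : GIdx k ν → ℝ => actP f 1 (Zval x g) := by
      rw [actP_one]
    have h1 := act_Zval_continuous f 1 x
    rw [← this] at h1
    exact (h1.mul (chiCut_cont0 τ)).mul gDens_continuous
  have hmain := hasDerivAt_integral_of_dominated_loc_of_deriv_le (μ := (volume : Measure (GIdx k ν → ℝ)))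
    (F := fun (x : ℝ) (g : GIdx k ν → ℝ) => ext f (Zval x g) * chiCut τ g * gDens g)
    (F' := fun (x : ℝ) (g : GIdx k ν → ℝ) => dtF f x g * chiCut τ g * gDens g)
    (x₀ := t) (s := Set.Ioo (t / 2) τ) (bound := fun g => C * gDens g) hs
    (Filter.Eventually.of_forall fun x => (hcF x).aestronglyMeasurable)
    ?_ ?_ ?_ (gDens_integrable.const_mul C) ?_
  · exact hmain.2
  · have : (fun g : GIdx k ν → ℝ => ext f (Zval t g) * chiCut τ g * gDens g) =
        fun g : GIdx k ν → ℝ => actP f 1 (Zval t g) * chiCut τ g * gDens g := by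
      rw [actP_one]
    rw [this]
    exact integrable_mul_chiCut hτ (act_Zval_continuous f 1 t)
  · exact ((dtF_continuous_g f t).mul (chiCut_cont0 τ)).mul
      gDens_continuous |>.aestronglyMeasurable
  · refine Filter.Eventually.of_forall fun g x hx => ?_
    have hx0 : 0 < x := by linarith [hx.1]
    have hxτ : x ≤ τ := hx.2.le
    rw [Real.norm_eq_abs, abs_mul, abs_mul, abs_of_nonneg (gDens_nonneg g),
      abs_of_nonneg (chiCut_nonneg τ g)]
    have hd := gDens_nonneg g
    by_cases hχ : chiCut τ g = 0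
    · rw [hχ]; simp; positivity
    · have hbox := inBox_of_chiCut_ne hχ
      have h2 : |dtF f x g| ≤ C := by
        unfold dtF
        refine (Finset.abs_sum_le_sum_abs _ _).trans ?_
        have : ∀ i ∈ (univ : Finset (ZIdx k ν)),
            |actP f (1 * X i) (Zval x g) * (cA k i.1 / x * Zval x g i)| ≤ B * (2 / t) := by
          intro i _
          rw [abs_mul]
          have h3 := (h1B.mul_X f i) (Zval x g)
            (fun i => Zval_abs_le_one hk hx0.le hxτ hbox i)
          have h4 := Zval_abs_le_half hk hx0.le hxτ hbox i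
          have h5 : |cA k i.1 / x * Zval x g i| ≤ 2 / t := by
            rw [abs_mul, abs_div, abs_of_nonneg (cA_nonneg _ _), abs_of_pos hx0]
            have h6 : cA k i.1 / x ≤ 2 / (t / 2) := by
              have := cA_le_two k i.1
              have h7 := cA_nonneg k i.1
              exact div_le_div₀ (by norm_num) this (by linarith) hx.1.le
            have h8 : 0 ≤ cA k i.1 / x := div_nonneg (cA_nonneg _ _) hx0.le
            calc cA k i.1 / x * |Zval x g i| ≤ 2 / (t / 2) * (1 / 2) :=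
                  mul_le_mul h6 h4 (abs_nonneg _) (by positivity)
              _ = 2 / t := by field_simp
          exact mul_le_mul h3 h5 (abs_nonneg _) hB0
        refine (Finset.sum_le_sum this).trans ?_
        simp [hC, Finset.card_univ]
      calc |dtF f x g| * chiCut τ g * gDens g ≤ C * 1 * gDens g :=
            mul_le_mul_of_nonneg_right
              (mul_le_mul h2 (chiCut_le_one τ g) (chiCut_nonneg τ g) hC0) hd
        _ = C * gDens g := by ring
  · refine Filter.Eventually.of_forall fun g x hx => ?_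
    have hx0 : x ≠ 0 := by linarith [hx.1]
    exact ((ext_Zval_hasDerivAt_t f hx0 g).mul_const (chiCut τ g)).mul_const (gDens g)

/-- Numerical comparison of the error terms. -/
theorem errC_le_gaussErr (hk : 2 ≤ k) {τ : ℝ} (hτ : 0 < τ) (hτ1 : τ ≤ 1) :
    (2 * ((k : ℝ) - 1)) * (errC k ν τ * ((k : ℝ) * ((2 : ℝ) ^ ν) ^ k)) ≤ gaussErr k ν τ := by
  unfold errC gaussErr
  have hexp : -(1 / (4 * τ)) ^ 2 / 2 = -1 / (32 * τ ^ 2) := by
    field_simp
    ring
  rw [hexp]
  set E := Real.exp (-1 / (32 * τ ^ 2)) with hE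
  have hE0 : 0 < E := Real.exp_pos _
  have hM := bumpM_pos
  have hN : (1 : ℝ) ≤ (2 : ℝ) ^ ν := two_pow_ge_oneG
  set N := (2 : ℝ) ^ ν with hNdef
  have hc : (Fintype.card (BIdx k ν) : ℝ) ≤ 2 * (k : ℝ) * N := by
    have h1 : Fintype.card (BIdx k ν) = 2 * ((k - 1) * 2 ^ ν) := by
      simp [Fintype.card_sum, Fintype.card_prod]
      ring
    rw [h1]
    push_cast
    have h2 : ((k - 1 : ℕ) : ℝ) ≤ k := by exact_mod_cast Nat.sub_le _ _
    have h3 : (0 : ℝ) < N := by positivity
    nlinarith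
  have hc0 : (0 : ℝ) ≤ Fintype.card (BIdx k ν) := by positivity
  have hk0 : (2 : ℝ) ≤ k := by exact_mod_cast hk
  have hNk : 0 < N ^ k := by positivity
  have hN4 : N ^ k * N ^ 2 ≤ N ^ (k + 4) := by
    rw [← pow_add]
    exact pow_le_pow_right₀ hN (by omega)
  calc 2 * ((k : ℝ) - 1) * (τ * bumpM * (1 + N) * ((Fintype.card (BIdx k ν) : ℝ) * (2 * E)) *
        ((k : ℝ) * N ^ k))
      ≤ 2 * (k : ℝ) * (1 * bumpM * (2 * N) * ((2 * (k : ℝ) * N) * (2 * E)) * ((k : ℝ) * N ^ k)) := by
        have h1 : 1 + N ≤ 2 * N := by linarith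
        have h2 : (k : ℝ) - 1 ≤ k := by linarith
        have h3 : (0 : ℝ) ≤ (k : ℝ) - 1 := by linarith
        gcongr
    _ = 16 * bumpM * (k : ℝ) ^ 3 * (N ^ k * N ^ 2) * E := by ring
    _ ≤ 32 * bumpM * (k : ℝ) ^ 3 * N ^ (k + 4) * E := by
        have : 16 * bumpM * (k : ℝ) ^ 3 * (N ^ k * N ^ 2) * E ≤
            16 * bumpM * (k : ℝ) ^ 3 * (N ^ (k + 4)) * E := by gcongr
        have h5 : 0 ≤ bumpM * (k : ℝ) ^ 3 * N ^ (k + 4) * E := by positivity
        nlinarith

/-- **Chain identity, derivative form.** For `0 < t < τ ≤ 1` and `|f| ≤ B`, the function `Φ_f` has a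
derivative `Φ'` at `t` with `|Φ' - 2(k-1) t^(2k-3) Ψ_f(t)| ≤ B * gaussErr`. -/
theorem PhiG_hasDerivAt (hk : 2 ≤ k) {τ t B : ℝ} (hτ : 0 < τ) (hτ1 : τ ≤ 1) (ht0 : 0 < t)
    (htτ : t < τ) (f : (ZIdx k ν → Bool) → ℝ) (hf : ∀ x, |f x| ≤ B) :
    ∃ Φ' : ℝ, HasDerivAt (PhiG τ f) Φ' t ∧
      |Φ' - 2 * ((k : ℝ) - 1) * t ^ (2 * k - 3) * PsiG τ f t| ≤ B * gaussErr k ν τ := by
  refine ⟨_, PhiG_hasDerivAt_aux hk hτ ht0 htτ f hf, ?_⟩
  have hB0 : 0 ≤ B := (abs_nonneg _).trans (hf fun _ => false)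
  have ht1 : t ≤ 1 := by linarith
  have hPsi : PsiG τ f t = EE τ (fun g => actP f (chainDp k) (Zval t g)) := by
    unfold PsiG EE
    congr 1
    funext g
    rw [chainD_eq_act (by omega)]
  rw [hPsi, EE_dtF hτ]
  set D' := EE τ (fun g => actP f (chainDp k) (Zval t g))
  have hpow : t ^ (2 * (k - 1)) = t * t ^ (2 * k - 3) := by
    rw [← pow_succ']
    congr 1
    omega
  have hsum := sum_cA (k := k) hk
  have e : ∑ a : Fin k, cA k a.val / t * blockS τ t f a.val -
      2 * ((k : ℝ) - 1) * t ^ (2 * k - 3) * D' =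
      ∑ a : Fin k, cA k a.val / t * (blockS τ t f a.val - t ^ (2 * (k - 1)) * D') := by
    rw [← hsum, Finset.sum_mul, Finset.sum_mul, ← Finset.sum_sub_distrib]
    refine Finset.sum_congr rfl fun a _ => ?_
    rw [hpow]
    field_simp
  rw [e]
  set X := t * B * errC k ν τ * ((k : ℝ) * ((2 : ℝ) ^ ν) ^ k) with hX
  have hbd : ∀ a ∈ (univ : Finset (Fin k)),
      |cA k a.val / t * (blockS τ t f a.val - t ^ (2 * (k - 1)) * D')| ≤
        cA k a.val / t * X := by
    intro a _
    rw [abs_mul, abs_of_nonneg (div_nonneg (cA_nonneg _ _) ht0.le)]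
    exact mul_le_mul_of_nonneg_left (block_term hk hτ ht0.le htτ.le ht1 f hf a.val a.isLt)
      (div_nonneg (cA_nonneg _ _) ht0.le)
  refine (Finset.abs_sum_le_sum_abs _ _).trans ((Finset.sum_le_sum hbd).trans ?_)
  rw [← Finset.sum_mul, ← Finset.sum_div, hsum, hX]
  have h1 := errC_le_gaussErr (k := k) (ν := ν) hk hτ hτ1
  have e2 : 2 * ((k : ℝ) - 1) / t * (t * B * errC k ν τ * ((k : ℝ) * ((2 : ℝ) ^ ν) ^ k)) =
      B * ((2 * ((k : ℝ) - 1)) * (errC k ν τ * ((k : ℝ) * ((2 : ℝ) ^ ν) ^ k))) := by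
    field_simp
  rw [e2]
  exact mul_le_mul_of_nonneg_left h1 hB0

/-! ## Continuity in `t` and the integrated form -/

/-- Continuity in `t` of the expectation of the action of any `p`. -/
theorem EE_act_continuousOn (hk : 2 ≤ k) {τ : ℝ} (f : (ZIdx k ν → Bool) → ℝ)
    (p : MvPolynomial (ZIdx k ν) ℝ) :
    ContinuousOn (fun t => EE τ (fun g : GIdx k ν → ℝ => actP f p (Zval t g))) (Set.Icc 0 τ) := by
  obtain ⟨K, hK⟩ := exists_bddA f p
  have hK0 : 0 ≤ K := by
    have := hK (fun _ => 0) (fun _ => by simp)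
    exact (abs_nonneg _).trans this
  refine continuousOn_of_dominated (bound := fun g => K * gDens g)
    (fun x _ => (((act_Zval_continuous f p x).mul (chiCut_cont0 τ)).mul
      gDens_continuous).aestronglyMeasurable) ?_ (gDens_integrable.const_mul K) ?_
  · intro x hx
    refine Filter.Eventually.of_forall fun g => ?_
    rw [Real.norm_eq_abs, abs_mul, abs_mul, abs_of_nonneg (gDens_nonneg g),
      abs_of_nonneg (chiCut_nonneg τ g)]
    have hd := gDens_nonneg g
    by_cases hχ : chiCut τ g = 0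
    · rw [hχ]; simp; positivity
    · have hbox := inBox_of_chiCut_ne hχ
      have h3 := hK (Zval x g) (fun i => Zval_abs_le_one hk hx.1 hx.2 hbox i)
      calc |actP f p (Zval x g)| * chiCut τ g * gDens g ≤ K * 1 * gDens g :=
            mul_le_mul_of_nonneg_right
              (mul_le_mul h3 (chiCut_le_one τ g) (chiCut_nonneg τ g) hK0) hd
        _ = K * gDens g := by ring
  · refine Filter.Eventually.of_forall fun g => ?_
    refine Continuous.continuousOn ?_
    exact (((actP_continuous f p).comp (Zval_continuous_t g)).mul continuous_const).mul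
      continuous_const

/-- Continuity of `Ψ_f` on `[0,τ]`. -/
theorem PsiG_continuousOn (hk : 2 ≤ k) {τ : ℝ} (_hτ : 0 < τ) (f : (ZIdx k ν → Bool) → ℝ) :
    ContinuousOn (PsiG τ f) (Set.Icc 0 τ) := by
  have h := EE_act_continuousOn hk (τ := τ) f (chainDp k)
  refine h.congr fun t _ => ?_
  unfold PsiG EE
  congr 1
  funext g
  rw [chainD_eq_act (by omega)]

/-- Continuity of `Φ_f` on `[0,τ]`. -/
theorem PhiG_continuousOn (hk : 2 ≤ k) {τ : ℝ} (_hτ : 0 < τ) (f : (ZIdx k ν → Bool) → ℝ) :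
    ContinuousOn (PhiG τ f) (Set.Icc 0 τ) := by
  have h := EE_act_continuousOn hk (τ := τ) f 1
  refine h.congr fun t _ => ?_
  unfold PhiG EE
  rw [actP_one]

/-- **Chain identity, integrated form.** For `0 ≤ t₁ ≤ τ ≤ 1` and `|f| ≤ B`:
`|Φ_f(t₁) - Φ_f(0) - ∫₀^{t₁} 2(k-1) t^(2k-3) Ψ_f(t) dt| ≤ t₁ * B * gaussErr`. -/
theorem PhiG_integrated (hk : 2 ≤ k) {τ t₁ B : ℝ} (hτ : 0 < τ) (hτ1 : τ ≤ 1) (ht0 : 0 ≤ t₁)
    (htτ : t₁ ≤ τ) (f : (ZIdx k ν → Bool) → ℝ) (hf : ∀ x, |f x| ≤ B) :
    |PhiG τ f t₁ - PhiG τ f 0 -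
        ∫ t in (0 : ℝ)..t₁, 2 * ((k : ℝ) - 1) * t ^ (2 * k - 3) * PsiG τ f t| ≤
      t₁ * (B * gaussErr k ν τ) := by
  rcases ht0.eq_or_lt with rfl | ht1pos
  · simp
  -- the density
  set ρ : ℝ → ℝ := fun t => 2 * ((k : ℝ) - 1) * t ^ (2 * k - 3) * PsiG τ f t with hρ
  have hρc : ContinuousOn ρ (Set.Icc 0 τ) := by
    refine ContinuousOn.mul ?_ (PsiG_continuousOn hk hτ f)
    exact (continuous_const.mul (continuous_pow _)).continuousOn
  have hI : ∀ x ∈ Set.Icc (0 : ℝ) t₁, IntervalIntegrable ρ volume 0 x := by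
    intro x hx
    refine ContinuousOn.intervalIntegrable ?_
    rw [Set.uIcc_of_le hx.1]
    exact hρc.mono (Set.Icc_subset_Icc le_rfl (hx.2.trans htτ))
  -- the function
  set G : ℝ → ℝ := fun x => PhiG τ f x - PhiG τ f 0 - ∫ t in (0 : ℝ)..x, ρ t with hG
  have hG0 : G 0 = 0 := by simp [hG]
  have hcG : ContinuousOn G (Set.Icc 0 t₁) := by
    have h1 : ContinuousOn (PhiG τ f) (Set.Icc 0 t₁) :=
      (PhiG_continuousOn hk hτ f).mono (Set.Icc_subset_Icc le_rfl htτ)
    have h2 : ContinuousOn (fun x => ∫ t in (0 : ℝ)..x, ρ t) (Set.Icc 0 t₁) := by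
      have := intervalIntegral.continuousOn_primitive_interval' (μ := volume) (f := ρ) (a := 0)
        (hI t₁ ⟨ht0, le_rfl⟩) Set.left_mem_uIcc
      rwa [Set.uIcc_of_le ht0] at this
    exact (h1.sub continuousOn_const).sub h2
  -- the derivative on the open interval
  have hdG : ∀ x ∈ Set.Ioo (0 : ℝ) t₁, ∃ d, HasDerivAt G d x ∧ |d| ≤ B * gaussErr k ν τ := by
    intro x hx
    have hxτ : x < τ := lt_of_lt_of_le hx.2 htτ
    obtain ⟨Φ', h1, h2⟩ := PhiG_hasDerivAt hk hτ hτ1 hx.1 hxτ f hf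
    have hint : HasDerivAt (fun y => ∫ t in (0 : ℝ)..y, ρ t) (ρ x) x := by
      refine intervalIntegral.integral_hasDerivAt_right (hI x ⟨hx.1.le, hx.2.le⟩) ?_ ?_
      · exact (hρc.mono (Set.Ioo_subset_Icc_self)).stronglyMeasurableAtFilter isOpen_Ioo x ⟨hx.1, hxτ⟩
      · exact hρc.continuousAt (Icc_mem_nhds hx.1 hxτ)
    exact ⟨Φ' - ρ x, (h1.sub_const _).sub hint, h2⟩
  -- the mean value theorem
  choose! d hd1 hd2 using hdG
  obtain ⟨c, hc, hc2⟩ := exists_hasDerivAt_eq_slope G d ht1pos hcG hd1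
  have h3 : G t₁ = d c * t₁ := by
    rw [hc2, hG0]
    field_simp
    simp
  show |G t₁| ≤ _
  rw [h3, abs_mul, abs_of_pos ht1pos, mul_comm]
  exact mul_le_mul_of_nonneg_left (hd2 c hc) ht1pos.le

end Crest.Agent.QuartSep
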