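-- Row 350 (S0554): algebra of the Forrelation form under the chain operator (blueprint 3c).
-- Transfer-matrix formula for `psi x 0`, its multilinear extension, `D F_φ = 1`,
-- and `D F_{φ²} = λ F_φ` with the EXACT constant `λ = 2 (1 - 1/N) (1 - 2/N)^(k-1)`.
import Crest.Agent.Lib.QuartSep.Gauss2

set_option autoImplicit false

namespace Crest.Agent.QuartSep

open Finset BigOperators

/-! ### Path sums -/
section Transfer

variable {S : Type}

/-- Transfer recursion: `Tm e n h s₀ = ∑_{s₁…s_n} ∏ e(s_{i}, s_{i+1}) h_{i}(s_{i+1})`. -/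
noncomputable def Tm [Fintype S] (e : S → S → ℝ) : (n : ℕ) → (Fin n → S → ℝ) → S → ℝ
  | 0, _, _ => 1
  | n + 1, h, s₀ => ∑ s, e s₀ s * h 0 s * Tm e n (Fin.tail h) s

/-- The weight of a path with `n + 1` vertices. -/
def pathW (e : S → S → ℝ) {n : ℕ} (s : Fin (n + 1) → S) : ℝ :=
  ∏ a : Fin n, e (s a.castSucc) (s a.succ)

theorem sum_cons [Fintype S] {n : ℕ} {M : Type} [AddCommMonoid M] (f : (Fin (n + 1) → S) → M) :
    ∑ s, f s = ∑ s₀, ∑ s' : Fin n → S, f (Fin.cons s₀ s') := by
  classical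
  rw [← Fintype.sum_prod_type']
  exact (Fintype.sum_equiv (Fin.consEquiv (fun _ => S)) _ _ (fun p => rfl)).symm

theorem pathW_cons (e : S → S → ℝ) {n : ℕ} (s₀ : S) (s : Fin (n + 1) → S) :
    pathW e (Fin.cons s₀ s : Fin (n + 2) → S) = e s₀ (s 0) * pathW e s := by
  unfold pathW
  rw [Fin.prod_univ_succ]
  congr 1

theorem sum_path [Fintype S] (e : S → S → ℝ) {n : ℕ} (h : Fin (n + 1) → S → ℝ) :
    ∑ s : Fin (n + 1) → S, pathW e s * ∏ a, h a (s a) =
      ∑ s₀, h 0 s₀ * Tm e n (Fin.tail h) s₀ := by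
  induction n with
  | zero =>
    rw [sum_cons]
    apply Finset.sum_congr rfl
    intro s₀ _
    simp [pathW, Tm]
  | succ n ih =>
    rw [sum_cons]
    apply Finset.sum_congr rfl
    intro s₀ _
    have key := ih (Fin.cons (fun s => e s₀ s * Fin.tail h 0 s) (Fin.tail (Fin.tail h)))
    have htail : Fin.tail (Fin.cons (fun s => e s₀ s * Fin.tail h 0 s) (Fin.tail (Fin.tail h)) :
        Fin (n + 1) → S → ℝ) = Fin.tail (Fin.tail h) := by
      ext; simp [Fin.tail]
    rw [htail] at key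
    have h1 : Tm e (n + 1) (Fin.tail h) s₀ =
        ∑ s, (e s₀ s * Fin.tail h 0 s) * Tm e n (Fin.tail (Fin.tail h)) s := rfl
    rw [h1, Finset.mul_sum]
    have h2 : ∀ s' : Fin (n + 1) → S,
        pathW e (Fin.cons s₀ s' : Fin (n + 2) → S) *
          ∏ a, h a ((Fin.cons s₀ s' : Fin (n + 2) → S) a) =
        h 0 s₀ * (pathW e s' * ∏ a, (Fin.cons (fun s => e s₀ s * Fin.tail h 0 s)
          (Fin.tail (Fin.tail h)) : Fin (n + 1) → S → ℝ) a (s' a)) := by
      intro s'
      rw [pathW_cons]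
      have e1 : ∏ a, h a ((Fin.cons s₀ s' : Fin (n + 2) → S) a) =
          h 0 s₀ * (Fin.tail h 0 (s' 0) * ∏ a : Fin n, Fin.tail (Fin.tail h) a (s' a.succ)) := by
        rw [Fin.prod_univ_succ, Fin.prod_univ_succ]
        rfl
      have e2 : ∏ a, (Fin.cons (fun s => e s₀ s * Fin.tail h 0 s)
          (Fin.tail (Fin.tail h)) : Fin (n + 1) → S → ℝ) a (s' a) =
          (e s₀ (s' 0) * Fin.tail h 0 (s' 0)) * ∏ a : Fin n, Fin.tail (Fin.tail h) a (s' a.succ) := by
        rw [Fin.prod_univ_succ]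
        rfl
      rw [e1, e2]
      ring
    simp only [h2]
    rw [← Finset.mul_sum, key, Finset.mul_sum]
    rfl

end Transfer

variable {ν n : ℕ}

/-! ### Characters -/

theorem chi_mul_self (u v : Vec ν) : chi u v * chi u v = 1 := by
  unfold chi
  rw [← Finset.prod_mul_distrib]
  exact Finset.prod_eq_one (fun i _ => sgn_mul_self _)

theorem sqrt_sizeR_ne (ν : ℕ) : Real.sqrt (sizeR ν) ≠ 0 :=
  (Real.sqrt_pos.mpr (sizeR_pos ν)).ne'

theorem sq_sqrt_sizeR (ν : ℕ) : Real.sqrt (sizeR ν) * Real.sqrt (sizeR ν) = sizeR ν :=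
  Real.mul_self_sqrt (sizeR_pos ν).le

/-- `H(u,v)² = 1/N`. -/
theorem hadamard_mul_self (u v : Vec ν) : hadamard u v * hadamard u v = (sizeR ν)⁻¹ := by
  unfold hadamard
  have h := chi_mul_self u v
  have h2 := sq_sqrt_sizeR ν
  have h3 := sqrt_sizeR_ne ν
  have h4 := (sizeR_pos ν).ne'
  field_simp
  nlinarith

theorem chi_zero_left (v : Vec ν) : chi (0 : Vec ν) v = 1 := by
  unfold chi
  apply Finset.prod_eq_one
  intro i _
  simp [sgn]

/-- First row of the Hadamard matrix. -/
theorem hadamard_zero_left (v : Vec ν) : hadamard (0 : Vec ν) v = (Real.sqrt (sizeR ν))⁻¹ := by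
  unfold hadamard
  rw [chi_zero_left, one_div]

/-! ### The Forrelation form -/

/-- `∑_p ∏ H(p_a,p_{a+1}) ∏ z_a(p_a)`. -/
noncomputable def Pf (z : Fin (n + 1) → Vec ν → ℝ) : ℝ :=
  ∑ p : Fin (n + 1) → Vec ν, pathW hadamard p * ∏ a, z a (p a)

theorem Pf_eq (z : Fin (n + 1) → Vec ν → ℝ) :
    Pf z = ∑ s₀, z 0 s₀ * Tm hadamard n (Fin.tail z) s₀ := sum_path _ _

theorem chain_ofFn {m : ℕ} (d : Fin m → Vec ν → ℝ) (u : Vec ν) :
    chain (List.ofFn d) u = Tm hadamard m d u / Real.sqrt (sizeR ν) := by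
  induction m generalizing u with
  | zero => simp [chain, Tm]
  | succ m ih =>
    rw [List.ofFn_succ]
    simp only [chain, hadamardT]
    have h1 : ∀ v, chain (List.ofFn fun i => d i.succ) v =
        Tm hadamard m (Fin.tail d) v / Real.sqrt (sizeR ν) := fun v => ih (Fin.tail d) v
    simp only [h1, Tm, Finset.sum_div]
    apply Finset.sum_congr rfl
    intro v _
    ring

/-- Instance coordinates with `n + 1` blocks. -/
abbrev Inst (n ν : ℕ) : Type := Fin (n + 1) × Vec ν

/-- `φ(x) = ψ(x)(0)`. -/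
noncomputable def phiF (x : Inst n ν → Bool) : ℝ := psi (fun a l => x (a, l)) 0

/-- `φ(x) = N⁻¹ ∑_p ∏ H ∏ sgn x_a(p_a)`. -/
theorem phiF_eq (x : Inst n ν → Bool) :
    phiF x = (sizeR ν)⁻¹ * Pf (fun a l => sgn (x (a, l))) := by
  unfold phiF psi blocks
  rw [chain_ofFn, Pf_eq]
  have hs := sq_sqrt_sizeR ν
  have hs0 := sqrt_sizeR_ne ν
  have hN := (sizeR_pos ν).ne'
  conv_lhs => rw [Tm]
  simp only [hadamard_zero_left]
  rw [Finset.sum_div, Finset.mul_sum]
  apply Finset.sum_congr rfl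
  intro v _
  have : (sizeR ν)⁻¹ = (Real.sqrt (sizeR ν))⁻¹ * (Real.sqrt (sizeR ν))⁻¹ := by
    rw [← mul_inv, hs]
  rw [this]
  field_simp

/-! ### Multilinear extensions of monomials -/

section Mon

variable {I : Type} [Fintype I] [DecidableEq I]

theorem sgn_pow_even {e : ℕ} (h : Even e) (b : Bool) : sgn b ^ e = 1 := by
  cases b <;> simp [sgn, h.neg_one_pow]

theorem sgn_pow_odd {e : ℕ} (h : ¬ Even e) (b : Bool) : sgn b ^ e = sgn b := by
  have h' : Odd e := Nat.not_even_iff_odd.mp h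
  cases b <;> simp [sgn, h'.neg_one_pow]

/-- The extension of a sign monomial with exponents `e`. -/
theorem extD_mon (S : Finset I) (e : I → ℕ) (z : I → ℝ) :
    extD (fun x => ∏ i, sgn (x i) ^ e i) S z =
      ∏ i, (if i ∈ S then (if Even (e i) then 0 else 1) else (if Even (e i) then 1 else z i)) := by
  unfold extD
  have h1 : ∀ x : I → Bool, (∏ i, sgn (x i) ^ e i) *
      ∏ i, (if i ∈ S then sgn (x i) / 2 else (1 + sgn (x i) * z i) / 2) =
      ∏ i, (sgn (x i) ^ e i * (if i ∈ S then sgn (x i) / 2 else (1 + sgn (x i) * z i) / 2)) := by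
    intro x; rw [Finset.prod_mul_distrib]
  simp only [h1]
  have h2 := Finset.prod_univ_sum (fun _ : I => (Finset.univ : Finset Bool))
    (fun i b => sgn b ^ e i * (if i ∈ S then sgn b / 2 else (1 + sgn b * z i) / 2))
  rw [Fintype.piFinset_univ] at h2
  rw [← h2]
  apply Finset.prod_congr rfl
  intro i _
  rw [Fintype.sum_bool]
  by_cases hS : i ∈ S <;> by_cases he : Even (e i)
  · simp only [hS, he, if_true, sgn_pow_even he]; simp [sgn]; norm_num
  · simp only [hS, he, if_true, if_false, sgn_pow_odd he]; simp [sgn]; norm_num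
  · simp only [hS, he, if_true, if_false, sgn_pow_even he]; simp [sgn]; ring
  · simp only [hS, he, if_false, sgn_pow_odd he]; simp [sgn]; ring

theorem ext_eq_extD (f : (I → Bool) → ℝ) (z : I → ℝ) : ext f z = extD f ∅ z := by
  simp [ext, extD]

theorem extD_sum {A : Type} (s : Finset A) (c : A → ℝ) (m : A → (I → Bool) → ℝ)
    (S : Finset I) (z : I → ℝ) :
    extD (fun x => ∑ p ∈ s, c p * m p x) S z = ∑ p ∈ s, c p * extD (m p) S z := by
  classical
  unfold extD
  simp only [Finset.sum_mul, Finset.mul_sum]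
  rw [Finset.sum_comm]
  apply Finset.sum_congr rfl
  intro p _
  apply Finset.sum_congr rfl
  intro x _
  ring

theorem extD_const_mul (c : ℝ) (f : (I → Bool) → ℝ) (S : Finset I) (z : I → ℝ) :
    extD (fun x => c * f x) S z = c * extD f S z := by
  unfold extD
  rw [Finset.mul_sum]
  apply Finset.sum_congr rfl
  intro x _
  ring

theorem ext_const_mul (c : ℝ) (f : (I → Bool) → ℝ) (z : I → ℝ) :
    ext (fun x => c * f x) z = c * ext f z := by
  simp only [ext_eq_extD, extD_const_mul]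

end Mon

/-! ### Block computations -/

/-- Transversal set of `r`. -/
def trSet (r : Fin (n + 1) → Vec ν) : Finset (Inst n ν) := univ.image (fun a => (a, r a))

theorem mem_trSet (r : Fin (n + 1) → Vec ν) (a : Fin (n + 1)) (v : Vec ν) :
    (a, v) ∈ trSet r ↔ v = r a := by
  unfold trSet
  simp only [Finset.mem_image, Finset.mem_univ, true_and, Prod.mk.injEq]
  constructor
  · rintro ⟨b, rfl, rfl⟩; rfl
  · rintro rfl; exact ⟨a, rfl, rfl⟩

/-- Exponents of the monomial of a path. -/
def expo (p : Fin (n + 1) → Vec ν) (i : Inst n ν) : ℕ := if i.2 = p i.1 then 1 else 0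

theorem prod_sgn_expo (p : Fin (n + 1) → Vec ν) (x : Inst n ν → Bool) :
    ∏ i, sgn (x i) ^ expo p i = ∏ a, sgn (x (a, p a)) := by
  rw [Fintype.prod_prod_type]
  apply Finset.prod_congr rfl
  intro a _
  simp [expo, pow_ite, Finset.prod_ite_eq']

/-- The two-point factor of `D F_{φ²}`. -/
def E3 (r u u' : Vec ν) (y : Vec ν → ℝ) : ℝ :=
  if u = u' then 0 else if r = u then y u' else if r = u' then y u else 0

theorem block_one (r u : Vec ν) (y : Vec ν → ℝ) :
    ∏ v, (if v = r then (if Even (if v = u then 1 else 0) then (0 : ℝ) else 1)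
      else (if Even (if v = u then 1 else 0) then 1 else y v)) = if u = r then 1 else 0 := by
  by_cases h : u = r
  · subst h
    rw [if_pos rfl]
    apply Finset.prod_eq_one
    intro v _
    by_cases hv : v = u <;> simp [hv]
  · rw [if_neg h]
    apply Finset.prod_eq_zero (Finset.mem_univ r)
    have : r ≠ u := fun e => h e.symm
    simp [this]

theorem block_one_empty (u : Vec ν) (y : Vec ν → ℝ) :
    ∏ v, (if Even (if v = u then 1 else 0) then (1 : ℝ) else y v) = y u := by
  rw [Finset.prod_eq_single u]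
  · simp
  · intro v _ hv; simp [hv]
  · simp

theorem block_two (r u u' : Vec ν) (y : Vec ν → ℝ) :
    ∏ v, (if v = r then
        (if Even ((if v = u then 1 else 0) + (if v = u' then 1 else 0)) then (0 : ℝ) else 1)
      else (if Even ((if v = u then 1 else 0) + (if v = u' then 1 else 0)) then 1 else y v)) =
      E3 r u u' y := by
  unfold E3
  by_cases huu : u = u'
  · subst huu
    rw [if_pos rfl]
    apply Finset.prod_eq_zero (Finset.mem_univ r)
    rw [if_pos rfl, if_pos]
    by_cases hr : r = u <;> simp [hr]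
  · rw [if_neg huu]
    by_cases hr : r = u
    · subst hr
      rw [if_pos rfl, Finset.prod_eq_single u']
      · have : u' ≠ r := fun e => huu e.symm
        simp [this]
      · intro v _ hv
        by_cases hvr : v = r
        · subst hvr; simp [hv]
        · simp [hvr, hv]
      · simp
    · rw [if_neg hr]
      by_cases hr' : r = u'
      · subst hr'
        rw [if_pos rfl, Finset.prod_eq_single u]
        · simp [huu]
        · intro v _ hv
          by_cases hvr : v = r
          · subst hvr; simp [hv]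
          · simp [hvr, hv]
        · simp
      · rw [if_neg hr']
        apply Finset.prod_eq_zero (Finset.mem_univ r)
        simp [hr, hr']

theorem block_two_empty_zero (u u' : Vec ν) :
    ∏ v, (if Even ((if v = u then 1 else 0) + (if v = u' then 1 else 0)) then (1 : ℝ) else 0) =
      if u = u' then 1 else 0 := by
  by_cases h : u = u'
  · subst h
    rw [if_pos rfl]
    apply Finset.prod_eq_one
    intro v _
    by_cases hv : v = u <;> simp [hv]
  · rw [if_neg h]
    apply Finset.prod_eq_zero (Finset.mem_univ u)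
    simp [h]

/-- The `D` operator: `D f z = ∑_r ∏ H(r_a,r_{a+1}) ∂_{(0,r_0)} ⋯ ∂_{(n,r_n)} (ext f) z`. -/
noncomputable def DOp (f : (Inst n ν → Bool) → ℝ) (z : Inst n ν → ℝ) : ℝ :=
  ∑ r : Fin (n + 1) → Vec ν, pathW hadamard r * extD f (trSet r) z

/-- Curried point. -/
def curry3 (z : Inst n ν → ℝ) : Fin (n + 1) → Vec ν → ℝ := fun a l => z (a, l)

/-! ### The linear form `φ` -/

theorem phiF_mon (x : Inst n ν → Bool) :
    phiF x = (sizeR ν)⁻¹ * ∑ p : Fin (n + 1) → Vec ν,
      pathW hadamard p * ∏ i, sgn (x i) ^ expo p i := by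
  rw [phiF_eq, Pf]
  simp only [prod_sgn_expo]

theorem extD_expo (r p : Fin (n + 1) → Vec ν) (z : Inst n ν → ℝ) :
    extD (fun x => ∏ i, sgn (x i) ^ expo p i) (trSet r) z = if p = r then 1 else 0 := by
  rw [extD_mon, Fintype.prod_prod_type]
  have h : ∀ a : Fin (n + 1), ∏ v, (if (a, v) ∈ trSet r then
        (if Even (expo p (a, v)) then (0 : ℝ) else 1)
        else (if Even (expo p (a, v)) then 1 else z (a, v))) = if p a = r a then 1 else 0 := by
    intro a
    rw [← block_one (r a) (p a) (fun v => z (a, v))]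
    apply Finset.prod_congr rfl
    intro v _
    simp only [mem_trSet, expo]
    split_ifs <;> rfl
  simp only [h]
  by_cases hpr : p = r
  · subst hpr; simp
  · rw [if_neg hpr]
    obtain ⟨a, ha⟩ : ∃ a, p a ≠ r a := by
      by_contra hh; push Not at hh; exact hpr (funext hh)
    exact Finset.prod_eq_zero (Finset.mem_univ a) (by simp [ha])

theorem ext_expo (p : Fin (n + 1) → Vec ν) (z : Inst n ν → ℝ) :
    ext (fun x => ∏ i, sgn (x i) ^ expo p i) z = ∏ a, z (a, p a) := by
  rw [ext_eq_extD, extD_mon, Fintype.prod_prod_type]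
  apply Finset.prod_congr rfl
  intro a _
  rw [← block_one_empty (p a) (fun v => z (a, v))]
  apply Finset.prod_congr rfl
  intro v _
  simp [expo]

/-- The multilinear extension of `φ`. -/
theorem ext_phiF (z : Inst n ν → ℝ) :
    ext (phiF : (Inst n ν → Bool) → ℝ) z = (sizeR ν)⁻¹ * Pf (curry3 z) := by
  have h : (phiF : (Inst n ν → Bool) → ℝ) = fun x => (sizeR ν)⁻¹ * ∑ p : Fin (n + 1) → Vec ν,
      pathW hadamard p * ∏ i, sgn (x i) ^ expo p i := funext phiF_mon
  rw [h, ext_const_mul, ext_eq_extD, extD_sum, Pf]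
  congr 1
  apply Finset.sum_congr rfl
  intro p _
  rw [← ext_eq_extD, ext_expo]
  rfl

theorem extD_phiF (r : Fin (n + 1) → Vec ν) (z : Inst n ν → ℝ) :
    extD (phiF : (Inst n ν → Bool) → ℝ) (trSet r) z = (sizeR ν)⁻¹ * pathW hadamard r := by
  have h : (phiF : (Inst n ν → Bool) → ℝ) = fun x => (sizeR ν)⁻¹ * ∑ p : Fin (n + 1) → Vec ν,
      pathW hadamard p * ∏ i, sgn (x i) ^ expo p i := funext phiF_mon
  rw [h, extD_const_mul, extD_sum]
  congr 1
  simp only [extD_expo]
  simp

theorem pathW_mul_self (r : Fin (n + 1) → Vec ν) :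
    pathW hadamard r * pathW hadamard r = ((sizeR ν)⁻¹) ^ n := by
  unfold pathW
  rw [← Finset.prod_mul_distrib]
  simp only [hadamard_mul_self]
  simp

theorem card_vecR (ν : ℕ) : (Fintype.card (Vec ν) : ℝ) = sizeR ν := by
  simp [sizeR]

theorem sum_pathW_sq :
    ∑ r : Fin (n + 1) → Vec ν, pathW hadamard r * pathW hadamard r = sizeR ν := by
  simp only [pathW_mul_self]
  rw [Finset.sum_const, Finset.card_univ, nsmul_eq_mul, Fintype.card_fun, Nat.cast_pow,
    Fintype.card_fin, card_vecR, inv_pow, pow_succ]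
  have : sizeR ν ^ n ≠ 0 := (pow_pos (sizeR_pos ν) n).ne'
  field_simp

/-- `D F_φ = 1`. -/
theorem DOp_phiF (z : Inst n ν → ℝ) : DOp (phiF : (Inst n ν → Bool) → ℝ) z = 1 := by
  unfold DOp
  simp only [extD_phiF]
  have h : ∀ r : Fin (n + 1) → Vec ν, pathW hadamard r * ((sizeR ν)⁻¹ * pathW hadamard r) =
      (sizeR ν)⁻¹ * (pathW hadamard r * pathW hadamard r) := fun r => by ring
  simp only [h]
  rw [← Finset.mul_sum, sum_pathW_sq, inv_mul_cancel₀ (sizeR_pos ν).ne']

/-- `F_φ(0) = 0`. -/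
theorem ext_phiF_zero : ext (phiF : (Inst n ν → Bool) → ℝ) 0 = 0 := by
  rw [ext_phiF]
  have : Pf (curry3 (0 : Inst n ν → ℝ)) = 0 := by
    unfold Pf curry3
    apply Finset.sum_eq_zero
    intro p _
    rw [Finset.prod_eq_zero (Finset.mem_univ (0 : Fin (n + 1))) (by simp), mul_zero]
  rw [this, mul_zero]

/-! ### The quadratic form `φ²` -/

/-- `φ² ` as a sum of monomials. -/
theorem phiF_sq_mon (x : Inst n ν → Bool) :
    phiF x ^ 2 = ((sizeR ν)⁻¹ * (sizeR ν)⁻¹) * ∑ pp : (Fin (n + 1) → Vec ν) × (Fin (n + 1) → Vec ν),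
      (pathW hadamard pp.1 * pathW hadamard pp.2) *
        ∏ i, sgn (x i) ^ (expo pp.1 i + expo pp.2 i) := by
  rw [phiF_mon, mul_pow, sq, sq, Finset.sum_mul_sum, ← Fintype.sum_prod_type']
  congr 1
  apply Finset.sum_congr rfl
  intro pp _
  simp only [pow_add, Finset.prod_mul_distrib]
  ring

noncomputable def phiSq (x : Inst n ν → Bool) : ℝ := phiF x ^ 2

theorem extD_phiSq (S : Finset (Inst n ν)) (z : Inst n ν → ℝ) :
    extD (phiSq : (Inst n ν → Bool) → ℝ) S z =
      ((sizeR ν)⁻¹ * (sizeR ν)⁻¹) * ∑ pp : (Fin (n + 1) → Vec ν) × (Fin (n + 1) → Vec ν),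
      (pathW hadamard pp.1 * pathW hadamard pp.2) *
        extD (fun x => ∏ i, sgn (x i) ^ (expo pp.1 i + expo pp.2 i)) S z := by
  have h : (phiSq : (Inst n ν → Bool) → ℝ) = fun x =>
      ((sizeR ν)⁻¹ * (sizeR ν)⁻¹) * ∑ pp : (Fin (n + 1) → Vec ν) × (Fin (n + 1) → Vec ν),
      (pathW hadamard pp.1 * pathW hadamard pp.2) *
        ∏ i, sgn (x i) ^ (expo pp.1 i + expo pp.2 i) := funext phiF_sq_mon
  rw [h, extD_const_mul, extD_sum]

theorem extD_expo2 (r p p' : Fin (n + 1) → Vec ν) (z : Inst n ν → ℝ) :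
    extD (fun x => ∏ i, sgn (x i) ^ (expo p i + expo p' i)) (trSet r) z =
      ∏ a, E3 (r a) (p a) (p' a) (curry3 z a) := by
  rw [extD_mon, Fintype.prod_prod_type]
  apply Finset.prod_congr rfl
  intro a _
  rw [← block_two]
  apply Finset.prod_congr rfl
  intro v _
  simp only [mem_trSet, expo, curry3]
  split_ifs <;> rfl

theorem ext_expo2_zero (p p' : Fin (n + 1) → Vec ν) :
    ext (fun x => ∏ i, sgn (x i) ^ (expo p i + expo p' i)) (0 : Inst n ν → ℝ) =
      if p = p' then 1 else 0 := by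
  rw [ext_eq_extD, extD_mon, Fintype.prod_prod_type]
  have h : ∀ a : Fin (n + 1), ∏ v, (if (a, v) ∈ (∅ : Finset (Inst n ν)) then
        (if Even (expo p (a, v) + expo p' (a, v)) then (0 : ℝ) else 1)
        else (if Even (expo p (a, v) + expo p' (a, v)) then 1 else (0 : Inst n ν → ℝ) (a, v))) =
        if p a = p' a then 1 else 0 := by
    intro a
    rw [← block_two_empty_zero (p a) (p' a)]
    apply Finset.prod_congr rfl
    intro v _
    simp [expo]
  simp only [h]
  by_cases hpr : p = p'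
  · subst hpr; simp
  · rw [if_neg hpr]
    obtain ⟨a, ha⟩ : ∃ a, p a ≠ p' a := by
      by_contra hh; push Not at hh; exact hpr (funext hh)
    exact Finset.prod_eq_zero (Finset.mem_univ a) (by simp [ha])

/-- `F_{φ²}(0) = 1/N`. -/
theorem ext_phiSq_zero : ext (phiSq : (Inst n ν → Bool) → ℝ) 0 = (sizeR ν)⁻¹ := by
  rw [ext_eq_extD, extD_phiSq]
  simp only [← ext_eq_extD, ext_expo2_zero]
  rw [Fintype.sum_prod_type]
  simp only [mul_ite, mul_one, mul_zero, Finset.sum_ite_eq, Finset.mem_univ, if_true]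
  rw [sum_pathW_sq]
  have := (sizeR_pos ν).ne'
  field_simp

/-! ### Triple transfer -/

/-- Edge weight on triples `(r,p,p')`. -/
noncomputable def e3 (t t' : Vec ν × Vec ν × Vec ν) : ℝ :=
  hadamard t.1 t'.1 * (hadamard t.2.1 t'.2.1 * hadamard t.2.2 t'.2.2)

/-- Vertex weight on triples. -/
def h3 (y : Vec ν → ℝ) (t : Vec ν × Vec ν × Vec ν) : ℝ := E3 t.1 t.2.1 t.2.2 y

/-- Sum of `E3` against a test function. -/
theorem sum_triple (y : Vec ν → ℝ) (g : Vec ν × Vec ν × Vec ν → ℝ) :
    ∑ t, h3 y t * g t =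
      ∑ b, y b * ∑ u, (if u = b then 0 else g (u, u, b) + g (u, b, u)) := by
  have h1 : ∑ t, h3 y t * g t =
      ∑ u, ∑ u', ∑ r, E3 r u u' y * g (r, u, u') := by
    rw [Fintype.sum_prod_type]
    simp only [Fintype.sum_prod_type]
    rw [Finset.sum_comm]
    apply Finset.sum_congr rfl
    intro u _
    rw [Finset.sum_comm]
    rfl
  have h2 : ∀ u u', ∑ r, E3 r u u' y * g (r, u, u') =
      if u = u' then 0 else y u' * g (u, u, u') + y u * g (u', u, u') := by
    intro u u'
    by_cases huu : u = u'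
    · simp [E3, huu]
    · rw [if_neg huu]
      simp only [E3, if_neg huu]
      rw [Finset.sum_eq_add u u' huu]
      · simp only [if_true]
        have : u' ≠ u := fun e => huu e.symm
        simp [this]
      · intro c _ hc
        simp [hc.1, hc.2]
      · simp
      · simp
  rw [h1]
  simp only [h2]
  have h3 : ∀ u u' : Vec ν, (if u = u' then (0 : ℝ) else y u' * g (u, u, u') + y u * g (u', u, u')) =
      (if u = u' then 0 else y u' * g (u, u, u')) + (if u = u' then 0 else y u * g (u', u, u')) := by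
    intro u u'
    by_cases huu : u = u' <;> simp [huu]
  simp only [h3, Finset.sum_add_distrib]
  have h4 : ∀ b, y b * ∑ u, (if u = b then 0 else g (u, u, b) + g (u, b, u)) =
      ∑ u, (if u = b then 0 else y b * g (u, u, b)) + ∑ u, (if u = b then 0 else y b * g (u, b, u)) := by
    intro b
    rw [← Finset.sum_add_distrib, Finset.mul_sum]
    apply Finset.sum_congr rfl
    intro u _
    by_cases hub : u = b <;> simp [hub]; ring
  simp only [h4, Finset.sum_add_distrib]
  congr 1
  · rw [Finset.sum_comm]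
  · apply Finset.sum_congr rfl
    intro b _
    apply Finset.sum_congr rfl
    intro u _
    by_cases hub : u = b
    · subst hub; simp
    · have : b ≠ u := fun e => hub e.symm
      simp [hub, this]

/-- The good states: `t₀` has equal first coordinate with one of the two others, the remaining
one being `b₀`, and `u₀ ≠ b₀`. -/
def GoodT (t : Vec ν × Vec ν × Vec ν) (b₀ : Vec ν) : Prop :=
  ∃ u₀, u₀ ≠ b₀ ∧ (t = (u₀, u₀, b₀) ∨ t = (u₀, b₀, u₀))

theorem sum_ne_eq (f : Vec ν → ℝ) (b : Vec ν) :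
    ∑ u, (if u = b then 0 else f u) = ∑ u, f u - f b := by
  have : ∀ u, (if u = b then 0 else f u) = f u - (if u = b then f b else 0) := by
    intro u
    by_cases h : u = b
    · subst h; simp
    · simp [h]
  simp only [this, Finset.sum_sub_distrib]
  simp

/-- `κ = (N-2)/N`. -/
noncomputable def kappaN (ν : ℕ) : ℝ := (sizeR ν - 2) / sizeR ν

theorem sum_const_inv (X : ℝ) : ∑ _u : Vec ν, (sizeR ν)⁻¹ * X = X := by
  rw [Finset.sum_const, Finset.card_univ, nsmul_eq_mul, card_vecR, ← mul_assoc,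
    mul_inv_cancel₀ (sizeR_pos ν).ne', one_mul]

theorem good_step {t₀ : Vec ν × Vec ν × Vec ν} {b₀ : Vec ν} (h : GoodT t₀ b₀) (b : Vec ν) :
    ∑ u, (if u = b then 0 else e3 t₀ (u, u, b) + e3 t₀ (u, b, u)) =
      kappaN ν * hadamard b₀ b := by
  obtain ⟨u₀, hne, ht⟩ := h
  rw [sum_ne_eq, Finset.sum_add_distrib]
  have hN := (sizeR_pos ν).ne'
  have horth : ∑ u, hadamard u₀ u * hadamard b₀ u = 0 := by
    rw [hadamard_orth, if_neg hne]
  rcases ht with rfl | rfl
  · have h1 : ∀ u, e3 (u₀, u₀, b₀) (u, u, b) = (sizeR ν)⁻¹ * hadamard b₀ b := by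
      intro u
      simp only [e3]
      rw [← mul_assoc, hadamard_mul_self]
    have h2 : ∀ u, e3 (u₀, u₀, b₀) (u, b, u) =
        hadamard u₀ b * (hadamard u₀ u * hadamard b₀ u) := by
      intro u
      simp only [e3]
      ring
    simp only [h1, h2]
    rw [sum_const_inv, ← Finset.mul_sum, horth]
    simp only [kappaN]
    field_simp
    ring
  · have h1 : ∀ u, e3 (u₀, b₀, u₀) (u, b, u) = (sizeR ν)⁻¹ * hadamard b₀ b := by
      intro u
      simp only [e3]
      rw [show hadamard u₀ u * (hadamard b₀ b * hadamard u₀ u) =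
        (hadamard u₀ u * hadamard u₀ u) * hadamard b₀ b by ring, hadamard_mul_self]
    have h2 : ∀ u, e3 (u₀, b₀, u₀) (u, u, b) =
        hadamard u₀ b * (hadamard u₀ u * hadamard b₀ u) := by
      intro u
      simp only [e3]
      ring
    simp only [h1, h2]
    rw [sum_const_inv, ← Finset.mul_sum, horth]
    simp only [kappaN]
    field_simp
    ring

/-- The transfer on good states reduces to the transfer of the form. -/
theorem Tm_good (m : ℕ) (zz : Fin m → Vec ν → ℝ) (t₀ : Vec ν × Vec ν × Vec ν) (b₀ : Vec ν)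
    (h : GoodT t₀ b₀) :
    Tm e3 m (fun a => h3 (zz a)) t₀ = kappaN ν ^ m * Tm hadamard m zz b₀ := by
  induction m generalizing t₀ b₀ with
  | zero => simp [Tm]
  | succ m ih =>
    have h1 : Tm e3 (m + 1) (fun a => h3 (zz a)) t₀ =
        ∑ t, h3 (zz 0) t * (e3 t₀ t * Tm e3 m (fun a => h3 (Fin.tail zz a)) t) := by
      rw [Tm]
      apply Finset.sum_congr rfl
      intro t _
      have : Fin.tail (fun a => h3 (zz a)) = fun a => h3 (Fin.tail zz a) := rfl
      rw [this]
      ring
    rw [h1, sum_triple]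
    have h2 : ∀ b, ∑ u, (if u = b then 0 else
        e3 t₀ (u, u, b) * Tm e3 m (fun a => h3 (Fin.tail zz a)) (u, u, b) +
        e3 t₀ (u, b, u) * Tm e3 m (fun a => h3 (Fin.tail zz a)) (u, b, u)) =
        kappaN ν ^ m * Tm hadamard m (Fin.tail zz) b * (kappaN ν * hadamard b₀ b) := by
      intro b
      rw [← good_step h b, Finset.mul_sum]
      apply Finset.sum_congr rfl
      intro u _
      by_cases hub : u = b
      · simp [hub]
      · rw [if_neg hub, if_neg hub, ih (Fin.tail zz) (u, u, b) b ⟨u, hub, Or.inl rfl⟩,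
          ih (Fin.tail zz) (u, b, u) b ⟨u, hub, Or.inr rfl⟩]
        ring
    simp only [h2]
    rw [Tm, Finset.mul_sum]
    apply Finset.sum_congr rfl
    intro b _
    rw [pow_succ]
    ring

theorem sum_ne_const (X : ℝ) (b : Vec ν) :
    ∑ u : Vec ν, (if u = b then 0 else X) = (sizeR ν - 1) * X := by
  rw [sum_ne_eq, Finset.sum_const, Finset.card_univ, nsmul_eq_mul, card_vecR]
  ring

/-- The triple sum at the top. -/
theorem sum_top (z : Fin (n + 1) → Vec ν → ℝ) :
    ∑ t : Fin (n + 1) → Vec ν × Vec ν × Vec ν, pathW e3 t * ∏ a, h3 (z a) (t a) =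
      2 * (sizeR ν - 1) * kappaN ν ^ n * Pf z := by
  have h1 := sum_path e3 (fun a => h3 (z a))
  rw [h1, Pf_eq, sum_triple, Finset.mul_sum]
  apply Finset.sum_congr rfl
  intro b _
  have h2 : ∀ u, (if u = b then (0 : ℝ) else
      Tm e3 n (Fin.tail fun a => h3 (z a)) (u, u, b) +
        Tm e3 n (Fin.tail fun a => h3 (z a)) (u, b, u)) =
      if u = b then 0 else 2 * (kappaN ν ^ n * Tm hadamard n (Fin.tail z) b) := by
    intro u
    by_cases hub : u = b
    · simp [hub]
    · rw [if_neg hub, if_neg hub]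
      have e : (Fin.tail fun a => h3 (z a)) = fun a => h3 (Fin.tail z a) := rfl
      rw [e, Tm_good n (Fin.tail z) (u, u, b) b ⟨u, hub, Or.inl rfl⟩,
        Tm_good n (Fin.tail z) (u, b, u) b ⟨u, hub, Or.inr rfl⟩]
      ring
  simp only [h2]
  rw [sum_ne_const]
  ring

/-- Triples of paths versus paths of triples. -/
def tripleEquiv (m : ℕ) : (Fin m → Vec ν × Vec ν × Vec ν) ≃
    (Fin m → Vec ν) × (Fin m → Vec ν) × (Fin m → Vec ν) where
  toFun t := (fun a => (t a).1, fun a => (t a).2.1, fun a => (t a).2.2)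
  invFun q a := (q.1 a, q.2.1 a, q.2.2 a)
  left_inv _ := rfl
  right_inv _ := rfl

theorem pathW_e3 (t : Fin (n + 1) → Vec ν × Vec ν × Vec ν) :
    pathW e3 t = pathW hadamard (tripleEquiv _ t).1 *
      (pathW hadamard (tripleEquiv _ t).2.1 * pathW hadamard (tripleEquiv _ t).2.2) := by
  unfold pathW e3
  rw [← Finset.prod_mul_distrib, ← Finset.prod_mul_distrib]
  rfl

/-- **`D F_{φ²} = λ F_φ`**, with `λ = 2 (N-1)/N ((N-2)/N)^n`. -/
theorem DOp_phiSq (z : Inst n ν → ℝ) :
    DOp (phiSq : (Inst n ν → Bool) → ℝ) z =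
      (2 * ((sizeR ν - 1) / sizeR ν) * kappaN ν ^ n) * ext (phiF : (Inst n ν → Bool) → ℝ) z := by
  have htop := sum_top (curry3 z)
  rw [ext_phiF]
  unfold DOp
  simp only [extD_phiSq, extD_expo2]
  have h1 : ∑ r : Fin (n + 1) → Vec ν, pathW hadamard r * (((sizeR ν)⁻¹ * (sizeR ν)⁻¹) *
        ∑ pp : (Fin (n + 1) → Vec ν) × (Fin (n + 1) → Vec ν),
          pathW hadamard pp.1 * pathW hadamard pp.2 *
            ∏ a, E3 (r a) (pp.1 a) (pp.2 a) (curry3 z a)) =
      ((sizeR ν)⁻¹ * (sizeR ν)⁻¹) *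
      ∑ t : Fin (n + 1) → Vec ν × Vec ν × Vec ν, pathW e3 t * ∏ a, h3 (curry3 z a) (t a) := by
    rw [← (tripleEquiv (n + 1)).symm.sum_comp, Fintype.sum_prod_type, Finset.mul_sum]
    apply Finset.sum_congr rfl
    intro r _
    rw [mul_left_comm, Finset.mul_sum]
    congr 1
    apply Finset.sum_congr rfl
    intro pp _
    rw [pathW_e3]
    simp only [Equiv.apply_symm_apply, h3]
    have : ∀ a, ((tripleEquiv (n + 1)).symm (r, pp) a) = (r a, pp.1 a, pp.2 a) := fun a => rfl
    simp only [this]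
    ring
  rw [h1, htop]
  have hN := (sizeR_pos ν).ne'
  field_simp

end Crest.Agent.QuartSep
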