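-- Row 350 (S0554): the hard distribution `distD` and its basic properties (blueprint 3c).
import Crest.Agent.Lib.QuartSep.Gauss3

set_option autoImplicit false

namespace Crest.Agent.QuartSep

open Finset BigOperators MeasureTheory

section Generic

variable {k ν : ℕ}

/-! ### Continuity and compact support -/

theorem phiBump_continuous : Continuous phiBump :=
  ContDiffBump.continuous _

theorem phiBump_eq_zero {x : ℝ} (h : 1 / 2 ≤ |x|) : phiBump x = 0 := by
  unfold phiBump
  apply ContDiffBump.zero_of_le_dist
  simpa [Real.dist_eq] using h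

theorem chiCut_continuous (τ : ℝ) : Continuous (chiCut τ : (GIdx k ν → ℝ) → ℝ) := by
  unfold chiCut
  apply Continuous.mul
  · apply continuous_finsetProd
    intro ω _
    exact phiBump_continuous.comp (continuous_const.mul (continuous_apply ω))
  · apply continuous_finsetProd
    intro ω _
    apply phiBump_continuous.comp
    apply continuous_const.mul
    apply continuous_finsetSum
    intro i _
    exact continuous_const.mul (continuous_apply _)

theorem chiCut_eq_zero {τ : ℝ} (hτ : 0 < τ) {g : GIdx k ν → ℝ} {ω : GIdx k ν}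
    (h : 1 / (2 * τ) ≤ |g ω|) : chiCut τ g = 0 := by
  unfold chiCut
  rw [Finset.prod_eq_zero (Finset.mem_univ ω), zero_mul]
  apply phiBump_eq_zero
  rw [abs_mul, abs_of_pos hτ]
  have : τ * (1 / (2 * τ)) ≤ τ * |g ω| := mul_le_mul_of_nonneg_left h hτ.le
  have h2 : τ * (1 / (2 * τ)) = 1 / 2 := by field_simp
  linarith

theorem gDens_continuous' {Ω : Type} [Fintype Ω] : Continuous (gDens : (Ω → ℝ) → ℝ) := by
  unfold gDens
  apply continuous_finsetProd
  intro ω _
  apply continuous_const.mul
  apply Real.continuous_exp.comp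
  exact ((continuous_apply ω).pow 2).neg.div_const _

/-- Continuous function times the cutoff is integrable against the Gaussian. -/
theorem integrable_cut {τ : ℝ} (hτ : 0 < τ) {G : (GIdx k ν → ℝ) → ℝ} (hG : Continuous G) :
    Integrable (fun g => G g * chiCut τ g * gDens g) := by
  apply Continuous.integrable_of_hasCompactSupport
  · exact (hG.mul (chiCut_continuous τ)).mul gDens_continuous'
  · apply HasCompactSupport.intro
      (K := Set.pi Set.univ (fun _ : GIdx k ν => Set.Icc (-(1 / (2 * τ))) (1 / (2 * τ))))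
      (isCompact_univ_pi (fun _ => isCompact_Icc))
    intro g hg
    simp only [Set.mem_pi, Set.mem_univ, true_implies, Set.mem_Icc, not_forall] at hg
    obtain ⟨ω, hω⟩ := hg
    have : 1 / (2 * τ) ≤ |g ω| := by
      by_contra hh
      push Not at hh
      exact hω ⟨by linarith [(abs_lt.mp hh).1], by linarith [(abs_lt.mp hh).2]⟩
    rw [chiCut_eq_zero hτ this]
    simp

theorem gb_continuous (b : ℕ) (i : Vec ν) :
    Continuous (fun g : GIdx k ν → ℝ => gb g b i) := by
  unfold gb
  by_cases h : b < k - 1
  · simp only [h, dif_pos]; exact continuous_apply _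
  · simp only [h, dif_neg, not_false_eq_true]; exact continuous_const

theorem Zval_continuous (t : ℝ) (i : ZIdx k ν) :
    Continuous (fun g : GIdx k ν → ℝ => Zval t g i) := by
  unfold Zval Yv Wv
  apply Continuous.mul
  · by_cases h : i.1.val = 0
    · simp only [h, if_true]; exact continuous_const
    · simp only [h, if_false]
      apply continuous_const.mul
      apply continuous_finsetSum
      intro j _
      exact continuous_const.mul (gb_continuous _ _)
  · by_cases h : i.1.val + 1 < k
    · simp only [h, if_true]; exact continuous_const.mul (gb_continuous _ _)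
    · simp only [h, if_false]; exact continuous_const

theorem extD_continuous {I : Type} [Fintype I] [DecidableEq I] (f : (I → Bool) → ℝ)
    (S : Finset I) : Continuous (fun z : I → ℝ => extD f S z) := by
  unfold extD
  apply continuous_finsetSum
  intro x _
  apply continuous_const.mul
  apply continuous_finsetProd
  intro i _
  by_cases h : i ∈ S
  · simp only [h, if_true]; exact continuous_const
  · simp only [h, if_false]
    exact (continuous_const.add (continuous_const.mul (continuous_apply i))).div_const _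

theorem Zvec_continuous (t : ℝ) : Continuous (fun g : GIdx k ν → ℝ => Zval t g) :=
  continuous_pi (fun i => Zval_continuous t i)

theorem ext_Zval_continuous (f : (ZIdx k ν → Bool) → ℝ) (t : ℝ) :
    Continuous (fun g : GIdx k ν → ℝ => ext f (Zval t g)) := by
  simp only [ext_eq_extD]
  exact (extD_continuous f ∅).comp (Zvec_continuous t)

theorem chainD_continuous (f : (ZIdx k ν → Bool) → ℝ) :
    Continuous (fun z : ZIdx k ν → ℝ => chainD f z) := by
  unfold chainD
  apply continuous_finsetSum
  intro r _
  exact continuous_const.mul (extD_continuous f _)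

/-! ### The law -/

/-- The distribution at scale `τ`. -/
noncomputable def distD (τ : ℝ) (x : ZIdx k ν → Bool) : ℝ :=
  gE (fun g : GIdx k ν → ℝ => (∏ i, (1 + sgn (x i) * Zval τ g i) / 2) * chiCut τ g) +
    (1 - gE (fun g : GIdx k ν → ℝ => chiCut τ g)) / (2 : ℝ) ^ (k * 2 ^ ν)

theorem card_ZIdx : Fintype.card (ZIdx k ν) = k * 2 ^ ν := by
  simp

theorem card_ZIdx_fun : Fintype.card (ZIdx k ν → Bool) = 2 ^ (k * 2 ^ ν) := by
  rw [Fintype.card_fun, Fintype.card_bool, card_ZIdx]

theorem prod_factor_nonneg {z : ZIdx k ν → ℝ} (hz : ∀ i, |z i| ≤ 1 / 2) (x : ZIdx k ν → Bool) :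
    0 ≤ ∏ i, (1 + sgn (x i) * z i) / 2 := by
  apply Finset.prod_nonneg
  intro i _
  have h1 : |sgn (x i) * z i| ≤ 1 / 2 := by
    rw [abs_mul, sgn_abs, one_mul]; exact hz i
  have := (abs_le.mp h1).1
  linarith

theorem distD_nonneg (hk : 2 ≤ k) {τ : ℝ} (hτ : 0 < τ) (x : ZIdx k ν → Bool) :
    0 ≤ distD τ x := by
  unfold distD
  apply add_nonneg
  · unfold gE
    apply integral_nonneg
    intro g
    show 0 ≤ _ * _ * _
    apply mul_nonneg _ (gDens_pos g).le
    by_cases hg : chiCut τ g = 0
    · rw [hg, mul_zero]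
    · exact mul_nonneg
        (prod_factor_nonneg (fun i => Zval_abs_le hk hτ hτ.le le_rfl hg i) x)
        (chiCut_nonneg τ g)
  · apply div_nonneg
    · linarith [gE_chiCut_le (k := k) (ν := ν) τ]
    · positivity

/-- The product weights sum to one. -/
theorem sum_prod_weight (z : ZIdx k ν → ℝ) :
    ∑ x : ZIdx k ν → Bool, ∏ i, (1 + sgn (x i) * z i) / 2 = 1 := by
  have h2 := Finset.prod_univ_sum (fun _ : ZIdx k ν => (Finset.univ : Finset Bool))
    (fun i b => (1 + sgn b * z i) / 2)
  rw [Fintype.piFinset_univ] at h2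
  rw [← h2]
  apply Finset.prod_eq_one
  intro i _
  rw [Fintype.sum_bool]
  simp [sgn]
  ring

/-- Continuity of the weighted function. -/
theorem weight_continuous (τ : ℝ) (x : ZIdx k ν → Bool) :
    Continuous (fun g : GIdx k ν → ℝ => ∏ i, (1 + sgn (x i) * Zval τ g i) / 2) := by
  apply continuous_finsetProd
  intro i _
  exact (continuous_const.add (continuous_const.mul (Zval_continuous τ i))).div_const _

theorem gE_sum {τ : ℝ} (hτ : 0 < τ) {A : Type} (s : Finset A) (G : A → (GIdx k ν → ℝ) → ℝ)
    (hG : ∀ a, Continuous (G a)) :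
    ∑ a ∈ s, gE (fun g => G a g * chiCut τ g) = gE (fun g => (∑ a ∈ s, G a g) * chiCut τ g) := by
  unfold gE
  rw [← integral_finsetSum s (fun a _ => integrable_cut hτ (hG a))]
  apply integral_congr_ae
  filter_upwards with g
  simp only [Finset.sum_mul]

theorem ext_zero_eq (f : (ZIdx k ν → Bool) → ℝ) :
    ext f (fun _ => 0) = ∑ x, f x / (2 : ℝ) ^ (k * 2 ^ ν) := by
  unfold ext
  apply Finset.sum_congr rfl
  intro x _
  simp only [mul_zero, add_zero]
  rw [Finset.prod_const, Finset.card_univ, card_ZIdx, div_pow, one_pow, mul_one_div]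

/-- Total mass one. -/
theorem distD_sum {τ : ℝ} (hτ : 0 < τ) : ∑ x : ZIdx k ν → Bool, distD τ x = 1 := by
  unfold distD
  rw [Finset.sum_add_distrib, gE_sum hτ _ _ (weight_continuous τ)]
  simp only [sum_prod_weight, one_mul]
  rw [Finset.sum_const, Finset.card_univ, card_ZIdx_fun, nsmul_eq_mul]
  push_cast
  have : (2 : ℝ) ^ (k * 2 ^ ν) ≠ 0 := by positivity
  field_simp
  ring

theorem PhiG_zero (hk : 2 ≤ k) (τ : ℝ) (f : (ZIdx k ν → Bool) → ℝ) :
    PhiG τ f 0 = ext f (fun _ => 0) * gE (fun g : GIdx k ν → ℝ => chiCut τ g) := by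
  unfold PhiG
  have h : ∀ g : GIdx k ν → ℝ, Zval 0 g = fun _ => 0 := fun g => funext (Zval_zero hk g)
  simp only [h]
  unfold gE
  rw [← integral_const_mul]
  apply integral_congr_ae
  filter_upwards with g
  ring

/-- `E_D f - E_U f = Φ_f(τ) - Φ_f(0)`. -/
theorem distD_exp (hk : 2 ≤ k) {τ : ℝ} (hτ : 0 < τ) (f : (ZIdx k ν → Bool) → ℝ) :
    ∑ x, distD τ x * f x - ext f (fun _ => 0) = PhiG τ f τ - PhiG τ f 0 := by
  have h1 : ∑ x, distD τ x * f x =
      PhiG τ f τ + (1 - gE (fun g : GIdx k ν → ℝ => chiCut τ g)) * ext f (fun _ => 0) := by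
    unfold distD
    simp only [add_mul, Finset.sum_add_distrib]
    congr 1
    · have : ∀ x : ZIdx k ν → Bool,
          gE (fun g : GIdx k ν → ℝ => (∏ i, (1 + sgn (x i) * Zval τ g i) / 2) * chiCut τ g) * f x =
          gE (fun g : GIdx k ν → ℝ => (f x * ∏ i, (1 + sgn (x i) * Zval τ g i) / 2) * chiCut τ g) := by
        intro x
        unfold gE
        rw [mul_comm, ← integral_const_mul]
        apply integral_congr_ae
        filter_upwards with g
        ring
      simp only [this]
      rw [gE_sum hτ Finset.univ (fun x g => f x * ∏ i, (1 + sgn (x i) * Zval τ g i) / 2)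
        (fun x => continuous_const.mul (weight_continuous τ x))]
      rfl
    · rw [ext_zero_eq, Finset.mul_sum]
      apply Finset.sum_congr rfl
      intro x _
      ring
  rw [h1, PhiG_zero hk]
  ring

end Generic

end Crest.Agent.QuartSep
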