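-- Row 350 (S0554): moments of the Forrelation statistic under `distD`, Chebyshev, trees (blueprint 3c).
import Crest.Agent.Lib.QuartSep.GaussD

set_option autoImplicit false

namespace Crest.Agent.QuartSep

open Finset BigOperators MeasureTheory

variable {m ν : ℕ}

/-! ### Bridge -/

theorem chainD_eq_DOp {n : ℕ} (f : (ZIdx (n + 1) ν → Bool) → ℝ) (z : ZIdx (n + 1) ν → ℝ) :
    chainD f z = DOp f z := by
  unfold chainD DOp
  apply Finset.sum_congr rfl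
  intro r _
  congr 1
  rw [Fin.prod_univ_castSucc]
  have h1 : (if h : (Fin.last n).val + 1 < n + 1 then
      hadamard (r (Fin.last n)) (r ⟨(Fin.last n).val + 1, h⟩) else 1) = 1 := by
    simp
  rw [h1, mul_one]
  unfold pathW
  apply Finset.prod_congr rfl
  intro a _
  have h2 : a.castSucc.val + 1 < n + 1 := by simp
  rw [dif_pos h2]
  congr 2

/-! ### Integrals -/

/-- The weight `2(k-1)t^(2k-3)` in the form of the API. -/
noncomputable def wt (m : ℕ) (t : ℝ) : ℝ := 2 * (((m + 2 : ℕ) : ℝ) - 1) * t ^ (2 * (m + 2) - 3)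

theorem wt_eq (t : ℝ) : wt m t = 2 * ((m : ℝ) + 1) * t ^ (2 * m + 1) := by
  unfold wt
  have : 2 * (m + 2) - 3 = 2 * m + 1 := by omega
  rw [this]
  push_cast
  ring

theorem wt_continuous : Continuous (wt m) := by
  have : wt m = fun t => 2 * ((m : ℝ) + 1) * t ^ (2 * m + 1) := funext wt_eq
  rw [this]
  fun_prop

theorem wt_nonneg {t : ℝ} (ht : 0 ≤ t) : 0 ≤ wt m t := by
  rw [wt_eq]; positivity

theorem integral_wt (b : ℝ) : ∫ t in (0 : ℝ)..b, wt m t = b ^ (2 * m + 2) := by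
  simp only [wt_eq]
  rw [intervalIntegral.integral_const_mul, integral_pow]
  have h0 : (0 : ℝ) ^ (2 * m + 1 + 1) = 0 := by simp
  rw [h0, sub_zero]
  have h2 : (2 * m + 1 + 1 : ℕ) = 2 * m + 2 := rfl
  rw [h2]
  push_cast
  have : (2 * (m : ℝ) + 1 + 1) ≠ 0 := by positivity
  field_simp
  ring

theorem integral_wt_mul_pow (b : ℝ) :
    ∫ t in (0 : ℝ)..b, wt m t * t ^ (2 * m + 2) = (b ^ (2 * m + 2)) ^ 2 / 2 := by
  have h : ∀ t : ℝ, wt m t * t ^ (2 * m + 2) = 2 * ((m : ℝ) + 1) * t ^ (4 * m + 3) := by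
    intro t
    rw [wt_eq, mul_assoc, ← pow_add]
    congr 2
    ring
  simp only [h]
  rw [intervalIntegral.integral_const_mul, integral_pow]
  have h0 : (0 : ℝ) ^ (4 * m + 3 + 1) = 0 := by simp
  rw [h0, sub_zero, ← pow_mul]
  have h2 : (4 * m + 3 + 1 : ℕ) = (2 * m + 2) * 2 := by ring
  rw [h2]
  push_cast
  have : (4 * (m : ℝ) + 3 + 1) ≠ 0 := by positivity
  field_simp
  ring

/-- Weighted bound of an integral. -/
theorem weighted_bound {Ψ : ℝ → ℝ} {b Λ : ℝ} (hb : 0 ≤ b)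
    (h : ∀ t, 0 ≤ t → t ≤ b → |Ψ t| ≤ Λ) :
    |∫ t in (0 : ℝ)..b, wt m t * Ψ t| ≤ b ^ (2 * m + 2) * Λ := by
  have h1 := intervalIntegral.norm_integral_le_of_norm_le
    (μ := volume) (a := 0) (b := b) (f := fun t => wt m t * Ψ t) (g := fun t => wt m t * Λ) hb
    (by
      filter_upwards with t ht
      have h0 : 0 ≤ t := ht.1.le
      rw [Real.norm_eq_abs, abs_mul, abs_of_nonneg (wt_nonneg h0)]
      exact mul_le_mul_of_nonneg_left (h t h0 ht.2) (wt_nonneg h0))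
    ((wt_continuous.mul continuous_const).intervalIntegrable _ _)
  rw [intervalIntegral.integral_mul_const, integral_wt, Real.norm_eq_abs] at h1
  exact h1

/-! ### First moment -/

/-- Total mass of the cutoff. -/
noncomputable def Ecut (m ν : ℕ) (τ : ℝ) : ℝ := gE (fun g : GIdx (m + 2) ν → ℝ => chiCut τ g)

theorem phiF_abs_le (x : ZIdx (m + 2) ν → Bool) : |phiF x| ≤ 1 := psi_abs_le _ _

theorem phiSq_abs_le (x : ZIdx (m + 2) ν → Bool) : |phiSq x| ≤ 1 := by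
  unfold phiSq
  rw [abs_pow]
  exact pow_le_one₀ (abs_nonneg _) (phiF_abs_le x)

theorem PsiG_phi (τ t : ℝ) : PsiG τ (phiF : (ZIdx (m + 2) ν → Bool) → ℝ) t = Ecut m ν τ := by
  unfold PsiG Ecut
  simp only [chainD_eq_DOp, DOp_phiF, one_mul]

/-- The exact constant. -/
noncomputable def lamC (m ν : ℕ) : ℝ := 2 * ((sizeR ν - 1) / sizeR ν) * kappaN ν ^ (m + 1)

theorem PsiG_phiSq (τ t : ℝ) :
    PsiG τ (phiSq : (ZIdx (m + 2) ν → Bool) → ℝ) t =
      lamC m ν * PhiG τ (phiF : (ZIdx (m + 2) ν → Bool) → ℝ) t := by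
  unfold PsiG PhiG gE
  simp only [chainD_eq_DOp, DOp_phiSq]
  rw [← integral_const_mul]
  apply integral_congr_ae
  filter_upwards with g
  unfold lamC
  ring

theorem PhiG_phi_zero (τ : ℝ) : PhiG τ (phiF : (ZIdx (m + 2) ν → Bool) → ℝ) 0 = 0 := by
  rw [PhiG_zero (by omega)]
  have : ext (phiF : (ZIdx (m + 2) ν → Bool) → ℝ) (fun _ => 0) = 0 := ext_phiF_zero
  rw [this, zero_mul]

/-- `|Φ_φ(t) - t^(2k-2) E χ| ≤ t Err`. -/
theorem Phi_phi_bound {τ t : ℝ} (hτ : 0 < τ) (hτ1 : τ ≤ 1) (ht0 : 0 ≤ t) (htτ : t ≤ τ) :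
    |PhiG τ (phiF : (ZIdx (m + 2) ν → Bool) → ℝ) t - t ^ (2 * m + 2) * Ecut m ν τ| ≤
      t * gaussErr (m + 2) ν τ := by
  have h := PhiG_integrated (k := m + 2) (ν := ν) (by omega) hτ hτ1 ht0 htτ phiF (B := 1) phiF_abs_le
  simp only [PsiG_phi, PhiG_phi_zero, one_mul, sub_zero] at h
  have e : ∫ t in (0 : ℝ)..t, 2 * (((m + 2 : ℕ) : ℝ) - 1) * t ^ (2 * (m + 2) - 3) * Ecut m ν τ =
      t ^ (2 * m + 2) * Ecut m ν τ := by
    rw [intervalIntegral.integral_mul_const]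
    congr 1
    exact integral_wt t
  rw [e] at h
  exact h

/-! ### Second moment -/

/-- The weighted integral of `Φ_φ`. -/
noncomputable def Iphi (m ν : ℕ) (τ : ℝ) : ℝ :=
  ∫ t in (0 : ℝ)..τ, wt m t * PhiG τ (phiF : (ZIdx (m + 2) ν → Bool) → ℝ) t

theorem Phi_phi_intervalIntegrable {τ : ℝ} (hτ : 0 < τ) (f : (ZIdx (m + 2) ν → Bool) → ℝ) :
    IntervalIntegrable (fun t => wt m t * PhiG τ f t) volume 0 τ := by
  apply ContinuousOn.intervalIntegrable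
  rw [Set.uIcc_of_le hτ.le]
  exact wt_continuous.continuousOn.mul (PhiG_continuousOn (by omega) hτ f)

theorem Iphi_bound {τ : ℝ} (hτ : 0 < τ) (hτ1 : τ ≤ 1) :
    |Iphi m ν τ - Ecut m ν τ * (τ ^ (2 * m + 2)) ^ 2 / 2| ≤
      τ ^ (2 * m + 2) * (τ * gaussErr (m + 2) ν τ) := by
  have herr : 0 ≤ gaussErr (m + 2) ν τ := by
    have := abs_nonneg (PhiG τ (phiF : (ZIdx (m + 2) ν → Bool) → ℝ) 0 - 0 * Ecut m ν τ)
    have h2 := Phi_phi_bound (m := m) (ν := ν) hτ hτ1 hτ.le le_rfl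
    have h3 := (abs_nonneg _).trans h2
    exact nonneg_of_mul_nonneg_right h3 hτ
  have h1 : Iphi m ν τ - Ecut m ν τ * (τ ^ (2 * m + 2)) ^ 2 / 2 =
      ∫ t in (0 : ℝ)..τ, wt m t *
        (PhiG τ (phiF : (ZIdx (m + 2) ν → Bool) → ℝ) t - t ^ (2 * m + 2) * Ecut m ν τ) := by
    have e1 : ∀ t, wt m t *
        (PhiG τ (phiF : (ZIdx (m + 2) ν → Bool) → ℝ) t - t ^ (2 * m + 2) * Ecut m ν τ) =
        wt m t * PhiG τ (phiF : (ZIdx (m + 2) ν → Bool) → ℝ) t -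
          (wt m t * t ^ (2 * m + 2)) * Ecut m ν τ := by
      intro t; ring
    simp only [e1]
    have hI2 : IntervalIntegrable (fun t => wt m t * t ^ (2 * m + 2) * Ecut m ν τ) volume 0 τ :=
      Continuous.intervalIntegrable
        ((wt_continuous.mul (continuous_pow _)).mul continuous_const) _ _
    rw [intervalIntegral.integral_sub (Phi_phi_intervalIntegrable hτ phiF) hI2,
      intervalIntegral.integral_mul_const, integral_wt_mul_pow]
    unfold Iphi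
    ring
  rw [h1]
  apply weighted_bound hτ.le
  intro t h0 ht
  refine (Phi_phi_bound hτ hτ1 h0 ht).trans ?_
  exact mul_le_mul_of_nonneg_right ht herr

theorem kappaN_nonneg (hν : 1 ≤ ν) : 0 ≤ kappaN ν := by
  unfold kappaN sizeR
  have : (2 : ℝ) ^ 1 ≤ 2 ^ ν := pow_le_pow_right₀ (by norm_num) hν
  apply div_nonneg <;> [linarith; positivity]

theorem kappaN_le_one : kappaN ν ≤ 1 := by
  unfold kappaN
  rw [div_le_one (sizeR_pos ν)]
  linarith

theorem lamC_nonneg (hν : 1 ≤ ν) : 0 ≤ lamC m ν := by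
  unfold lamC
  have h1 := kappaN_nonneg hν
  have h2 : 0 ≤ (sizeR ν - 1) / sizeR ν := by
    unfold sizeR
    have : (1 : ℝ) ≤ 2 ^ ν := one_le_pow₀ (by norm_num)
    apply div_nonneg <;> [linarith; positivity]
  positivity

theorem lamC_le_two (hν : 1 ≤ ν) : lamC m ν ≤ 2 := by
  unfold lamC
  have h1 : kappaN ν ^ (m + 1) ≤ 1 := pow_le_one₀ (kappaN_nonneg hν) kappaN_le_one
  have h2 : (sizeR ν - 1) / sizeR ν ≤ 1 := by
    rw [div_le_one (sizeR_pos ν)]; linarith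
  have h3 : 0 ≤ (sizeR ν - 1) / sizeR ν := by
    unfold sizeR
    have : (1 : ℝ) ≤ 2 ^ ν := one_le_pow₀ (by norm_num)
    apply div_nonneg <;> [linarith; positivity]
  have h4 : 0 ≤ kappaN ν ^ (m + 1) := pow_nonneg (kappaN_nonneg hν) _
  nlinarith [mul_le_one₀ h2 h4 h1]

/-- Second moment: `E_D φ² ≤ 1/N + Eχ μ² + 2 μ τ Err + τ Err`. -/
theorem second_moment {τ : ℝ} (hν : 1 ≤ ν) (hτ : 0 < τ) (hτ1 : τ ≤ 1) :
    ∑ x, distD τ x * (phiSq : (ZIdx (m + 2) ν → Bool) → ℝ) x ≤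
      (sizeR ν)⁻¹ + Ecut m ν τ * (τ ^ (2 * m + 2)) ^ 2 +
        2 * (τ ^ (2 * m + 2) * (τ * gaussErr (m + 2) ν τ)) + τ * gaussErr (m + 2) ν τ := by
  have hexp := distD_exp (k := m + 2) (ν := ν) (by omega) hτ phiSq
  have hzero : ext (phiSq : (ZIdx (m + 2) ν → Bool) → ℝ) (fun _ => 0) = (sizeR ν)⁻¹ :=
    ext_phiSq_zero
  rw [hzero] at hexp
  have hint := PhiG_integrated (k := m + 2) (ν := ν) (by omega) hτ hτ1 hτ.le le_rfl phiSq
    (B := 1) phiSq_abs_le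
  simp only [PsiG_phiSq, one_mul] at hint
  have e : ∫ t in (0 : ℝ)..τ, 2 * (((m + 2 : ℕ) : ℝ) - 1) * t ^ (2 * (m + 2) - 3) *
      (lamC m ν * PhiG τ (phiF : (ZIdx (m + 2) ν → Bool) → ℝ) t) = lamC m ν * Iphi m ν τ := by
    unfold Iphi
    rw [← intervalIntegral.integral_const_mul]
    apply intervalIntegral.integral_congr
    intro t _
    simp only [wt]
    ring
  rw [e] at hint
  have h1 := (abs_le.mp hint).2
  have h2 := (abs_le.mp (Iphi_bound (m := m) (ν := ν) hτ hτ1)).2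
  have hlam0 := lamC_nonneg (m := m) hν
  have hlam2 := lamC_le_two (m := m) hν
  set μ := τ ^ (2 * m + 2) with hμ
  set Er := μ * (τ * gaussErr (m + 2) ν τ) with hEr
  have hEc0 : 0 ≤ Ecut m ν τ * μ ^ 2 := by
    apply mul_nonneg _ (sq_nonneg _)
    unfold Ecut gE
    apply integral_nonneg
    intro g
    exact mul_nonneg (chiCut_nonneg τ g) (gDens_pos g).le
  have hEr0 : 0 ≤ Er := by
    have := (abs_nonneg _).trans (Iphi_bound (m := m) (ν := ν) hτ hτ1)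
    exact this
  have h3 : lamC m ν * Iphi m ν τ ≤ Ecut m ν τ * μ ^ 2 + 2 * Er := by
    have h4 : Iphi m ν τ ≤ Ecut m ν τ * μ ^ 2 / 2 + Er := by linarith
    have h5 : 0 ≤ Ecut m ν τ * μ ^ 2 / 2 + Er := by linarith
    calc lamC m ν * Iphi m ν τ ≤ lamC m ν * (Ecut m ν τ * μ ^ 2 / 2 + Er) :=
          mul_le_mul_of_nonneg_left h4 hlam0
      _ ≤ 2 * (Ecut m ν τ * μ ^ 2 / 2 + Er) := mul_le_mul_of_nonneg_right hlam2 h5
      _ = Ecut m ν τ * μ ^ 2 + 2 * Er := by ring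
  linarith

/-- First moment. -/
theorem first_moment {τ : ℝ} (hτ : 0 < τ) (hτ1 : τ ≤ 1) :
    |∑ x, distD τ x * (phiF : (ZIdx (m + 2) ν → Bool) → ℝ) x - τ ^ (2 * m + 2) * Ecut m ν τ| ≤
      τ * gaussErr (m + 2) ν τ := by
  have hexp := distD_exp (k := m + 2) (ν := ν) (by omega) hτ phiF
  have hzero : ext (phiF : (ZIdx (m + 2) ν → Bool) → ℝ) (fun _ => 0) = 0 := ext_phiF_zero
  rw [hzero, PhiG_phi_zero, sub_zero, sub_zero] at hexp
  rw [hexp]
  exact Phi_phi_bound hτ hτ1 hτ.le le_rfl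

/-- Chebyshev for the statistic. -/
theorem variance_bound {τ : ℝ} (hν : 1 ≤ ν) (hτ : 0 < τ) (hτ1 : τ ≤ 1) :
    ∑ x, distD τ x * ((phiF : (ZIdx (m + 2) ν → Bool) → ℝ) x - τ ^ (2 * m + 2)) ^ 2 ≤
      (sizeR ν)⁻¹ + (1 - Ecut m ν τ) * (τ ^ (2 * m + 2)) ^ 2 +
        4 * (τ ^ (2 * m + 2) * (τ * gaussErr (m + 2) ν τ)) + τ * gaussErr (m + 2) ν τ := by
  have h2 := second_moment (m := m) hν hτ hτ1
  have h1 := (abs_le.mp (first_moment (m := m) (ν := ν) hτ hτ1)).1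
  have hmass := distD_sum (k := m + 2) (ν := ν) hτ
  set μ := τ ^ (2 * m + 2) with hμ
  have hμ0 : 0 ≤ μ := by rw [hμ]; positivity
  have e : ∑ x, distD τ x * ((phiF : (ZIdx (m + 2) ν → Bool) → ℝ) x - μ) ^ 2 =
      ∑ x, distD τ x * (phiSq : (ZIdx (m + 2) ν → Bool) → ℝ) x -
        2 * μ * ∑ x, distD τ x * (phiF : (ZIdx (m + 2) ν → Bool) → ℝ) x + μ ^ 2 := by
    have : μ ^ 2 = μ ^ 2 * ∑ x : ZIdx (m + 2) ν → Bool, distD τ x := by rw [hmass, mul_one]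
    rw [this, Finset.mul_sum, Finset.mul_sum, ← Finset.sum_sub_distrib, ← Finset.sum_add_distrib]
    apply Finset.sum_congr rfl
    intro x _
    unfold phiSq
    ring
  rw [e]
  have h3 := mul_le_mul_of_nonneg_left h1 (by positivity : 0 ≤ 2 * μ)
  nlinarith

/-- Chebyshev tail. -/
theorem tail_bound_D {τ : ℝ} (hτ : 0 < τ) {μ : ℝ} (hμ : 0 < μ) (hk : 2 ≤ m + 2) :
    ∑ x, (if (phiF : (ZIdx (m + 2) ν → Bool) → ℝ) x < μ / 2 then distD τ x else 0) ≤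
      4 / μ ^ 2 * ∑ x, distD τ x * ((phiF : (ZIdx (m + 2) ν → Bool) → ℝ) x - μ) ^ 2 := by
  rw [Finset.mul_sum]
  apply Finset.sum_le_sum
  intro x _
  have hD := distD_nonneg (k := m + 2) (ν := ν) hk hτ x
  by_cases h : (phiF : (ZIdx (m + 2) ν → Bool) → ℝ) x < μ / 2
  · rw [if_pos h]
    have h1 : μ ^ 2 / 4 ≤ ((phiF : (ZIdx (m + 2) ν → Bool) → ℝ) x - μ) ^ 2 := by
      nlinarith
    have h2 : 1 ≤ 4 / μ ^ 2 * ((phiF : (ZIdx (m + 2) ν → Bool) → ℝ) x - μ) ^ 2 := by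
      rw [div_mul_eq_mul_div, le_div_iff₀ (by positivity)]
      linarith
    calc distD τ x = 1 * distD τ x := (one_mul _).symm
      _ ≤ (4 / μ ^ 2 * ((phiF : (ZIdx (m + 2) ν → Bool) → ℝ) x - μ) ^ 2) * distD τ x :=
          mul_le_mul_of_nonneg_right h2 hD
      _ = _ := by ring
  · rw [if_neg h]
    positivity

end Crest.Agent.QuartSep
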