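-- Row 350 (S0554): what the classical part needs from the hard distribution (blueprint 3c).
import Crest.Agent.Lib.QuartSep.DTFourier
import Crest.Agent.Lib.QuartSep.Chain

set_option autoImplicit false

namespace Crest.Agent.QuartSep

open Finset BigOperators

/-- The hard instance distribution at threshold `θ`, against trees of depth at most `d`. Instances
are functions on `Fin k × Vec ν`. `psi` is applied to the curried instance. -/
structure IsHard (k ν : ℕ) (θ : ℝ) (D : (Fin k × Vec ν → Bool) → ℝ) (d : ℕ) : Prop where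
  nonneg : ∀ x, 0 ≤ D x
  sum_one : ∑ x, D x = 1
  tail : ∑ x, (if psi (fun a l => x (a, l)) 0 < θ then D x else 0) ≤ 1 / 100
  trees : ∀ T : DT (Fin k × Vec ν), T.depth ≤ d →
    |∑ x, D x * T.val x - ∑ x, T.val x / (2 : ℝ) ^ (k * 2 ^ ν)| ≤ 1 / 100

/-- The threshold `θ = (C₀ ν)^{-(k-1)} / 2`. -/
noncomputable def thetaOf (C₀ : ℝ) (k ν : ℕ) : ℝ := (1 / (C₀ * ν)) ^ (k - 1) / 2

end Crest.Agent.QuartSep
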