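-- Row 350 (S0554): the hard distribution (blueprint 3c).
import Crest.Agent.Lib.QuartSep.GaussM
import Crest.Agent.Lib.QuartSep.Hard

set_option autoImplicit false

namespace Crest.Agent.QuartSep

open Finset BigOperators MeasureTheory

variable {m n ν : ℕ}

/-! ### The chain operator on a decision tree -/

theorem chi_abs (u v : Vec ν) : |chi u v| = 1 := by
  unfold chi
  rw [Finset.abs_prod]
  apply Finset.prod_eq_one
  intro i _
  exact sgn_abs _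

theorem pathW_chi_abs (r : Fin (n + 1) → Vec ν) : |pathW chi r| = 1 := by
  unfold pathW
  rw [Finset.abs_prod]
  apply Finset.prod_eq_one
  intro a _
  exact chi_abs _ _

theorem pathW_hadamard (r : Fin (n + 1) → Vec ν) :
    pathW hadamard r = ((Real.sqrt (sizeR ν))⁻¹) ^ n * pathW chi r := by
  unfold pathW hadamard
  simp only [div_eq_mul_inv]
  rw [Finset.prod_mul_distrib, Finset.prod_const, Finset.card_univ, Fintype.card_fin, mul_comm]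

theorem trSet_injective :
    Function.Injective (trSet : (Fin (n + 1) → Vec ν) → Finset (Inst n ν)) := by
  intro r r' h
  funext a
  have h1 : (a, r a) ∈ trSet r' := by rw [← h, mem_trSet]
  exact (mem_trSet r' a (r a)).mp h1

theorem trSet_card (r : Fin (n + 1) → Vec ν) : (trSet r).card = n + 1 := by
  unfold trSet
  rw [Finset.card_image_of_injective]
  · simp
  · intro a b h
    exact (Prod.mk.inj h).1

/-- The coefficient at a set of indices. -/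
noncomputable def aCoef (S : Finset (Inst n ν)) : ℝ :=
  ∑ r : Fin (n + 1) → Vec ν, if trSet r = S then pathW chi r else 0

theorem aCoef_abs (S : Finset (Inst n ν)) : |aCoef S| ≤ 1 := by
  unfold aCoef
  by_cases h : ∃ r₀ : Fin (n + 1) → Vec ν, trSet r₀ = S
  · obtain ⟨r₀, rfl⟩ := h
    rw [Finset.sum_eq_single r₀]
    · simp [pathW_chi_abs]
    · intro r _ hr
      rw [if_neg (fun e => hr (trSet_injective e))]
    · simp
  · push Not at h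
    rw [Finset.sum_eq_zero (fun r _ => if_neg (h r))]
    simp

theorem sum_aCoef (e : Finset (Inst n ν) → ℝ) :
    ∑ S ∈ powersetCard (n + 1) (univ : Finset (Inst n ν)), aCoef S * e S =
      ∑ r : Fin (n + 1) → Vec ν, pathW chi r * e (trSet r) := by
  unfold aCoef
  simp only [Finset.sum_mul]
  rw [Finset.sum_comm]
  apply Finset.sum_congr rfl
  intro r _
  have h : ∀ S : Finset (Inst n ν),
      (if trSet r = S then pathW chi r else 0) * e S =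
      if trSet r = S then pathW chi r * e (trSet r) else 0 := by
    intro S
    by_cases hS : trSet r = S
    · subst hS; simp
    · simp [hS]
  simp only [h]
  rw [Finset.sum_ite_eq]
  rw [if_pos]
  rw [Finset.mem_powersetCard]
  exact ⟨Finset.subset_univ _, trSet_card r⟩

/-- The level bound on the chain operator. -/
theorem DOp_tree_sq (T : DT (Inst n ν)) (d q : ℕ) (hd : T.depth ≤ d) (hq : 2 ≤ q) (hq2 : Even q)
    (z : Inst n ν → ℝ) (hz : ∀ i, |z i| ≤ 1 / 2) :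
    (DOp T.val z) ^ 2 ≤ ((sizeR ν)⁻¹) ^ n *
      (4 ^ (n + 1) * (((q : ℝ) - 1) * (Fintype.card (Inst n ν) : ℝ) ^ (2 / (q : ℝ)) * d) ^ (n + 1)) := by
  have h1 : DOp T.val z = ((Real.sqrt (sizeR ν))⁻¹) ^ n *
      ∑ S ∈ powersetCard (n + 1) (univ : Finset (Inst n ν)), aCoef S * extD T.val S z := by
    rw [sum_aCoef (fun S => extD T.val S z)]
    unfold DOp
    rw [Finset.mul_sum]
    apply Finset.sum_congr rfl
    intro r _
    rw [pathW_hadamard]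
    ring
  have h2 := level_bound T d (n + 1) q hd hq hq2 aCoef aCoef_abs z hz
  rw [h1, mul_pow]
  have h3 : (((Real.sqrt (sizeR ν))⁻¹) ^ n) ^ 2 = ((sizeR ν)⁻¹) ^ n := by
    rw [← pow_mul, mul_comm, pow_mul, inv_pow, Real.sq_sqrt (sizeR_pos ν).le]
  rw [h3]
  exact mul_le_mul_of_nonneg_left h2 (by have := sizeR_pos ν; positivity)

theorem DT_val_abs {I : Type} [Fintype I] [DecidableEq I] (T : DT I) (x : I → Bool) :
    |T.val x| ≤ 1 := by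
  unfold DT.val
  split_ifs <;> simp

/-- Difference of expectations on a tree. -/
theorem tree_diff {τ Λ : ℝ} (hτ : 0 < τ) (hτ1 : τ ≤ 1) (f : (ZIdx (m + 2) ν → Bool) → ℝ)
    (hf : ∀ x, |f x| ≤ 1)
    (hΛ : ∀ z : ZIdx (m + 2) ν → ℝ, (∀ i, |z i| ≤ 1 / 2) → |chainD f z| ≤ Λ) :
    |∑ x, distD τ x * f x - ext f (fun _ => 0)| ≤
      τ ^ (2 * m + 2) * Λ + τ * gaussErr (m + 2) ν τ := by
  have hexp := distD_exp (k := m + 2) (ν := ν) (by omega) hτ f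
  rw [hexp]
  have hint := PhiG_integrated (k := m + 2) (ν := ν) (by omega) hτ hτ1 hτ.le le_rfl f
    (B := 1) hf
  simp only [one_mul] at hint
  have hPsi : ∀ t, 0 ≤ t → t ≤ τ → |PsiG τ f t| ≤ Λ := by
    intro t h0 ht
    unfold PsiG
    apply gE_mul_chiCut_abs_le (by omega) hτ
    · exact (chainD_continuous f).comp (Zvec_continuous t)
    · intro g hg
      exact hΛ _ (fun i => Zval_abs_le (by omega) hτ h0 ht hg i)
  have hw := weighted_bound (m := m) hτ.le hPsi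
  have e : ∫ t in (0 : ℝ)..τ, 2 * (((m + 2 : ℕ) : ℝ) - 1) * t ^ (2 * (m + 2) - 3) * PsiG τ f t =
      ∫ t in (0 : ℝ)..τ, wt m t * PsiG τ f t := rfl
  rw [e] at hint
  rw [abs_le] at *
  constructor <;> linarith [hint.1, hint.2, hw.1, hw.2]

/-! ### Parameters -/

theorem bumpM_ge_one : 1 ≤ bumpM := by
  unfold bumpM
  have : 0 ≤ sSup (Set.range fun x => |deriv phiBump x|) := by
    apply Real.sSup_nonneg
    rintro _ ⟨x, rfl⟩
    exact abs_nonneg _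
  linarith

/-- `2^ν ≤ e^ν`. -/
theorem two_pow_le_exp (ν : ℕ) : (2 : ℝ) ^ ν ≤ Real.exp ν := by
  have h : (2 : ℝ) ≤ Real.exp 1 := by
    have := Real.add_one_le_exp (1 : ℝ)
    linarith
  calc (2 : ℝ) ^ ν ≤ (Real.exp 1) ^ ν := pow_le_pow_left₀ (by norm_num) h ν
    _ = Real.exp ν := by rw [← Real.exp_nat_mul, mul_one]

/-- The constant in the error. -/
noncomputable def Aconst (k : ℕ) : ℝ := 32 * bumpM * (k : ℝ) ^ 3

theorem Aconst_nonneg (k : ℕ) : 0 ≤ Aconst k := by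
  unfold Aconst
  have := bumpM_ge_one
  positivity

/-- With `τ² = 1/(32 (k+6) ν)`, the error is at most `A / 2^ν`. -/
theorem gaussErr_le {k : ℕ} {τ : ℝ} (hν : 1 ≤ ν) (hτ : τ ^ 2 = 1 / (32 * ((k : ℝ) + 6) * ν)) :
    gaussErr k ν τ ≤ Aconst k * ((2 : ℝ) ^ ν)⁻¹ := by
  unfold gaussErr Aconst
  have hν0 : (0 : ℝ) < ν := by exact_mod_cast hν
  have hk0 : (0 : ℝ) < (k : ℝ) + 6 := by positivity
  have h1 : -1 / (32 * τ ^ 2) = -(((k : ℝ) + 6) * ν) := by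
    rw [hτ]
    field_simp
  rw [h1]
  have h2 : ((2 : ℝ) ^ ν) ^ (k + 4) * Real.exp (-(((k : ℝ) + 6) * ν)) ≤ ((2 : ℝ) ^ ν)⁻¹ := by
    have h3 : ((2 : ℝ) ^ ν) ^ (k + 5) ≤ Real.exp (((k : ℝ) + 6) * ν) := by
      calc ((2 : ℝ) ^ ν) ^ (k + 5) ≤ (Real.exp ν) ^ (k + 5) :=
            pow_le_pow_left₀ (by positivity) (two_pow_le_exp ν) _
        _ = Real.exp (((k + 5 : ℕ) : ℝ) * ν) := by rw [← Real.exp_nat_mul]
        _ ≤ Real.exp (((k : ℝ) + 6) * ν) := by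
            apply Real.exp_le_exp.mpr
            push_cast
            nlinarith
    have hpos : (0 : ℝ) < (2 : ℝ) ^ ν := by positivity
    rw [Real.exp_neg, ← div_eq_mul_inv, div_le_iff₀ (Real.exp_pos _), inv_mul_eq_div, le_div_iff₀ hpos]
    calc ((2 : ℝ) ^ ν) ^ (k + 4) * (2 : ℝ) ^ ν = ((2 : ℝ) ^ ν) ^ (k + 5) := by ring
      _ ≤ _ := h3
  have hA : 0 ≤ 32 * bumpM * (k : ℝ) ^ 3 := by
    have := bumpM_ge_one
    positivity
  calc 32 * bumpM * (k : ℝ) ^ 3 * ((2 : ℝ) ^ ν) ^ (k + 4) * Real.exp (-(((k : ℝ) + 6) * ν))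
      = 32 * bumpM * (k : ℝ) ^ 3 * (((2 : ℝ) ^ ν) ^ (k + 4) * Real.exp (-(((k : ℝ) + 6) * ν))) := by
        ring
    _ ≤ _ := mul_le_mul_of_nonneg_left h2 hA

/-- The cutoff deficit is at most the error. -/
theorem one_sub_Ecut_le {τ : ℝ} (hτ : 0 < τ) :
    1 - Ecut m ν τ ≤ gaussErr (m + 2) ν τ := by
  have h := gE_chiCut_ge (k := m + 2) (ν := ν) (by omega) hτ
  have h2 : 8 * ((m + 2 : ℕ) : ℝ) * (2 : ℝ) ^ ν * Real.exp (-1 / (32 * τ ^ 2)) ≤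
      gaussErr (m + 2) ν τ := by
    unfold gaussErr
    have hexp := Real.exp_pos (-1 / (32 * τ ^ 2))
    apply mul_le_mul_of_nonneg_right _ hexp.le
    have hk : (1 : ℝ) ≤ ((m + 2 : ℕ) : ℝ) := by
      push_cast; linarith [(Nat.cast_nonneg m : (0 : ℝ) ≤ m)]
    have hN : (1 : ℝ) ≤ (2 : ℝ) ^ ν := one_le_pow₀ (by norm_num)
    have hB := bumpM_ge_one
    have h3 : (2 : ℝ) ^ ν ≤ ((2 : ℝ) ^ ν) ^ (m + 2 + 4) :=
      le_self_pow₀ hN (by omega)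
    have h4 : ((m + 2 : ℕ) : ℝ) ≤ ((m + 2 : ℕ) : ℝ) ^ 3 := le_self_pow₀ hk (by norm_num)
    have h5 : 8 * ((m + 2 : ℕ) : ℝ) ≤ 32 * bumpM * ((m + 2 : ℕ) : ℝ) ^ 3 := by
      have : ((m + 2 : ℕ) : ℝ) ^ 3 ≤ bumpM * ((m + 2 : ℕ) : ℝ) ^ 3 :=
        le_mul_of_one_le_left (by positivity) hB
      linarith
    exact mul_le_mul h5 h3 (by positivity) (by positivity)
  unfold Ecut
  linarith

/-- The bound on the level parameter. -/
theorem K_bound {k : ℕ} (hk : 1 ≤ k) (hν : 1 ≤ ν) :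
    (((2 * ν : ℕ) : ℝ) - 1) * (((k * 2 ^ ν : ℕ) : ℝ) ^ (2 / ((2 * ν : ℕ) : ℝ))) ≤ 4 * k * ν := by
  have hν0 : (0 : ℝ) < ν := by exact_mod_cast hν
  have hk1 : (1 : ℝ) ≤ k := by exact_mod_cast hk
  have h1 : (2 : ℝ) / ((2 * ν : ℕ) : ℝ) = (ν : ℝ)⁻¹ := by
    push_cast
    field_simp
  rw [h1]
  have h2 : (((k * 2 ^ ν : ℕ) : ℝ) ^ ((ν : ℝ)⁻¹)) ≤ k * 2 := by
    push_cast
    rw [Real.mul_rpow (by positivity) (by positivity)]
    have h3 : ((2 : ℝ) ^ ν) ^ ((ν : ℝ)⁻¹) = 2 := by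
      rw [Real.pow_rpow_inv_natCast (by norm_num) (by omega)]
    rw [h3]
    apply mul_le_mul_of_nonneg_right _ (by norm_num)
    have h4 : (ν : ℝ)⁻¹ ≤ 1 := by
      rw [inv_le_one₀ hν0]
      exact_mod_cast hν
    calc (k : ℝ) ^ ((ν : ℝ)⁻¹) ≤ (k : ℝ) ^ (1 : ℝ) := Real.rpow_le_rpow_of_exponent_le hk1 h4
      _ = k := Real.rpow_one _
  have h5 : ((2 * ν : ℕ) : ℝ) - 1 ≤ 2 * ν := by push_cast; linarith
  have h6 : 0 ≤ ((2 * ν : ℕ) : ℝ) - 1 := by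
    push_cast
    have : (1 : ℝ) ≤ ν := by exact_mod_cast hν
    linarith
  calc _ ≤ (2 * (ν : ℝ)) * (k * 2) := mul_le_mul h5 h2 (by positivity) (by positivity)
    _ = 4 * k * ν := by ring

/-- The chain operator on shallow trees, numerically. -/
theorem chainD_tree_abs {d : ℕ} (hν : 1 ≤ ν) (T : DT (ZIdx (m + 2) ν)) (hd : T.depth ≤ d)
    (hd2 : (d : ℝ) ≤ (1 / (16 * ((m + 2 : ℕ) : ℝ) * 10 ^ 6)) *
      ((2 : ℝ) ^ ν) ^ (1 - 1 / ((m + 2 : ℕ) : ℝ)) / ν)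
    (z : ZIdx (m + 2) ν → ℝ) (hz : ∀ i, |z i| ≤ 1 / 2) :
    |chainD T.val z| ≤ 1 / 1000 := by
  have hν0 : (0 : ℝ) < ν := by exact_mod_cast hν
  set k' : ℝ := ((m + 2 : ℕ) : ℝ) with hk'
  have hk'0 : 0 < k' := by rw [hk']; positivity
  set N : ℝ := (2 : ℝ) ^ ν with hN
  have hN0 : 0 < N := by rw [hN]; positivity
  rw [chainD_eq_DOp]
  have h1 := DOp_tree_sq (n := m + 1) T d (2 * ν) hd (by omega) (even_two_mul ν) z hz
  have hcard : Fintype.card (Inst (m + 1) ν) = (m + 2) * 2 ^ ν := by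
    simp [Inst]
  rw [hcard] at h1
  have hK := K_bound (k := m + 2) (ν := ν) (by omega) hν
  set K : ℝ := (((2 * ν : ℕ) : ℝ) - 1) * (((((m + 2) * 2 ^ ν : ℕ) : ℝ)) ^ (2 / ((2 * ν : ℕ) : ℝ)))
    with hKdef
  have hK0 : 0 ≤ K := by
    rw [hKdef]
    apply mul_nonneg
    · push_cast
      have : (1 : ℝ) ≤ ν := by exact_mod_cast hν
      linarith
    · positivity
  set R : ℝ := N ^ (1 - 1 / k') with hR
  have hR0 : 0 ≤ R := by rw [hR]; positivity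
  have h2 : K * d ≤ 4 * k' * (1 / (16 * k' * 10 ^ 6)) * R := by
    have hd0 : (0 : ℝ) ≤ d := by positivity
    calc K * d ≤ (4 * k' * ν) * d := mul_le_mul_of_nonneg_right hK hd0
      _ ≤ (4 * k' * ν) * ((1 / (16 * k' * 10 ^ 6)) * R / ν) :=
          mul_le_mul_of_nonneg_left hd2 (by positivity)
      _ = _ := by field_simp
  have h3 : (K * d) ^ (m + 2) ≤ (4 * k' * (1 / (16 * k' * 10 ^ 6))) ^ (m + 2) * N ^ (m + 1) := by
    have h4 : R ^ (m + 2) = N ^ (m + 1) := by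
      rw [hR, ← Real.rpow_natCast, ← Real.rpow_mul hN0.le, ← Real.rpow_natCast N (m + 1)]
      congr 1
      rw [← hk']
      have : ((m + 1 : ℕ) : ℝ) = k' - 1 := by rw [hk']; push_cast; ring
      rw [this]
      field_simp
    calc (K * d) ^ (m + 2) ≤ (4 * k' * (1 / (16 * k' * 10 ^ 6)) * R) ^ (m + 2) :=
          pow_le_pow_left₀ (by positivity) h2 _
      _ = _ := by rw [mul_pow, h4]
  have h5 : (DOp T.val z) ^ 2 ≤ (1 / 1000) ^ 2 := by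
    have h6 : ((sizeR ν)⁻¹) ^ (m + 1) * (4 ^ (m + 1 + 1) * (K * d) ^ (m + 1 + 1)) ≤
        (1 / 1000) ^ 2 := by
      have hs : sizeR ν = N := rfl
      rw [hs]
      have hc : (4 : ℝ) * (4 * k' * (1 / (16 * k' * 10 ^ 6))) = 1 / 10 ^ 6 := by
        field_simp
        norm_num
      have h7 : (4 : ℝ) ^ (m + 1 + 1) * ((4 * k' * (1 / (16 * k' * 10 ^ 6))) ^ (m + 2) * N ^ (m + 1)) =
          (1 / 10 ^ 6) ^ (m + 2) * N ^ (m + 1) := by
        rw [← hc, mul_pow (4 : ℝ) (4 * k' * (1 / (16 * k' * 10 ^ 6))) (m + 2), ← mul_assoc]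
      have h8 : (N⁻¹) ^ (m + 1) * ((1 / 10 ^ 6) ^ (m + 2) * N ^ (m + 1)) = (1 / 10 ^ 6) ^ (m + 2) := by
        have : N ^ (m + 1) ≠ 0 := (pow_pos hN0 _).ne'
        rw [inv_pow]
        field_simp
      have h9 : ((1 : ℝ) / 10 ^ 6) ^ (m + 2) ≤ (1 / 1000) ^ 2 := by
        calc ((1 : ℝ) / 10 ^ 6) ^ (m + 2) ≤ ((1 : ℝ) / 10 ^ 6) ^ 1 :=
              pow_le_pow_of_le_one (by norm_num) (by norm_num) (by omega)
          _ = (1 / 1000) ^ 2 := by norm_num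
      calc (N⁻¹) ^ (m + 1) * (4 ^ (m + 1 + 1) * (K * d) ^ (m + 1 + 1))
          ≤ (N⁻¹) ^ (m + 1) * (4 ^ (m + 1 + 1) *
              ((4 * k' * (1 / (16 * k' * 10 ^ 6))) ^ (m + 2) * N ^ (m + 1))) := by
            apply mul_le_mul_of_nonneg_left _ (by positivity)
            exact mul_le_mul_of_nonneg_left h3 (by positivity)
        _ = (1 / 10 ^ 6) ^ (m + 2) := by rw [h7, h8]
        _ ≤ _ := h9
    exact h1.trans h6
  exact abs_le_of_sq_le_sq h5 (by norm_num)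

/-- Everything at fixed parameters. -/
theorem isHard_of_params (hν : 1 ≤ ν) {C₀ : ℝ} (hC₀ : C₀ = 32 * (((m + 2 : ℕ) : ℝ) + 6))
    (H : 4 * (1 + 6 * Aconst (m + 2)) * (C₀ * ν) ^ (2 * m + 2) * ((2 : ℝ) ^ ν)⁻¹ ≤ 1 / 100) :
    IsHard (m + 2) ν (thetaOf C₀ (m + 2) ν) (distD (Real.sqrt (1 / (C₀ * ν))))
      ⌊(1 / (16 * ((m + 2 : ℕ) : ℝ) * 10 ^ 6)) *
        ((2 : ℝ) ^ ν) ^ (1 - 1 / ((m + 2 : ℕ) : ℝ)) / ν⌋₊ := by
  have hν0 : (0 : ℝ) < ν := by exact_mod_cast hν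
  have hν1 : (1 : ℝ) ≤ ν := by exact_mod_cast hν
  have hC₀pos : 0 < C₀ := by rw [hC₀]; positivity
  have hC₀1 : 1 ≤ C₀ := by
    rw [hC₀]
    have : (0 : ℝ) ≤ ((m + 2 : ℕ) : ℝ) := by positivity
    linarith
  have hCν : 1 ≤ C₀ * ν := by nlinarith
  have hCν0 : 0 < C₀ * ν := by linarith
  set τ : ℝ := Real.sqrt (1 / (C₀ * ν)) with hτdef
  have hτ : 0 < τ := Real.sqrt_pos.mpr (by positivity)
  have hτsq : τ ^ 2 = 1 / (C₀ * ν) := Real.sq_sqrt (by positivity)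
  have hτ1 : τ ≤ 1 := by
    rw [hτdef, Real.sqrt_le_one, div_le_one hCν0]
    exact hCν
  have hμ : τ ^ (2 * m + 2) = (1 / (C₀ * ν)) ^ (m + 1) := by
    rw [← hτsq, ← pow_mul]
    rfl
  set μ : ℝ := τ ^ (2 * m + 2) with hμdef
  have hμ0 : 0 < μ := by rw [hμdef]; positivity
  have hμ1 : μ ≤ 1 := pow_le_one₀ hτ.le hτ1
  have hθ : thetaOf C₀ (m + 2) ν = μ / 2 := by
    unfold thetaOf
    rw [hμ]
    rfl
  have hμinv : 4 / μ ^ 2 = 4 * (C₀ * ν) ^ (2 * m + 2) := by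
    rw [hμ, one_div, inv_pow, inv_pow, ← pow_mul]
    have : (m + 1) * 2 = 2 * m + 2 := by ring
    rw [this]
    field_simp
  set Er : ℝ := gaussErr (m + 2) ν τ with hEr
  have hEr0 : 0 ≤ Er := by
    have h2 := Phi_phi_bound (m := m) (ν := ν) hτ hτ1 hτ.le le_rfl
    exact nonneg_of_mul_nonneg_right ((abs_nonneg _).trans h2) hτ
  have hErA : Er ≤ Aconst (m + 2) * ((2 : ℝ) ^ ν)⁻¹ := by
    apply gaussErr_le hν
    rw [hτsq, hC₀]
  have hNinv0 : 0 < ((2 : ℝ) ^ ν)⁻¹ := by positivity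
  have hA0 := Aconst_nonneg (m + 2)
  have hP1 : 1 ≤ (C₀ * ν) ^ (2 * m + 2) := one_le_pow₀ hCν
  refine ⟨fun x => distD_nonneg (by omega) hτ x, distD_sum hτ, ?_, ?_⟩
  · -- the tail
    rw [hθ]
    have h1 := tail_bound_D (m := m) (ν := ν) hτ hμ0 (by omega)
    have h2 := variance_bound (m := m) hν hτ hτ1
    rw [← hμdef, ← hEr] at h2
    have h3 : (1 - Ecut m ν τ) * μ ^ 2 ≤ Er := by
      have h4 := one_sub_Ecut_le (m := m) (ν := ν) hτ
      have hμ2 : μ ^ 2 ≤ 1 := pow_le_one₀ hμ0.le hμ1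
      by_cases hs : 0 ≤ 1 - Ecut m ν τ
      · calc (1 - Ecut m ν τ) * μ ^ 2 ≤ (1 - Ecut m ν τ) * 1 := mul_le_mul_of_nonneg_left hμ2 hs
          _ ≤ Er := by linarith
      · push Not at hs
        have : (1 - Ecut m ν τ) * μ ^ 2 ≤ 0 := mul_nonpos_of_nonpos_of_nonneg hs.le (sq_nonneg _)
        linarith
    have h5 : 4 * (μ * (τ * Er)) ≤ 4 * Er := by
      have : μ * (τ * Er) ≤ 1 * (1 * Er) :=
        mul_le_mul hμ1 (mul_le_mul_of_nonneg_right hτ1 hEr0) (by positivity) (by norm_num)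
      linarith
    have h6 : τ * Er ≤ Er := by nlinarith
    have h7 : ∑ x, distD τ x * ((phiF : (ZIdx (m + 2) ν → Bool) → ℝ) x - μ) ^ 2 ≤
        (1 + 6 * Aconst (m + 2)) * ((2 : ℝ) ^ ν)⁻¹ := by
      have hs : (sizeR ν)⁻¹ = ((2 : ℝ) ^ ν)⁻¹ := rfl
      rw [hs] at h2
      nlinarith
    have h8 := h1.trans (mul_le_mul_of_nonneg_left h7 (by positivity : 0 ≤ 4 / μ ^ 2))
    rw [hμinv] at h8
    refine h8.trans (le_trans (le_of_eq ?_) H)
    ring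
  · -- trees
    intro T hT
    have hd2 : ((⌊(1 / (16 * ((m + 2 : ℕ) : ℝ) * 10 ^ 6)) *
        ((2 : ℝ) ^ ν) ^ (1 - 1 / ((m + 2 : ℕ) : ℝ)) / ν⌋₊ : ℕ) : ℝ) ≤
        (1 / (16 * ((m + 2 : ℕ) : ℝ) * 10 ^ 6)) *
        ((2 : ℝ) ^ ν) ^ (1 - 1 / ((m + 2 : ℕ) : ℝ)) / ν := Nat.floor_le (by positivity)
    have h1 := tree_diff (m := m) (ν := ν) hτ hτ1 T.val (DT_val_abs T)
      (fun z hz => chainD_tree_abs hν T hT hd2 z hz)
    rw [← hμdef, ← hEr, ext_zero_eq] at h1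
    refine h1.trans ?_
    have h2 : 24 * Aconst (m + 2) * ((2 : ℝ) ^ ν)⁻¹ ≤ 1 / 100 := by
      have h3 : 4 * (1 + 6 * Aconst (m + 2)) * 1 * ((2 : ℝ) ^ ν)⁻¹ ≤
          4 * (1 + 6 * Aconst (m + 2)) * (C₀ * ν) ^ (2 * m + 2) * ((2 : ℝ) ^ ν)⁻¹ := by
        apply mul_le_mul_of_nonneg_right _ hNinv0.le
        exact mul_le_mul_of_nonneg_left hP1 (by positivity)
      nlinarith
    have h3 : τ * Er ≤ Er := by nlinarith
    have h4 : μ * (1 / 1000) ≤ 1 / 1000 := by nlinarith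
    nlinarith

/-- **Main theorem of the classical part.** Proof: `ε = 1/(C₀ν)`, `τ = √ε`, `D = distD τ`.
Trees: `level_bound` with `m = k`, `q = 2ν`, `a S = sign pattern of the path`.
Tail: Chebyshev with `DOp_phiF`, `DOp_phiSq`. -/
theorem exists_hard (k : ℕ) (hk : 2 ≤ k) :
    ∃ (C₀ c₀ : ℝ) (ν₀ : ℕ), 0 < C₀ ∧ 0 < c₀ ∧ ∀ ν, ν₀ ≤ ν →
      ∃ D, IsHard k ν (thetaOf C₀ k ν) D
        ⌊c₀ * ((2 : ℝ) ^ ν) ^ (1 - 1 / (k : ℝ)) / ν⌋₊ := by
  obtain ⟨m, rfl⟩ : ∃ m, k = m + 2 := ⟨k - 2, by omega⟩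
  set C₀ : ℝ := 32 * (((m + 2 : ℕ) : ℝ) + 6) with hC₀
  have hC₀pos : 0 < C₀ := by rw [hC₀]; positivity
  have hA0 := Aconst_nonneg (m + 2)
  set B : ℝ := 4 * (1 + 6 * Aconst (m + 2)) * C₀ ^ (2 * m + 2) with hB
  have hB0 : 0 < B := by rw [hB]; positivity
  have htend := tendsto_pow_const_div_const_pow_of_one_lt (2 * m + 2) (r := (2 : ℝ)) (by norm_num)
  have hev : ∀ᶠ ν : ℕ in Filter.atTop, ((ν : ℝ) ^ (2 * m + 2) / (2 : ℝ) ^ ν) < 1 / (100 * B) :=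
    htend.eventually (gt_mem_nhds (by positivity))
  obtain ⟨ν₁, hν₁⟩ := Filter.eventually_atTop.mp hev
  refine ⟨C₀, 1 / (16 * ((m + 2 : ℕ) : ℝ) * 10 ^ 6), max ν₁ 1, hC₀pos, by positivity, ?_⟩
  intro ν hν
  have hν1 : 1 ≤ ν := le_trans (le_max_right _ _) hν
  refine ⟨distD (Real.sqrt (1 / (C₀ * ν))), isHard_of_params hν1 hC₀ ?_⟩
  have h1 := (hν₁ ν (le_trans (le_max_left _ _) hν)).le
  have h2 : 4 * (1 + 6 * Aconst (m + 2)) * (C₀ * ν) ^ (2 * m + 2) * ((2 : ℝ) ^ ν)⁻¹ =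
      B * ((ν : ℝ) ^ (2 * m + 2) / (2 : ℝ) ^ ν) := by
    rw [hB, mul_pow, div_eq_mul_inv]
    ring
  rw [h2]
  calc B * ((ν : ℝ) ^ (2 * m + 2) / (2 : ℝ) ^ ν) ≤ B * (1 / (100 * B)) :=
        mul_le_mul_of_nonneg_left h1 hB0.le
    _ = 1 / 100 := by field_simp

end Crest.Agent.QuartSep
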