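-- Row 350 (S0554): the hybrid argument (blueprint 3d), abstract core. No reference to the function `F`:
-- only the shape of the input bits (flags, instance, cells per column) and two properties of `f`.
import Crest.Agent.Lib.QuartSep.Basic

set_option autoImplicit false

namespace Crest.Agent.QuartSep.LowerCore

open Finset BigOperators

/-- `0/1` value of a Boolean. -/
def ind (b : Bool) : ℝ := if b then 1 else 0

theorem ind_nonneg (b : Bool) : 0 ≤ ind b := by
  unfold ind; split <;> norm_num

theorem ind_le_one (b : Bool) : ind b ≤ 1 := by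
  unfold ind; split <;> norm_num

/-! ### Budgeted walks of a decision tree -/

section Walk

variable {L V : Type} [DecidableEq L] [DecidableEq V] (col : L → V)

set_option linter.unusedSectionVars false

/-- The path of `T` on `z` makes more than `b` reads in column `j`. -/
def reached (j : V) (z : L → Bool) : DT L → ℕ → Bool
  | .answer _, _ => false
  | .read i t₀ t₁, b =>
    if col i = j then
      match b with
      | 0 => true
      | b' + 1 => if z i then reached j z t₁ b' else reached j z t₀ b'
    else if z i then reached j z t₁ b else reached j z t₀ b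

/-- The bits of column `j` read by the path of `T` on `z` within the budget `b`. -/
def seen (j : V) (z : L → Bool) : DT L → ℕ → Finset L
  | .answer _, _ => ∅
  | .read i t₀ t₁, b =>
    if col i = j then
      match b with
      | 0 => ∅
      | b' + 1 => insert i (if z i then seen j z t₁ b' else seen j z t₀ b')
    else if z i then seen j z t₁ b else seen j z t₀ b

/-- **Agreement.** Two inputs agreeing outside column `j` and on the bits seen within budget have
the same walk; if the budget is not exceeded they have the same answer. -/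
theorem agree (j : V) (z z' : L → Bool) (T : DT L) (b : ℕ)
    (H : ∀ i, (col i ≠ j ∨ i ∈ seen col j z T b) → z i = z' i) :
    reached col j z' T b = reached col j z T b ∧ seen col j z' T b = seen col j z T b ∧
      (reached col j z T b = false → T.eval z' = T.eval z) := by
  induction T generalizing b with
  | answer c => simp [reached, seen, DT.eval]
  | read i t₀ t₁ ih₀ ih₁ =>
    by_cases hc : col i = j
    · cases b with
      | zero => simp [reached, seen, hc]
      | succ b' =>
        have hi : z i = z' i := by
          apply H; right; simp [seen, hc]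
        by_cases hzi : z i = true
        · have hzi' : z' i = true := by rw [← hi]; exact hzi
          have := ih₁ b' (by
            intro i' hi'
            apply H
            rcases hi' with h | h
            · exact Or.inl h
            · right; simp only [seen, hc, if_true, hzi]; exact mem_insert_of_mem h)
          obtain ⟨h1, h2, h3⟩ := this
          simp only [reached, seen, hc, if_true, hzi, hzi', DT.eval, h1, h2, true_and]
          exact h3
        · have hzi0 : z i = false := by simpa using hzi
          have hzi' : z' i = false := by rw [← hi]; exact hzi0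
          have := ih₀ b' (by
            intro i' hi'
            apply H
            rcases hi' with h | h
            · exact Or.inl h
            · right; simp only [seen, hc, if_true, hzi0]; simpa using mem_insert_of_mem h)
          obtain ⟨h1, h2, h3⟩ := this
          simp only [reached, seen, hc, if_true, hzi0, hzi', DT.eval, h1, h2, true_and,
            Bool.false_eq_true, if_false]
          exact h3
    · have hi : z i = z' i := H i (Or.inl hc)
      by_cases hzi : z i = true
      · have hzi' : z' i = true := by rw [← hi]; exact hzi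
        have := ih₁ b (by
          intro i' hi'
          apply H
          rcases hi' with h | h
          · exact Or.inl h
          · right; simp only [seen, hc, if_false, hzi]; simpa using h)
        simpa [reached, seen, hc, hzi, hzi', DT.eval] using this
      · have hzi0 : z i = false := by simpa using hzi
        have hzi' : z' i = false := by rw [← hi]; exact hzi0
        have := ih₀ b (by
          intro i' hi'
          apply H
          rcases hi' with h | h
          · exact Or.inl h
          · right; simp only [seen, hc, if_false, hzi0]; simpa using h)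
        simpa [reached, seen, hc, hzi0, hzi', DT.eval] using this

/-- At most `b` bits are seen within budget `b`. -/
theorem seen_card (j : V) (z : L → Bool) (T : DT L) (b : ℕ) :
    (seen col j z T b).card ≤ b := by
  induction T generalizing b with
  | answer c => simp [seen]
  | read i t₀ t₁ ih₀ ih₁ =>
    by_cases hc : col i = j
    · cases b with
      | zero => simp [seen, hc]
      | succ b' =>
        simp only [seen, hc, if_true]
        refine (card_insert_le _ _).trans ?_
        by_cases hzi : z i = true
        · simpa [hzi] using ih₁ b'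
        · simpa [hzi] using ih₀ b'
    · simp only [seen, hc, if_false]
      by_cases hzi : z i = true
      · simpa [hzi] using ih₁ b
      · simpa [hzi] using ih₀ b

/-- The read budget: a path pays `B j + 1` for each column `j` where the budget is exceeded. -/
theorem sum_reached_le [Fintype V] (z : L → Bool) (T : DT L) (B : V → ℕ) :
    ∑ j, (if reached col j z T (B j) then B j + 1 else 0) ≤ T.depth := by
  induction T generalizing B with
  | answer c => simp [reached]
  | read i t₀ t₁ ih₀ ih₁ =>
    set t := if z i then t₁ else t₀ with ht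
    have hdepth : t.depth + 1 ≤ (DT.read i t₀ t₁).depth := by
      simp only [DT.depth]
      by_cases hzi : z i = true <;> simp [ht, hzi]
    have hother : ∀ j b, col i ≠ j → reached col j z (.read i t₀ t₁) b = reached col j z t b := by
      intro j b hc
      by_cases hzi : z i = true <;> simp [reached, hc, hzi, ht]
    have hih : ∀ B' : V → ℕ, ∑ j, (if reached col j z t (B' j) then B' j + 1 else 0) ≤ t.depth := by
      intro B'
      by_cases hzi : z i = true
      · simpa [ht, hzi] using ih₁ B'
      · simpa [ht, hzi] using ih₀ B'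
    cases hB : B (col i) with
    | zero =>
      have : ∀ j, (if reached col j z (.read i t₀ t₁) (B j) then B j + 1 else 0) ≤
          (if reached col j z t (B j) then B j + 1 else 0) + (if j = col i then 1 else 0) := by
        intro j
        by_cases hj : j = col i
        · subst hj; simp [hB]; split <;> simp
        · rw [hother j _ (Ne.symm hj)]; simp [hj]
      calc _ ≤ ∑ j, ((if reached col j z t (B j) then B j + 1 else 0) + (if j = col i then 1 else 0)) :=
            sum_le_sum (fun j _ => this j)
        _ = (∑ j, (if reached col j z t (B j) then B j + 1 else 0)) + 1 := by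
            rw [sum_add_distrib]; simp
        _ ≤ t.depth + 1 := Nat.add_le_add_right (hih B) 1
        _ ≤ _ := hdepth
    | succ b' =>
      have hj0 : reached col (col i) z (.read i t₀ t₁) (b' + 1) = reached col (col i) z t b' := by
        by_cases hzi : z i = true <;> simp [reached, hzi, ht]
      have : ∀ j, (if reached col j z (.read i t₀ t₁) (B j) then B j + 1 else 0) ≤
          (if reached col j z t (Function.update B (col i) b' j)
            then Function.update B (col i) b' j + 1 else 0) + (if j = col i then 1 else 0) := by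
        intro j
        by_cases hj : j = col i
        · subst hj
          rw [hB, hj0]
          simp only [Function.update_self, if_true]
          split <;> omega
        · rw [hother j _ (Ne.symm hj)]
          simp [hj]
      calc _ ≤ ∑ j, ((if reached col j z t (Function.update B (col i) b' j)
                then Function.update B (col i) b' j + 1 else 0) + (if j = col i then 1 else 0)) :=
            sum_le_sum (fun j _ => this j)
        _ = (∑ j, (if reached col j z t (Function.update B (col i) b' j)
                then Function.update B (col i) b' j + 1 else 0)) + 1 := by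
            rw [sum_add_distrib]; simp
        _ ≤ t.depth + 1 := Nat.add_le_add_right (hih _) 1
        _ ≤ _ := hdepth

/-- Simulation of `T` on column `j0`, on a tree reading the instance bits only. It answers `true`
when the budget is exceeded or a `stop` bit is read. -/
def sim {I : Type} (j0 : V) (stop : L → Bool) (view : L → Bool ⊕ I) (zb : L → Bool) :
    DT L → ℕ → DT I
  | .answer _, _ => .answer false
  | .read i t₀ t₁, b =>
    if col i = j0 then
      match b with
      | 0 => .answer true
      | b' + 1 =>
        if stop i then .answer true else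
        match view i with
        | .inl v => if v then sim j0 stop view zb t₁ b' else sim j0 stop view zb t₀ b'
        | .inr x => .read x (sim j0 stop view zb t₀ b') (sim j0 stop view zb t₁ b')
    else if zb i then sim j0 stop view zb t₁ b else sim j0 stop view zb t₀ b

/-- The input simulated: column `j0` from `view` and `y`, the other columns from `zb`. -/
def starOf {I : Type} (j0 : V) (view : L → Bool ⊕ I) (zb : L → Bool) (y : I → Bool) : L → Bool :=
  fun i => if col i = j0 then
    (match view i with
     | .inl v => v
     | .inr x => y x)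
    else zb i

theorem sim_depth {I : Type} (j0 : V) (stop : L → Bool) (view : L → Bool ⊕ I) (zb : L → Bool)
    (T : DT L) (b : ℕ) : (sim col j0 stop view zb T b).depth ≤ b := by
  induction T generalizing b with
  | answer c => simp [sim, DT.depth]
  | read i t₀ t₁ ih₀ ih₁ =>
    by_cases hc : col i = j0
    · cases b with
      | zero => simp [sim, hc, DT.depth]
      | succ b' =>
        simp only [sim, hc, if_true]
        by_cases hs : stop i = true
        · simp [hs, DT.depth]
        · rw [if_neg hs]
          cases hv : view i with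
          | inl v =>
            by_cases hv' : v = true
            · simp only [hv', if_true]; exact (ih₁ b').trans (Nat.le_succ _)
            · simp only [hv', if_false]; exact (ih₀ b').trans (Nat.le_succ _)
          | inr x =>
            simp only [DT.depth]
            have := ih₀ b'
            have := ih₁ b'
            omega
    · simp only [sim, hc, if_false]
      by_cases hzi : zb i = true
      · simpa [hzi] using ih₁ b
      · simpa [hzi] using ih₀ b

theorem sim_eval {I : Type} (j0 : V) (stop : L → Bool) (view : L → Bool ⊕ I) (zb : L → Bool)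
    (y : I → Bool) (T : DT L) (b : ℕ) :
    (sim col j0 stop view zb T b).eval y = true ↔
      reached col j0 (starOf col j0 view zb y) T b = true ∨
        ∃ i ∈ seen col j0 (starOf col j0 view zb y) T b, stop i = true := by
  induction T generalizing b with
  | answer c => simp [sim, reached, seen, DT.eval]
  | read i t₀ t₁ ih₀ ih₁ =>
    by_cases hc : col i = j0
    · cases b with
      | zero => simp [sim, reached, seen, hc, DT.eval]
      | succ b' =>
        by_cases hs : stop i = true
        · simp only [sim, hc, if_true, hs, DT.eval, reached, seen, true_iff]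
          right
          exact ⟨i, mem_insert_self _ _, hs⟩
        · have hz : ∀ s : Finset L, (∃ i' ∈ insert i s, stop i' = true) ↔ ∃ i' ∈ s, stop i' = true := by
            intro s
            constructor
            · rintro ⟨i', hi', h⟩
              rcases mem_insert.mp hi' with rfl | h'
              · exact absurd h hs
              · exact ⟨i', h', h⟩
            · rintro ⟨i', hi', h⟩
              exact ⟨i', mem_insert_of_mem hi', h⟩
          have hs0 : stop i = false := by simpa using hs
          simp only [sim, hc, if_true, hs0, Bool.false_eq_true, if_false, reached, seen, hz]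
          have hstar : starOf col j0 view zb y i = (match view i with
              | .inl v => v
              | .inr x => y x) := by simp [starOf, hc]
          cases hv : view i with
          | inl v =>
            rw [hv] at hstar
            simp only at hstar
            by_cases hv' : v = true
            · simp only [hv', if_true, hstar]; exact ih₁ b'
            · have hv0 : v = false := by simpa using hv'
              simp only [hv0, Bool.false_eq_true, if_false, hstar]; exact ih₀ b'
          | inr x =>
            rw [hv] at hstar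
            simp only at hstar
            simp only [DT.eval, hstar]
            by_cases hy : y x = true
            · simp only [hy, if_true]; exact ih₁ b'
            · have hy0 : y x = false := by simpa using hy
              simp only [hy0, Bool.false_eq_true, if_false]; exact ih₀ b'
    · have hstar : starOf col j0 view zb y i = zb i := by simp [starOf, hc]
      simp only [sim, hc, if_false, reached, seen, hstar]
      by_cases hzi : zb i = true
      · simp only [hzi, if_true]; exact ih₁ b
      · have hzi0 : zb i = false := by simpa using hzi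
        simp only [hzi0, Bool.false_eq_true, if_false]; exact ih₀ b

end Walk

/-! ### The shape of the input -/

section Layout

variable {V I C : Type} [DecidableEq V] [DecidableEq I] [DecidableEq C]

set_option linter.unusedSectionVars false

/-- Input positions: `flag j t`, `inst j x`, `cell j s c`. -/
abbrev Lay (V I C : Type) : Type := (V × V) ⊕ (V × I) ⊕ (V × V × C)

/-- The column of a position. -/
def colOf : Lay V I C → V
  | .inl (j, _) => j
  | .inr (.inl (j, _)) => j
  | .inr (.inr (j, _, _)) => j

/-- The background: in every column one false flag, a fixed instance, all cells false. -/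
abbrev Env (V I : Type) : Type := V → V × (I → Bool)

/-- The background input. -/
def bgZ (ω : Env V I) : Lay V I C → Bool
  | .inl (j, t) => decide (t ≠ (ω j).1)
  | .inr (.inl (j, x)) => (ω j).2 x
  | .inr (.inr _) => false

/-- Column `j0` with all flags true, instance read from `y`, cells false. -/
def viewStar : Lay V I C → Bool ⊕ I
  | .inl _ => .inl true
  | .inr (.inl (_, x)) => .inr x
  | .inr (.inr _) => .inl false

/-- The bits of the cell number `s0` (of any column). -/
def stopCell (s0 : V) : Lay V I C → Bool
  | .inl _ => false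
  | .inr (.inl _) => false
  | .inr (.inr (_, s, _)) => decide (s = s0)

/-- The input with background columns and column `j0` clean. -/
def starZ (ω : Env V I) (j0 : V) (y : I → Bool) : Lay V I C → Bool :=
  starOf colOf j0 viewStar (bgZ ω) y

/-- The `1`-input: `starZ` with the cell `(j0, s0)` filled. -/
def realZ (ω : Env V I) (j0 s0 : V) (y : I → Bool) (cell : C → Bool) : Lay V I C → Bool
  | .inl p => starZ (C := C) ω j0 y (.inl p)
  | .inr (.inl p) => starZ (C := C) ω j0 y (.inr (.inl p))
  | .inr (.inr (j, s, c)) =>
    if j = j0 ∧ s = s0 then cell c else starZ (C := C) ω j0 y (.inr (.inr (j, s, c)))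

/-- The `0`-input: `realZ` with `flag j0 t0` false. -/
def real0Z (ω : Env V I) (j0 s0 : V) (y : I → Bool) (cell : C → Bool) (t0 : V) :
    Lay V I C → Bool
  | .inl (j, t) => if j = j0 ∧ t = t0 then false else realZ ω j0 s0 y cell (.inl (j, t))
  | .inr p => realZ ω j0 s0 y cell (.inr p)

/-- The simulating tree. -/
def rTree (T : DT (Lay V I C)) (d : ℕ) (ω : Env V I) (j0 s0 : V) : DT I :=
  sim colOf j0 (stopCell s0) viewStar (bgZ ω) T d

variable [Fintype V]

/-- Counting flags seen. -/
theorem sum_flag_seen_le (S : Finset (Lay V I C)) (j0 : V) :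
    (∑ t : V, (if (Sum.inl (j0, t) : Lay V I C) ∈ S then (1 : ℝ) else 0)) ≤ S.card := by
  classical
  have h1 : (∑ t : V, (if (Sum.inl (j0, t) : Lay V I C) ∈ S then (1 : ℝ) else 0)) =
      ((univ.filter (fun t : V => (Sum.inl (j0, t) : Lay V I C) ∈ S)).card : ℝ) := by
    rw [card_filter]; push_cast; exact sum_congr rfl (fun t _ => by split_ifs <;> rfl)
  rw [h1]
  have h2 : (univ.filter (fun t : V => (Sum.inl (j0, t) : Lay V I C) ∈ S)).card ≤ S.card := by
    apply card_le_card_of_injOn (fun t : V => (Sum.inl (j0, t) : Lay V I C))
    · intro t ht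
      simpa using ht
    · intro a _ b _ hab
      simpa using hab
  exact_mod_cast h2

/-- Counting cells seen. -/
theorem sum_cell_seen_le (S : Finset (Lay V I C)) :
    (∑ s0 : V, (if ∃ i ∈ S, stopCell s0 i = true then (1 : ℝ) else 0)) ≤ S.card := by
  classical
  have h1 : (∑ s0 : V, (if ∃ i ∈ S, stopCell s0 i = true then (1 : ℝ) else 0)) =
      ((univ.filter (fun s0 : V => ∃ i ∈ S, stopCell s0 i = true)).card : ℝ) := by
    rw [card_filter]; push_cast; exact sum_congr rfl (fun t _ => by split_ifs <;> rfl)
  rw [h1]
  let g : Lay V I C → Option V := fun i =>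
    match i with
    | .inl _ => none
    | .inr (.inl _) => none
    | .inr (.inr (_, s, _)) => some s
  have h2 : (univ.filter (fun s0 : V => ∃ i ∈ S, stopCell s0 i = true)).card ≤ (S.image g).card := by
    apply card_le_card_of_injOn (fun s0 : V => some s0)
    · intro s0 hs0
      have hs0' : ∃ i ∈ S, stopCell s0 i = true := by simpa using hs0
      obtain ⟨i, hi, hstop⟩ := hs0'
      rcases i with p | p | ⟨j, s, c⟩
      · simp [stopCell] at hstop
      · simp [stopCell] at hstop
      · simp only [stopCell, decide_eq_true_eq] at hstop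
        subst hstop
        simp only [coe_image, Set.mem_image, mem_coe]
        exact ⟨_, hi, rfl⟩
    · intro a _ b _ hab
      simpa using hab
  exact_mod_cast h2.trans card_image_le

/-- Step 1: the flag `t0` is rarely read. -/
theorem step_flag (T : DT (Lay V I C)) (d : ℕ) (ω : Env V I) (j0 s0 : V) (y : I → Bool)
    (cell : C → Bool) :
    (Fintype.card V : ℝ) * ind (T.eval (realZ ω j0 s0 y cell)) -
        ∑ t0 : V, ind (T.eval (real0Z ω j0 s0 y cell t0)) ≤
      (Fintype.card V : ℝ) * ind (reached colOf j0 (realZ ω j0 s0 y cell) T d) + d := by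
  classical
  set z := realZ ω j0 s0 y cell with hz
  set S := seen colOf j0 z T d with hS
  have hpt : ∀ t0 : V, ind (T.eval z) - ind (T.eval (real0Z ω j0 s0 y cell t0)) ≤
      ind (reached colOf j0 z T d) + (if (Sum.inl (j0, t0) : Lay V I C) ∈ S then (1 : ℝ) else 0) := by
    intro t0
    by_cases hr : reached colOf j0 z T d = true
    · have h1 := ind_le_one (T.eval z)
      have h2 := ind_nonneg (T.eval (real0Z ω j0 s0 y cell t0))
      have h3 : ind (reached colOf j0 z T d) = 1 := by simp [ind, hr]
      rw [h3]
      split <;> linarith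
    · by_cases hmem : (Sum.inl (j0, t0) : Lay V I C) ∈ S
      · have h1 := ind_le_one (T.eval z)
        have h2 := ind_nonneg (T.eval (real0Z ω j0 s0 y cell t0))
        have h3 := ind_nonneg (reached colOf j0 z T d)
        rw [if_pos hmem]
        linarith
      · have hr' : reached colOf j0 z T d = false := by simpa using hr
        have hag := agree colOf j0 z (real0Z ω j0 s0 y cell t0) T d (by
          intro i hi
          rcases i with ⟨j, t⟩ | p
          · by_cases hjt : j = j0 ∧ t = t0
            · obtain ⟨rfl, rfl⟩ := hjt
              rcases hi with hi | hi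
              · exact absurd rfl hi
              · exact absurd hi hmem
            · simp [real0Z, hjt, hz]
          · simp [real0Z, hz])
        have := hag.2.2 hr'
        rw [this, if_neg hmem]
        have h3 := ind_nonneg (reached colOf j0 z T d)
        linarith
  have hsum := sum_le_sum (fun t0 (_ : t0 ∈ (univ : Finset V)) => hpt t0)
  rw [sum_sub_distrib, sum_const, sum_add_distrib, sum_const, card_univ, nsmul_eq_mul,
    nsmul_eq_mul] at hsum
  have hc : (∑ t : V, (if (Sum.inl (j0, t) : Lay V I C) ∈ S then (1 : ℝ) else 0)) ≤ d := by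
    refine (sum_flag_seen_le S j0).trans ?_
    exact_mod_cast seen_card colOf j0 z T d
  linarith

/-- Step 2: the real walk is controlled by the simulating tree. -/
theorem step_sim (T : DT (Lay V I C)) (d : ℕ) (ω : Env V I) (j0 s0 : V) (y : I → Bool)
    (cell : C → Bool) :
    ind (reached colOf j0 (realZ ω j0 s0 y cell) T d) ≤ ind ((rTree T d ω j0 s0).eval y) := by
  by_cases hR : (rTree T d ω j0 s0).eval y = true
  · have h1 := ind_le_one (reached colOf j0 (realZ ω j0 s0 y cell) T d)
    have h2 : ind ((rTree T d ω j0 s0).eval y) = 1 := by simp [ind, hR]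
    rw [h2]; exact h1
  · have hsim := sim_eval colOf j0 (stopCell s0) viewStar (bgZ ω) y T d
    have hR' : ¬ (reached colOf j0 (starZ ω j0 y) T d = true ∨
        ∃ i ∈ seen colOf j0 (starZ ω j0 y) T d, stopCell s0 i = true) := by
      intro h
      exact hR ((hsim.2 h))
    push Not at hR'
    have hag := agree colOf j0 (starZ ω j0 y) (realZ ω j0 s0 y cell) T d (by
      intro i hi
      rcases i with p | p | ⟨j, s, c⟩
      · rfl
      · rfl
      · by_cases hjs : j = j0 ∧ s = s0
        · obtain ⟨rfl, rfl⟩ := hjs
          rcases hi with hi | hi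
          · exact absurd rfl hi
          · have := hR'.2 _ hi
            simp [stopCell] at this
        · show _ = if j = j0 ∧ s = s0 then _ else _
          rw [if_neg hjs])
    have h0 : reached colOf j0 (realZ ω j0 s0 y cell) T d = false := by
      rw [hag.1]; simpa using hR'.1
    have h3 : ind (reached colOf j0 (realZ ω j0 s0 y cell) T d) = 0 := by simp [ind, h0]
    rw [h3]; exact ind_nonneg _

/-- Step 3: averaging over the cell. -/
theorem step_cell (T : DT (Lay V I C)) (d : ℕ) (ω : Env V I) (j0 : V) (y : I → Bool) :
    ∑ s0 : V, ind ((rTree T d ω j0 s0).eval y) ≤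
      (Fintype.card V : ℝ) * ind (reached colOf j0 (starZ ω j0 y) T d) + d := by
  classical
  set S := seen colOf j0 (starZ ω j0 y) T d with hS
  have hpt : ∀ s0 : V, ind ((rTree T d ω j0 s0).eval y) ≤
      ind (reached colOf j0 (starZ ω j0 y) T d) +
        (if ∃ i ∈ S, stopCell s0 i = true then (1 : ℝ) else 0) := by
    intro s0
    by_cases hR : (rTree T d ω j0 s0).eval y = true
    · have hsim := (sim_eval colOf j0 (stopCell s0) viewStar (bgZ ω) y T d).1 hR
      have h1 : ind ((rTree T d ω j0 s0).eval y) = 1 := by simp [ind, hR]
      rw [h1]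
      rcases hsim with h | h
      · have h2 : ind (reached colOf j0 (starZ ω j0 y) T d) = 1 := by
          have : reached colOf j0 (starZ ω j0 y) T d = true := h
          simp [ind, this]
        rw [h2]
        split <;> norm_num
      · have h' : ∃ i ∈ S, stopCell s0 i = true := h
        rw [if_pos h']
        have := ind_nonneg (reached colOf j0 (starZ ω j0 y) T d)
        linarith
    · have h1 : ind ((rTree T d ω j0 s0).eval y) = 0 := by simp [ind, hR]
      rw [h1]
      have := ind_nonneg (reached colOf j0 (starZ ω j0 y) T d)
      split <;> linarith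
  have hsum := sum_le_sum (fun s0 (_ : s0 ∈ (univ : Finset V)) => hpt s0)
  rw [sum_add_distrib, sum_const, card_univ, nsmul_eq_mul] at hsum
  have hc : (∑ s0 : V, (if ∃ i ∈ S, stopCell s0 i = true then (1 : ℝ) else 0)) ≤ d := by
    refine (sum_cell_seen_le S).trans ?_
    exact_mod_cast seen_card colOf j0 (starZ ω j0 y) T d
  linarith

/-- Step 4: from the clean column to a background column with a fresh false flag. -/
theorem step_fresh (T : DT (Lay V I C)) (d : ℕ) (ω : Env V I) (j0 : V) (y : I → Bool) :
    (Fintype.card V : ℝ) * ind (reached colOf j0 (starZ ω j0 y) T d) ≤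
      ∑ t : V, ind (reached colOf j0 (bgZ (Function.update ω j0 (t, y))) T d) + d := by
  classical
  set S := seen colOf j0 (starZ (C := C) ω j0 y) T d with hS
  have hpt : ∀ t : V, ind (reached colOf j0 (starZ ω j0 y) T d) ≤
      ind (reached colOf j0 (bgZ (Function.update ω j0 (t, y))) T d) +
        (if (Sum.inl (j0, t) : Lay V I C) ∈ S then (1 : ℝ) else 0) := by
    intro t
    by_cases hmem : (Sum.inl (j0, t) : Lay V I C) ∈ S
    · rw [if_pos hmem]
      have h1 := ind_le_one (reached colOf j0 (starZ ω j0 y) T d)
      have h2 := ind_nonneg (reached colOf j0 (bgZ (C := C) (Function.update ω j0 (t, y))) T d)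
      linarith
    · rw [if_neg hmem, add_zero]
      have hag := agree colOf j0 (starZ (C := C) ω j0 y)
        (bgZ (Function.update ω j0 (t, y))) T d (by
        intro i hi
        rcases i with ⟨j, t'⟩ | ⟨j, x⟩ | ⟨j, s, c⟩
        · by_cases hj : j = j0
          · subst hj
            have ht : t' ≠ t := by
              rintro rfl
              rcases hi with hi | hi
              · exact absurd rfl hi
              · exact hmem hi
            simp [starZ, starOf, colOf, viewStar, bgZ, ht]
          · simp [starZ, starOf, colOf, bgZ, hj]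
        · by_cases hj : j = j0
          · subst hj
            simp [starZ, starOf, colOf, viewStar, bgZ]
          · simp [starZ, starOf, colOf, bgZ, hj]
        · by_cases hj : j = j0
          · subst hj
            simp [starZ, starOf, colOf, viewStar, bgZ]
          · simp [starZ, starOf, colOf, bgZ, hj])
      rw [hag.1]
  have hsum := sum_le_sum (fun t (_ : t ∈ (univ : Finset V)) => hpt t)
  rw [sum_const, sum_add_distrib, card_univ, nsmul_eq_mul] at hsum
  have hc : (∑ t : V, (if (Sum.inl (j0, t) : Lay V I C) ∈ S then (1 : ℝ) else 0)) ≤ d := by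
    refine (sum_flag_seen_le S j0).trans ?_
    exact_mod_cast seen_card colOf j0 (starZ ω j0 y) T d
  linarith

/-- Resampling one coordinate of the environment. -/
theorem sum_update [Fintype I] (j0 : V) (h : Env V I → ℝ) :
    ∑ ω : Env V I, ∑ x : V × (I → Bool), h (Function.update ω j0 x) =
      ((Fintype.card V : ℝ) * (Fintype.card (I → Bool) : ℝ)) * ∑ ω : Env V I, h ω := by
  classical
  let inv : Env V I × (V × (I → Bool)) → Env V I × (V × (I → Bool)) :=
    fun p => (Function.update p.1 j0 p.2, p.1 j0)
  have hinv : Function.Involutive inv := by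
    intro p
    rcases p with ⟨ω, x⟩
    simp [inv]
  calc ∑ ω : Env V I, ∑ x : V × (I → Bool), h (Function.update ω j0 x)
      = ∑ p : Env V I × (V × (I → Bool)), h (Function.update p.1 j0 p.2) := by
        rw [Fintype.sum_prod_type]
    _ = ∑ p : Env V I × (V × (I → Bool)), h p.1 := by
        exact (Equiv.sum_comp hinv.toPerm (fun p => h p.1))
    _ = ∑ ω : Env V I, ∑ _x : V × (I → Bool), h ω := by
        rw [Fintype.sum_prod_type]
    _ = _ := by
        simp only [sum_const, card_univ, nsmul_eq_mul, Fintype.card_prod]
        rw [← mul_sum]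
        push_cast
        ring

/-- The read budget in the background. -/
theorem sum_bg_reached (T : DT (Lay V I C)) (d r : ℕ) (hT : T.depth ≤ r) (ω : Env V I) :
    ((d : ℝ) + 1) * ∑ j0 : V, ind (reached colOf j0 (bgZ ω) T d) ≤ r := by
  have h := sum_reached_le colOf (bgZ ω) T (fun _ : V => d)
  have h' : ∑ j, (if reached colOf j (bgZ ω) T d then d + 1 else 0) ≤ r := h.trans hT
  have h'' : ((∑ j, (if reached colOf j (bgZ ω) T d then d + 1 else 0) : ℕ) : ℝ) ≤ r := by
    exact_mod_cast h'
  refine le_trans (le_of_eq ?_) h''
  rw [mul_sum]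
  push_cast
  refine sum_congr rfl (fun j _ => ?_)
  by_cases hr : reached colOf j (bgZ ω) T d = true <;> simp [ind, hr]

section Main

variable [Fintype I] [Nonempty V]

/-- The difference statistic of a tree at one environment. -/
noncomputable def gapAt (T : DT (Lay V I C)) (cellF : (I → Bool) → (V → V) → C → Bool)
    (ω : Env V I) (j0 s0 : V) (y : I → Bool) : ℝ :=
  (Fintype.card V : ℝ) * ind (T.eval (realZ ω j0 s0 y (cellF y (fun j => (ω j).1)))) -
    ∑ t0 : V, ind (T.eval (real0Z ω j0 s0 y (cellF y (fun j => (ω j).1)) t0))

/-- Level A. -/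
theorem levelA (T : DT (Lay V I C)) (cellF : (I → Bool) → (V → V) → C → Bool) (d : ℕ)
    (D : (I → Bool) → ℝ) (hDn : ∀ y, 0 ≤ D y) (hD1 : ∑ y, D y = 1) (ω : Env V I) (j0 s0 : V) :
    ∑ y, D y * gapAt T cellF ω j0 s0 y ≤
      (Fintype.card V : ℝ) * ∑ y, D y * ind ((rTree T d ω j0 s0).eval y) + d := by
  have hpt : ∀ y, D y * gapAt T cellF ω j0 s0 y ≤
      (Fintype.card V : ℝ) * (D y * ind ((rTree T d ω j0 s0).eval y)) + d * D y := by
    intro y
    have h1 := step_flag T d ω j0 s0 y (cellF y (fun j => (ω j).1))
    have h2 := step_sim T d ω j0 s0 y (cellF y (fun j => (ω j).1))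
    have hN : (0 : ℝ) ≤ Fintype.card V := by positivity
    have h3 : gapAt T cellF ω j0 s0 y ≤
        (Fintype.card V : ℝ) * ind ((rTree T d ω j0 s0).eval y) + d := by
      unfold gapAt
      have := mul_le_mul_of_nonneg_left h2 hN
      linarith
    have := mul_le_mul_of_nonneg_left h3 (hDn y)
    nlinarith
  refine (sum_le_sum (fun y _ => hpt y)).trans (le_of_eq ?_)
  rw [sum_add_distrib, ← mul_sum, ← mul_sum, hD1, mul_one]

/-- Level B. -/
theorem levelB (T : DT (Lay V I C)) (d : ℕ) (δ : ℝ) (ω : Env V I) (j0 : V) :
    ∑ s0 : V, ((Fintype.card V : ℝ) *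
        ((∑ y, ind ((rTree T d ω j0 s0).eval y)) / (Fintype.card (I → Bool) : ℝ) + δ) + d) ≤
      (Fintype.card V : ℝ) / (Fintype.card (I → Bool) : ℝ) *
        (∑ y : I → Bool, ∑ t : V, ind (reached colOf j0 (bgZ (Function.update ω j0 (t, y))) T d))
        + 3 * (Fintype.card V : ℝ) * d + (Fintype.card V : ℝ) ^ 2 * δ := by
  set N : ℝ := (Fintype.card V : ℝ) with hNdef
  set Y : ℝ := (Fintype.card (I → Bool) : ℝ) with hYdef
  have hN : 0 < N := by rw [hNdef]; exact_mod_cast Fintype.card_pos
  have hY : 0 < Y := by rw [hYdef]; exact_mod_cast Fintype.card_pos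
  have hcards : (∑ _s0 : V, (1 : ℝ)) = N := by simp [hNdef]
  have hcardy : (∑ _y : I → Bool, (1 : ℝ)) = Y := by simp [hYdef]
  -- rewrite the left side
  have hL : ∑ s0 : V, (N * ((∑ y, ind ((rTree T d ω j0 s0).eval y)) / Y + δ) + d) =
      N / Y * ∑ y : I → Bool, ∑ s0 : V, ind ((rTree T d ω j0 s0).eval y) + N ^ 2 * δ + N * d := by
    have : ∀ s0 : V, N * ((∑ y, ind ((rTree T d ω j0 s0).eval y)) / Y + δ) + d =
        N / Y * (∑ y, ind ((rTree T d ω j0 s0).eval y)) + (N * δ + d) := by
      intro s0; field_simp; ring
    rw [sum_congr rfl (fun s0 _ => this s0), sum_add_distrib, ← mul_sum, sum_comm, sum_const,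
      card_univ, nsmul_eq_mul, ← hNdef]
    ring
  rw [hL]
  -- the cell step
  have h1 : ∑ y : I → Bool, ∑ s0 : V, ind ((rTree T d ω j0 s0).eval y) ≤
      N * ∑ y : I → Bool, ind (reached colOf j0 (starZ ω j0 y) T d) + Y * d := by
    have := sum_le_sum (fun y (_ : y ∈ (univ : Finset (I → Bool))) => step_cell T d ω j0 y)
    refine this.trans (le_of_eq ?_)
    rw [sum_add_distrib, ← mul_sum, sum_const, card_univ, nsmul_eq_mul]
  -- the fresh step
  have h2 : N * ∑ y : I → Bool, ind (reached colOf j0 (starZ (C := C) ω j0 y) T d) ≤
      (∑ y : I → Bool, ∑ t : V, ind (reached colOf j0 (bgZ (C := C)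
        (Function.update ω j0 (t, y))) T d)) + Y * d := by
    rw [mul_sum]
    have := sum_le_sum (fun y (_ : y ∈ (univ : Finset (I → Bool))) => step_fresh (C := C) T d ω j0 y)
    refine this.trans (le_of_eq ?_)
    rw [sum_add_distrib, sum_const, card_univ, nsmul_eq_mul]
  have hNY : 0 ≤ N / Y := by positivity
  have h3 := mul_le_mul_of_nonneg_left h1 hNY
  have h4 := mul_le_mul_of_nonneg_left h2 hNY
  have e1 : N / Y * (Y * (d : ℝ)) = N * d := by field_simp
  rw [mul_add, e1] at h3
  rw [mul_add, e1] at h4
  nlinarith [h3, h4]

/-- Everything together for one tree. -/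
theorem core_bound (T : DT (Lay V I C)) (r : ℕ) (hT : T.depth ≤ r)
    (cellF : (I → Bool) → (V → V) → C → Bool) (d : ℕ) (δ : ℝ) (D : V → (I → Bool) → ℝ)
    (hDn : ∀ s y, 0 ≤ D s y) (hD1 : ∀ s, ∑ y, D s y = 1)
    (hDt : ∀ (s : V) (R : DT I), R.depth ≤ d →
      ∑ y, D s y * ind (R.eval y) ≤ (∑ y, ind (R.eval y)) / (Fintype.card (I → Bool) : ℝ) + δ) :
    ∑ j0 : V, ∑ ω : Env V I, ∑ s0 : V, ∑ y, D s0 y * gapAt T cellF ω j0 s0 y ≤
      (Fintype.card V : ℝ) ^ 2 * (Fintype.card (Env V I) : ℝ) *
        ((r : ℝ) / ((d : ℝ) + 1) + 3 * d + (Fintype.card V : ℝ) * δ) := by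
  set N : ℝ := (Fintype.card V : ℝ) with hNdef
  set Y : ℝ := (Fintype.card (I → Bool) : ℝ) with hYdef
  set W : ℝ := (Fintype.card (Env V I) : ℝ) with hWdef
  have hN : 0 < N := by rw [hNdef]; exact_mod_cast Fintype.card_pos
  have hY : 0 < Y := by rw [hYdef]; exact_mod_cast Fintype.card_pos
  have hW : 0 < W := by
    rw [hWdef]
    have : Nonempty (Env V I) := ⟨fun _ => (Classical.arbitrary V, fun _ => false)⟩
    exact_mod_cast Fintype.card_pos
  -- inner bound at fixed `(j0, ω)`
  have hinner : ∀ (j0 : V) (ω : Env V I), ∑ s0 : V, ∑ y, D s0 y * gapAt T cellF ω j0 s0 y ≤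
      N / Y * (∑ y : I → Bool, ∑ t : V,
        ind (reached colOf j0 (bgZ (C := C) (Function.update ω j0 (t, y))) T d))
        + 3 * N * d + N ^ 2 * δ := by
    intro j0 ω
    refine le_trans (sum_le_sum (fun s0 _ => ?_)) (levelB T d δ ω j0)
    refine (levelA T cellF d (D s0) (hDn s0) (hD1 s0) ω j0 s0).trans ?_
    have := hDt s0 (rTree T d ω j0 s0) (sim_depth _ _ _ _ _ _ _)
    have := mul_le_mul_of_nonneg_left this hN.le
    linarith
  -- summing over the environment
  have hres : ∀ j0 : V, ∑ ω : Env V I, ∑ y : I → Bool, ∑ t : V,
        ind (reached colOf j0 (bgZ (C := C) (Function.update ω j0 (t, y))) T d) =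
      N * Y * ∑ ω : Env V I, ind (reached colOf j0 (bgZ (C := C) ω) T d) := by
    intro j0
    have := sum_update (V := V) (I := I) j0
      (fun ω => ind (reached colOf j0 (bgZ (C := C) ω) T d))
    rw [← hNdef, ← hYdef] at this
    rw [← this]
    refine sum_congr rfl (fun ω _ => ?_)
    rw [Fintype.sum_prod_type, sum_comm]
  have hj0 : ∀ j0 : V, ∑ ω : Env V I, ∑ s0 : V, ∑ y, D s0 y * gapAt T cellF ω j0 s0 y ≤
      N ^ 2 * (∑ ω : Env V I, ind (reached colOf j0 (bgZ (C := C) ω) T d)) +
        W * (3 * N * d + N ^ 2 * δ) := by
    intro j0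
    refine (sum_le_sum (fun ω _ => hinner j0 ω)).trans (le_of_eq ?_)
    have e : ∀ ω : Env V I, N / Y * (∑ y : I → Bool, ∑ t : V,
        ind (reached colOf j0 (bgZ (C := C) (Function.update ω j0 (t, y))) T d))
        + 3 * N * d + N ^ 2 * δ = N / Y * (∑ y : I → Bool, ∑ t : V,
        ind (reached colOf j0 (bgZ (C := C) (Function.update ω j0 (t, y))) T d))
        + (3 * N * d + N ^ 2 * δ) := by intro ω; ring
    rw [sum_congr rfl (fun ω _ => e ω), sum_add_distrib, ← mul_sum, hres j0, sum_const, card_univ,
      nsmul_eq_mul, ← hWdef]
    field_simp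
  refine (sum_le_sum (fun j0 _ => hj0 j0)).trans ?_
  rw [sum_add_distrib, ← mul_sum, sum_comm, sum_const, card_univ, nsmul_eq_mul, ← hNdef]
  -- the read budget
  have hd1 : (0 : ℝ) < (d : ℝ) + 1 := by positivity
  have hbudget : ∑ ω : Env V I, ∑ j0 : V, ind (reached colOf j0 (bgZ (C := C) ω) T d) ≤
      W * ((r : ℝ) / ((d : ℝ) + 1)) := by
    have : ∀ ω : Env V I, ∑ j0 : V, ind (reached colOf j0 (bgZ (C := C) ω) T d) ≤
        (r : ℝ) / ((d : ℝ) + 1) := by
      intro ω
      rw [le_div_iff₀ hd1]
      have := sum_bg_reached T d r hT ω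
      linarith
    refine (sum_le_sum (fun ω _ => this ω)).trans (le_of_eq ?_)
    rw [sum_const, card_univ, nsmul_eq_mul]
  have := mul_le_mul_of_nonneg_left hbudget (sq_nonneg N)
  calc _ ≤ N ^ 2 * (W * ((r : ℝ) / ((d : ℝ) + 1))) + N * (W * (3 * N * d + N ^ 2 * δ)) := by
        linarith
    _ = _ := by ring

/-- **The hybrid argument.** -/
theorem hybrid (f : (Lay V I C → Bool) → Bool) (cellF : (I → Bool) → (V → V) → C → Bool)
    (Eset : V → (I → Bool) → Prop)
    (hf1 : ∀ (z : Lay V I C → Bool) (j s : V) (list : V → V),
      (∀ t, z (.inl (j, t)) = true) →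
      (∀ c, z (.inr (.inr (j, s, c))) = cellF (fun x => z (.inr (.inl (j, x)))) list c) →
      (∀ j', j' ≠ j → z (.inl (j', list j')) = false) →
      Eset s (fun x => z (.inr (.inl (j, x)))) → f z = true)
    (hf0 : ∀ z : Lay V I C → Bool, (∀ j, ∃ t, z (.inl (j, t)) = false) → f z = false)
    (d : ℕ) (D : V → (I → Bool) → ℝ)
    (hDn : ∀ s y, 0 ≤ D s y) (hD1 : ∀ s, ∑ y, D s y = 1)
    (hDsupp : ∀ s y, D s y ≠ 0 → Eset s y)
    (hDt : ∀ (s : V) (R : DT I), R.depth ≤ d →
      ∑ y, D s y * ind (R.eval y) ≤
        (∑ y, ind (R.eval y)) / (Fintype.card (I → Bool) : ℝ) + 1 / 50)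
    (hd : 100 * d ≤ Fintype.card V)
    (n : ℕ) (p : Fin n → ℝ) (T : Fin n → DT (Lay V I C)) (r : ℕ)
    (hp : ∀ i, 0 ≤ p i) (hp1 : ∑ i, p i = 1) (hT : ∀ i, (T i).depth ≤ r)
    (hcorrect : ∀ z, 2 / 3 ≤ ∑ i, if (T i).eval z = f z then p i else 0) :
    (d : ℝ) * (Fintype.card V : ℝ) / 4 ≤ r := by
  set N : ℝ := (Fintype.card V : ℝ) with hNdef
  set W : ℝ := (Fintype.card (Env V I) : ℝ) with hWdef
  have hN : 0 < N := by rw [hNdef]; exact_mod_cast Fintype.card_pos
  have hW : 0 < W := by
    rw [hWdef]
    have : Nonempty (Env V I) := ⟨fun _ => (Classical.arbitrary V, fun _ => false)⟩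
    exact_mod_cast Fintype.card_pos
  have hbound := fun i => core_bound (T i) r (hT i) cellF d (1 / 50) D hDn hD1 hDt
  -- the average over the trees of the statistic
  have hgap : ∀ (ω : Env V I) (j0 s0 : V) (y : I → Bool), Eset s0 y →
      N / 3 ≤ ∑ i, p i * gapAt (T i) cellF ω j0 s0 y := by
    intro ω j0 s0 y hE
    set list : V → V := fun j => (ω j).1 with hlist
    set cell := cellF y list with hcell
    set z := realZ ω j0 s0 y cell with hz
    have hinst : (fun x => z (.inr (.inl (j0, x)))) = y := by
      funext x
      simp [hz, realZ, starZ, starOf, colOf, viewStar]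
    have hone : f z = true := by
      apply hf1 z j0 s0 list
      · intro t
        simp [hz, realZ, starZ, starOf, colOf, viewStar]
      · intro c
        rw [hinst]
        simp [hz, realZ, hcell]
      · intro j' hj'
        simp [hz, realZ, starZ, starOf, colOf, bgZ, hj', hlist]
      · rw [hinst]; exact hE
    have hone' : 2 / 3 ≤ ∑ i, p i * ind ((T i).eval z) := by
      refine (hcorrect z).trans (le_of_eq ?_)
      refine sum_congr rfl (fun i _ => ?_)
      rw [hone]
      by_cases h : (T i).eval z = true <;> simp [ind, h]
    have hzero : ∀ t0 : V, ∑ i, p i * ind ((T i).eval (real0Z ω j0 s0 y cell t0)) ≤ 1 / 3 := by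
      intro t0
      set z0 := real0Z ω j0 s0 y cell t0 with hz0
      have hf : f z0 = false := by
        apply hf0
        intro j
        by_cases hj : j = j0
        · subst hj
          exact ⟨t0, by simp [hz0, real0Z]⟩
        · refine ⟨(ω j).1, ?_⟩
          simp [hz0, real0Z, hj, realZ, starZ, starOf, colOf, bgZ]
      have h1 := hcorrect z0
      rw [hf] at h1
      have h2 : ∑ i, p i * ind ((T i).eval z0) =
          ∑ i, p i - ∑ i, if (T i).eval z0 = false then p i else 0 := by
        rw [← sum_sub_distrib]
        refine sum_congr rfl (fun i _ => ?_)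
        by_cases h : (T i).eval z0 = true <;> simp [ind, h]
      rw [h2, hp1]
      linarith
    have hexp : ∑ i, p i * gapAt (T i) cellF ω j0 s0 y =
        N * (∑ i, p i * ind ((T i).eval z)) -
          ∑ t0 : V, ∑ i, p i * ind ((T i).eval (real0Z ω j0 s0 y cell t0)) := by
      rw [mul_sum, sum_comm, ← sum_sub_distrib]
      refine sum_congr rfl (fun i _ => ?_)
      simp only [gapAt, mul_sub, mul_sum]
      rw [← hlist, ← hcell, ← hz]
      have hcast : (Fintype.card V : ℝ) = N := rfl
      rw [hcast]
      ring_nf
    rw [hexp]
    have h3 : ∑ t0 : V, ∑ i, p i * ind ((T i).eval (real0Z ω j0 s0 y cell t0)) ≤ N * (1 / 3) := by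
      refine (sum_le_sum (fun t0 _ => hzero t0)).trans (le_of_eq ?_)
      rw [sum_const, card_univ, nsmul_eq_mul]
    nlinarith
  -- summing
  have hlower : N ^ 3 * W / 3 ≤
      ∑ i, p i * ∑ j0 : V, ∑ ω : Env V I, ∑ s0 : V, ∑ y, D s0 y * gapAt (T i) cellF ω j0 s0 y := by
    have e : ∑ i, p i * ∑ j0 : V, ∑ ω : Env V I, ∑ s0 : V, ∑ y, D s0 y * gapAt (T i) cellF ω j0 s0 y =
        ∑ j0 : V, ∑ ω : Env V I, ∑ s0 : V, ∑ y, D s0 y *
          ∑ i, p i * gapAt (T i) cellF ω j0 s0 y := by
      simp only [mul_sum]
      rw [sum_comm]
      refine sum_congr rfl (fun j0 _ => ?_)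
      rw [sum_comm]
      refine sum_congr rfl (fun ω _ => ?_)
      rw [sum_comm]
      refine sum_congr rfl (fun s0 _ => ?_)
      rw [sum_comm]
      refine sum_congr rfl (fun y _ => ?_)
      refine sum_congr rfl (fun i _ => ?_)
      ring
    rw [e]
    have hterm : ∀ (j0 : V) (ω : Env V I) (s0 : V) (y : I → Bool),
        D s0 y * (N / 3) ≤ D s0 y * ∑ i, p i * gapAt (T i) cellF ω j0 s0 y := by
      intro j0 ω s0 y
      by_cases hD0 : D s0 y = 0
      · simp [hD0]
      · exact mul_le_mul_of_nonneg_left (hgap ω j0 s0 y (hDsupp s0 y hD0)) (hDn s0 y)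
    have hsum : ∑ j0 : V, ∑ ω : Env V I, ∑ s0 : V, ∑ y, D s0 y * (N / 3) = N ^ 3 * W / 3 := by
      have h1 : ∀ s0 : V, ∑ y, D s0 y * (N / 3) = N / 3 := by
        intro s0
        rw [← sum_mul, hD1, one_mul]
      simp only [h1, sum_const, card_univ, nsmul_eq_mul]
      rw [← hNdef, ← hWdef]
      ring
    rw [← hsum]
    exact sum_le_sum (fun j0 _ => sum_le_sum (fun ω _ => sum_le_sum (fun s0 _ =>
      sum_le_sum (fun y _ => hterm j0 ω s0 y))))
  have hupper : ∑ i, p i * ∑ j0 : V, ∑ ω : Env V I, ∑ s0 : V, ∑ y,
      D s0 y * gapAt (T i) cellF ω j0 s0 y ≤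
      N ^ 2 * W * ((r : ℝ) / ((d : ℝ) + 1) + 3 * d + N * (1 / 50)) := by
    have := sum_le_sum (fun i (_ : i ∈ (univ : Finset (Fin n))) =>
      mul_le_mul_of_nonneg_left (hbound i) (hp i))
    refine this.trans (le_of_eq ?_)
    rw [← sum_mul, hp1, one_mul]
  have hmain : N ^ 3 * W / 3 ≤ N ^ 2 * W * ((r : ℝ) / ((d : ℝ) + 1) + 3 * d + N * (1 / 50)) :=
    hlower.trans hupper
  have hN2W : 0 < N ^ 2 * W := by positivity
  have hmain' : N / 3 ≤ (r : ℝ) / ((d : ℝ) + 1) + 3 * d + N * (1 / 50) := by
    have e : N ^ 3 * W / 3 = N ^ 2 * W * (N / 3) := by ring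
    rw [e] at hmain
    exact le_of_mul_le_mul_left hmain hN2W
  have hd' : 100 * (d : ℝ) ≤ N := by rw [hNdef]; exact_mod_cast hd
  have hd1 : (0 : ℝ) < (d : ℝ) + 1 := by positivity
  have h4 : (17 / 60) * N ≤ (r : ℝ) / ((d : ℝ) + 1) := by linarith
  rw [le_div_iff₀ hd1] at h4
  have hd0 : (0 : ℝ) ≤ d := by positivity
  nlinarith

end Main

end Layout

end Crest.Agent.QuartSep.LowerCore
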