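-- Row 350 (S0554): from the abstract hybrid (LowerCore) to the actual function `F`.
-- The hard law is passed through its four properties so that this file does not depend on Gauss.
import Crest.Agent.Lib.QuartSep.Instance
import Crest.Agent.Lib.QuartSep.DTFourier
import Crest.Agent.Lib.QuartSep.LowerCore

set_option autoImplicit false

namespace Crest.Agent.QuartSep

open Finset BigOperators Crest.MathPhysics.Query LowerCore

variable {k ν b : ℕ} [NeZero k]

/-- The first block. -/
def a0 : Fin k := ⟨0, Nat.pos_of_ne_zero (NeZero.ne k)⟩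

/-- The bit with sign `chi s l`. -/
noncomputable def flipBit (s l : Vec ν) : Bool := decide (chi s l = -1)

omit [NeZero k] in
theorem chi_eq_or (s l : Vec ν) : chi s l = 1 ∨ chi s l = -1 := by
  unfold chi
  refine Finset.prod_induction (fun i => sgn (s i && l i)) (fun r : ℝ => r = 1 ∨ r = -1) ?_ ?_ ?_
  · rintro a c (rfl | rfl) (rfl | rfl) <;> simp
  · left; rfl
  · intro i _
    cases (s i && l i) <;> simp [sgn]

omit [NeZero k] in
theorem sgn_flipBit (s l : Vec ν) : sgn (flipBit s l) = chi s l := by
  unfold flipBit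
  rcases chi_eq_or s l with h | h
  · rw [h]; norm_num [sgn]
  · rw [h]; simp [sgn]

omit [NeZero k] in
theorem sgn_xor (u v : Bool) : sgn (xor u v) = sgn u * sgn v := by
  cases u <;> cases v <;> simp [sgn]

omit [NeZero k] in
theorem chi_zero (l : Vec ν) : chi (0 : Vec ν) l = 1 := by
  unfold chi
  refine Finset.prod_eq_one (fun i _ => ?_)
  have : (0 : Vec ν) i = false := rfl
  simp [this, sgn]

/-- **Phase flip.** Flipping the first block by `chi s` moves the amplitude at `s` to `0`. -/
theorem psi_flip (x : Fin k → Vec ν → Bool) (s : Vec ν) :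
    psi (fun a l => xor (x a l) (decide (a = a0) && flipBit s l)) 0 = psi x s := by
  obtain ⟨k', rfl⟩ : ∃ k', k = k' + 1 := Nat.exists_eq_succ_of_ne_zero (NeZero.ne k)
  unfold psi blocks
  rw [List.ofFn_succ, List.ofFn_succ]
  have hh : (0 : Fin (k' + 1)) = a0 := rfl
  have htail : (fun i : Fin k' => fun l => sgn (xor (x i.succ l)
      (decide (i.succ = (a0 : Fin (k' + 1))) && flipBit s l))) =
      (fun i : Fin k' => fun l => sgn (x i.succ l)) := by
    funext i l
    have : i.succ ≠ (a0 : Fin (k' + 1)) := Fin.succ_ne_zero i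
    simp [this]
  rw [htail]
  simp only [chain, hadamardT]
  refine sum_congr rfl (fun v _ => ?_)
  simp only [hadamard, chi_zero]
  have h0 : (decide ((0 : Fin (k' + 1)) = a0) && flipBit s v) = flipBit s v := by
    simp [← hh]
  rw [h0, sgn_xor, sgn_flipBit]
  ring

/-- Flip of an instance given on pairs. -/
noncomputable def flipI (s : Vec ν) (x : Fin k × Vec ν → Bool) : Fin k × Vec ν → Bool :=
  fun p => xor (x p) (decide (p.1 = a0) && flipBit s p.2)

theorem flipI_flipI (s : Vec ν) (x : Fin k × Vec ν → Bool) : flipI s (flipI s x) = x := by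
  funext p
  simp [flipI]

/-- The tree reading the flipped instance. -/
noncomputable def flipTree (s : Vec ν) : DT (Fin k × Vec ν) → DT (Fin k × Vec ν)
  | .answer c => .answer c
  | .read i t₀ t₁ =>
    if (decide (i.1 = a0) && flipBit s i.2) = true then .read i (flipTree s t₁) (flipTree s t₀)
    else .read i (flipTree s t₀) (flipTree s t₁)

theorem flipTree_depth (s : Vec ν) (R : DT (Fin k × Vec ν)) : (flipTree s R).depth = R.depth := by
  induction R with
  | answer c => rfl
  | read i t₀ t₁ ih₀ ih₁ =>
    by_cases h : (decide (i.1 = a0) && flipBit s i.2) = true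
    · simp only [flipTree, h, if_true, DT.depth, ih₀, ih₁, max_comm]
    · have h' : (decide (i.1 = a0) && flipBit s i.2) = false := by simpa using h
      simp only [flipTree, h', Bool.false_eq_true, if_false, DT.depth, ih₀, ih₁]

theorem flipTree_eval (s : Vec ν) (R : DT (Fin k × Vec ν)) (x : Fin k × Vec ν → Bool) :
    (flipTree s R).eval x = R.eval (flipI s x) := by
  induction R with
  | answer c => rfl
  | read i t₀ t₁ ih₀ ih₁ =>
    by_cases h : (decide (i.1 = a0) && flipBit s i.2) = true
    · simp only [flipTree, h, if_true, DT.eval, ih₀, ih₁, flipI]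
      cases x i <;> simp [h]
    · have h' : (decide (i.1 = a0) && flipBit s i.2) = false := by simpa using h
      simp only [flipTree, h', Bool.false_eq_true, if_false, DT.eval, ih₀, ih₁, flipI]
      cases x i <;> simp [h']

/-- `psi` of the curried flip. -/
theorem psi_flipI_zero (s : Vec ν) (x : Fin k × Vec ν → Bool) :
    psi (fun a l => flipI s x (a, l)) 0 = psi (fun a l => x (a, l)) s := by
  exact psi_flip (fun a l => x (a, l)) s

/-- The involution as an equivalence. -/
noncomputable def flipEquiv (s : Vec ν) : (Fin k × Vec ν → Bool) ≃ (Fin k × Vec ν → Bool) where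
  toFun := flipI s
  invFun := flipI s
  left_inv := flipI_flipI s
  right_inv := flipI_flipI s

/-- The conditional law. -/
noncomputable def condMass (θ : ℝ) (D : (Fin k × Vec ν → Bool) → ℝ) (s : Vec ν) : ℝ :=
  ∑ y : Fin k × Vec ν → Bool, if θ ≤ psi (fun a l => y (a, l)) s then D (flipI s y) else 0

/-- The flipped and conditioned law. -/
noncomputable def condLaw (θ : ℝ) (D : (Fin k × Vec ν → Bool) → ℝ) (s : Vec ν)
    (y : Fin k × Vec ν → Bool) : ℝ :=
  (if θ ≤ psi (fun a l => y (a, l)) s then D (flipI s y) else 0) / condMass θ D s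

theorem condMass_eq (θ : ℝ) (D : (Fin k × Vec ν → Bool) → ℝ) (s : Vec ν) :
    condMass θ D s = ∑ x : Fin k × Vec ν → Bool, if θ ≤ psi (fun a l => x (a, l)) 0 then D x else 0 := by
  unfold condMass
  refine (Equiv.sum_comp (flipEquiv s) _).symm.trans ?_
  refine sum_congr rfl (fun x _ => ?_)
  show (if θ ≤ psi (fun a l => flipI s x (a, l)) s then D (flipI s (flipI s x)) else 0) = _
  rw [flipI_flipI]
  have : psi (fun a l => flipI s x (a, l)) s = psi (fun a l => x (a, l)) 0 := by
    have := psi_flipI_zero s (flipI s x)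
    rw [flipI_flipI] at this
    exact this.symm
  rw [this]

/-- The main bridge: `F` satisfies the lower bound given the properties of the hard law. -/
theorem randomized_lower_core (hb : k * ν + 2 ≤ b) (θ : ℝ) (D : (Fin k × Vec ν → Bool) → ℝ) (d : ℕ)
    (hDn : ∀ x, 0 ≤ D x) (hD1 : ∑ x, D x = 1)
    (htail : ∑ x, (if psi (fun a l => x (a, l)) 0 < θ then D x else 0) ≤ 1 / 100)
    (htrees : ∀ T : DT (Fin k × Vec ν), T.depth ≤ d →
      |∑ x, D x * T.val x - ∑ x, T.val x / (2 : ℝ) ^ (k * 2 ^ ν)| ≤ 1 / 100)
    (hd : 100 * d ≤ 2 ^ ν)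
    {n : ℕ} (e : Fin n ≃ Idx k ν b) (r : ℕ)
    (h : RandomizedComputes (fun x : Fin n → Bool => F θ (fun i => x (e.symm i))) r) :
    (d : ℝ) * 2 ^ ν / 4 ≤ r := by
  classical
  obtain ⟨m, p, T, hp, hp1, hTd, hcorr⟩ := h
  -- mass of the conditional law
  have hmass : ∀ s : Vec ν, 99 / 100 ≤ condMass θ D s := by
    intro s
    rw [condMass_eq]
    have : ∑ x : Fin k × Vec ν → Bool, (if θ ≤ psi (fun a l => x (a, l)) 0 then D x else 0) =
        ∑ x, D x - ∑ x, (if psi (fun a l => x (a, l)) 0 < θ then D x else 0) := by
      rw [← sum_sub_distrib]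
      refine sum_congr rfl (fun x _ => ?_)
      by_cases hx : θ ≤ psi (fun a l => x (a, l)) 0
      · simp [hx, not_lt.mpr hx]
      · simp [hx, not_le.mp hx]
    rw [this, hD1]
    linarith
  have hmass1 : ∀ s : Vec ν, condMass θ D s ≤ 1 := by
    intro s
    rw [condMass_eq, ← hD1]
    refine sum_le_sum (fun x _ => ?_)
    split
    · exact le_rfl
    · exact hDn x
  have hmpos : ∀ s : Vec ν, 0 < condMass θ D s := fun s => by linarith [hmass s]
  have hcardI : (Fintype.card (Fin k × Vec ν → Bool) : ℝ) = (2 : ℝ) ^ (k * 2 ^ ν) := by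
    simp [Fintype.card_fun, card_vec]
  refine (?_ : (d : ℝ) * (Fintype.card (Vec ν) : ℝ) / 4 ≤ r) |> fun this => by
    rw [card_vec] at this; push_cast at this; exact this
  refine hybrid (V := Vec ν) (I := Fin k × Vec ν) (C := CellIdx k ν b) (F θ)
    (fun y list c => cellOf (fun a l => y (a, l)) list c)
    (fun s y => θ ≤ psi (fun a l => y (a, l)) s) ?_ ?_ d (condLaw θ D) ?_ ?_ ?_ ?_ ?_ m p
    (fun i => DT.ofDTree e (T i)) r hp hp1 ?_ ?_
  · -- one-inputs
    intro z j s list hflag hcell hzero hamp
    have hv : Valid θ z j s := by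
      apply valid_of_cellOf hb θ z j s list
      · intro c; exact hcell c
      · intro t; exact hflag t
      · intro j' hj'; exact hzero j' hj'
      · exact hamp
    unfold F
    exact decide_eq_true ⟨j, s, hv⟩
  · -- zero-inputs
    intro z hz
    unfold F
    apply decide_eq_false
    rintro ⟨j, s, hv⟩
    obtain ⟨t, ht⟩ := hz j
    have h1 := hv (Sum.inl t)
    rw [check_flag] at h1
    have h2 : z (posFlag j t) = false := ht
    rw [h2] at h1
    exact Bool.false_ne_true h1
  · -- nonneg
    intro s y
    unfold condLaw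
    refine div_nonneg ?_ (hmpos s).le
    split
    · exact hDn _
    · exact le_rfl
  · -- mass one
    intro s
    unfold condLaw
    rw [← sum_div]
    exact div_self (hmpos s).ne'
  · -- support
    intro s y hy
    by_contra hcon
    apply hy
    unfold condLaw
    rw [if_neg hcon, zero_div]
  · -- trees
    intro s R hR
    set P := condMass θ D s with hP
    have hPpos : 0 < P := hmpos s
    set A : ℝ := ∑ y : Fin k × Vec ν → Bool,
      (if θ ≤ psi (fun a l => y (a, l)) s then D (flipI s y) else 0) * ind (R.eval y) with hA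
    have hlhs : ∑ y, condLaw θ D s y * ind (R.eval y) = A / P := by
      rw [hA, sum_div]
      refine sum_congr rfl (fun y _ => ?_)
      unfold condLaw
      rw [← hP]
      ring
    rw [hlhs]
    -- `A ≤ P`
    have hAP : A ≤ P := by
      rw [hP]
      unfold condMass
      refine sum_le_sum (fun y _ => ?_)
      have h0 : 0 ≤ (if θ ≤ psi (fun a l => y (a, l)) s then D (flipI s y) else 0) := by
        split
        · exact hDn _
        · exact le_rfl
      calc _ ≤ (if θ ≤ psi (fun a l => y (a, l)) s then D (flipI s y) else 0) * 1 :=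
            mul_le_mul_of_nonneg_left (ind_le_one _) h0
        _ = _ := mul_one _
    -- `A ≤ E_{D} (R ∘ flip)`
    set R' := flipTree s R with hR'
    have hval : ∀ x, R'.val x = ind (R.eval (flipI s x)) := by
      intro x
      unfold DT.val ind
      rw [hR', flipTree_eval]
    have hA2 : A ≤ ∑ x, D x * R'.val x := by
      have e1 : ∑ x, D x * R'.val x = ∑ y, D (flipI s y) * ind (R.eval y) := by
        refine (Equiv.sum_comp (flipEquiv s) _).symm.trans ?_
        refine sum_congr rfl (fun y _ => ?_)
        show D (flipI s y) * R'.val (flipI s y) = _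
        rw [hval, flipI_flipI]
      rw [e1, hA]
      refine sum_le_sum (fun y _ => ?_)
      have hi := ind_nonneg (R.eval y)
      by_cases hy : θ ≤ psi (fun a l => y (a, l)) s
      · simp [hy]
      · simp only [hy, if_false, zero_mul]
        exact mul_nonneg (hDn _) hi
    have hU : ∑ x, R'.val x / (2 : ℝ) ^ (k * 2 ^ ν) =
        (∑ y, ind (R.eval y)) / (Fintype.card (Fin k × Vec ν → Bool) : ℝ) := by
      rw [← sum_div, hcardI]
      congr 1
      refine (Equiv.sum_comp (flipEquiv s) _).symm.trans ?_
      refine sum_congr rfl (fun y _ => ?_)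
      show R'.val (flipI s y) = _
      rw [hval, flipI_flipI]
    have htr := htrees R' (by rw [hR', flipTree_depth]; exact hR)
    rw [hU] at htr
    have htr' := (abs_le.mp htr).2
    -- `A / P ≤ A + (1 - P)`
    have hA0 : 0 ≤ A := by
      rw [hA]
      refine sum_nonneg (fun y _ => mul_nonneg ?_ (ind_nonneg _))
      split
      · exact hDn _
      · exact le_rfl
    have hP1 := hmass1 s
    have hP99 := hmass s
    have hdiv : A / P ≤ A + (1 - P) := by
      rw [div_le_iff₀ hPpos]
      nlinarith
    linarith
  · -- cardinalities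
    rw [card_vec]; exact hd
  · -- depth
    intro i
    have : (DT.ofDTree e (T i)).depth = (T i).depth := by
      clear hcorr hTd
      induction T i with
      | answer c => rfl
      | read i t₀ t₁ ih₀ ih₁ => simp [DT.ofDTree, DT.depth, DTree.depth, ih₀, ih₁]
    rw [this]; exact hTd i
  · -- correctness
    intro z
    have hev : ∀ (t : DTree n), (DT.ofDTree e t).eval z = t.eval (fun i => z (e i)) := by
      intro t
      induction t with
      | answer c => rfl
      | read i t₀ t₁ ih₀ ih₁ => simp [DT.ofDTree, DT.eval, DTree.eval, ih₀, ih₁]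
    have := hcorr (fun i => z (e i))
    simp only [Equiv.apply_symm_apply] at this
    refine this.trans (le_of_eq ?_)
    refine sum_congr rfl (fun j _ => ?_)
    rw [hev]

end Crest.Agent.QuartSep
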