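-- Row 350 (S0554): the hybrid argument (blueprint 3d).
import Crest.Agent.Lib.QuartSep.Instance
import Crest.Agent.Lib.QuartSep.Hard
import Crest.Agent.Lib.QuartSep.LowerBridge

set_option autoImplicit false

namespace Crest.Agent.QuartSep

open Finset BigOperators Crest.MathPhysics.Query

variable {k ν b : ℕ} [NeZero k]

/-- **Randomized lower bound.** -/
theorem randomized_lower (hb : k * ν + 2 ≤ b) (θ : ℝ) (D : (Fin k × Vec ν → Bool) → ℝ) (d : ℕ)
    (hD : IsHard k ν θ D d) (hd : 100 * d ≤ 2 ^ ν) (hd0 : 0 < d)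
    {n : ℕ} (e : Fin n ≃ Idx k ν b) (r : ℕ)
    (h : RandomizedComputes (fun x : Fin n → Bool => F θ (fun i => x (e.symm i))) r) :
    (d : ℝ) * 2 ^ ν / 4 ≤ r :=
  randomized_lower_core hb θ D d hD.nonneg hD.sum_one hD.tail hD.trees hd e r h

end Crest.Agent.QuartSep
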