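-- Row 350 (S0554): final assembly: parameters and numerics.
import Crest.Agent.Lib.QuartSep.Assembly
import Crest.Agent.Lib.QuartSep.Lower
import Crest.Agent.Lib.QuartSep.Gauss
import Crest.Agent.Lib.QuartSep.Adversary

set_option autoImplicit false

namespace Crest.Agent.QuartSep

open Finset BigOperators Crest.MathPhysics.Query

lemma numChecks_le (k ν : ℕ) : (numChecks k ν : ℝ) ≤ ((k : ℝ) * ν + k + 3) * 2 ^ ν := by
  have hcard : numChecks k ν = 2 ^ ν + (2 ^ ν + (k * 2 ^ ν + (k * (ν * 2 ^ ν) + 1))) := by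
    simp [numChecks, CheckIdx, Fintype.card_sum, Fintype.card_prod, Vec]
  rw [hcard]
  push_cast
  have h1 : (1 : ℝ) ≤ 2 ^ ν := one_le_pow₀ (by norm_num)
  nlinarith

/-- The constant of the norm bounds. -/
noncomputable def constK (C₀ : ℝ) (k : ℕ) : ℝ :=
  3 + 6 * (4 * (7 * (k : ℝ) + 9) * C₀ ^ (2 * (k - 1))) *
    (2 * (k : ℝ) + (7 * (k : ℝ) + 9) * (2 * (2 * (k : ℝ) + 3)) * 8)

lemma constK_ge {C₀ : ℝ} (hC : 0 < C₀) (k : ℕ) : 3 ≤ constK C₀ k := by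
  unfold constK
  have : 0 ≤ C₀ ^ (2 * (k - 1)) := by positivity
  have h2 : (0 : ℝ) ≤ k := Nat.cast_nonneg k
  have : 0 ≤ 6 * (4 * (7 * (k : ℝ) + 9) * C₀ ^ (2 * (k - 1))) *
    (2 * (k : ℝ) + (7 * (k : ℝ) + 9) * (2 * (2 * (k : ℝ) + 3)) * 8) := by positivity
  linarith

/-- The adversary bound: `3 + 6 A B ≤ K ν^(2k+2) 2^ν`. -/
lemma adv_bound {C₀ : ℝ} (hC : 0 < C₀) {k ν : ℕ} (hk : 1 ≤ k) (hν : 1 ≤ ν) :
    3 + 6 * ((2 * (k : ℝ) + (2 * k + checkDepth ν (k * ν + 2))) / thetaOf C₀ k ν ^ 2) *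
        (2 * (k : ℝ) * 2 ^ ν + (2 * k + checkDepth ν (k * ν + 2)) *
          (2 * numChecks k ν * (3 * ν + 5))) ≤
      constK C₀ k * ((ν : ℝ) ^ (2 * k + 2) * 2 ^ ν) := by
  have hν' : (1 : ℝ) ≤ ν := by exact_mod_cast hν
  have hν0 : (0 : ℝ) < ν := by linarith
  have hk' : (1 : ℝ) ≤ k := by exact_mod_cast hk
  have hN : (1 : ℝ) ≤ 2 ^ ν := one_le_pow₀ (by norm_num)
  have hN0 : (0 : ℝ) < 2 ^ ν := by positivity
  set N : ℝ := 2 ^ ν with hNdef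
  set T : ℝ := 2 * (k : ℝ) + (2 * k + checkDepth ν (k * ν + 2)) with hT
  have hTeq : T = 4 * (k : ℝ) + 3 * k * ν + ν + 8 := by
    rw [hT]; simp only [checkDepth]; push_cast; ring
  have hT0 : 0 ≤ T := by rw [hTeq]; positivity
  have hT1 : T ≤ (7 * (k : ℝ) + 9) * ν := by
    rw [hTeq]; nlinarith
  -- the `A` side
  have hth : 1 / thetaOf C₀ k ν ^ 2 = 4 * (C₀ * ν) ^ (2 * (k - 1)) := by
    unfold thetaOf
    have hne : C₀ * (ν : ℝ) ≠ 0 := by positivity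
    have hw : ((C₀ * (ν : ℝ)) ^ (k - 1)) ≠ 0 := pow_ne_zero _ hne
    have e1 : (C₀ * (ν : ℝ)) ^ (2 * (k - 1)) = ((C₀ * (ν : ℝ)) ^ (k - 1)) ^ 2 := by
      rw [← pow_mul]; congr 1; ring
    rw [e1, one_div_pow]
    field_simp
    norm_num
  have hA : T / thetaOf C₀ k ν ^ 2 ≤
      (4 * (7 * (k : ℝ) + 9) * C₀ ^ (2 * (k - 1))) * (ν : ℝ) ^ (2 * (k - 1) + 1) := by
    have : T / thetaOf C₀ k ν ^ 2 = T * (4 * (C₀ * ν) ^ (2 * (k - 1))) := by
      rw [← hth]; ring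
    rw [this, mul_pow, pow_succ]
    have hp : 0 ≤ C₀ ^ (2 * (k - 1)) * (ν : ℝ) ^ (2 * (k - 1)) := by positivity
    calc T * (4 * (C₀ ^ (2 * (k - 1)) * (ν : ℝ) ^ (2 * (k - 1))))
        ≤ ((7 * (k : ℝ) + 9) * ν) * (4 * (C₀ ^ (2 * (k - 1)) * (ν : ℝ) ^ (2 * (k - 1)))) := by
          apply mul_le_mul_of_nonneg_right hT1; positivity
      _ = _ := by ring
  -- the `B` side
  have hnc := numChecks_le k ν
  have hnc2 : (numChecks k ν : ℝ) ≤ (2 * (k : ℝ) + 3) * ν * N := by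
    refine hnc.trans ?_
    apply mul_le_mul_of_nonneg_right _ hN0.le
    nlinarith
  have h35 : 3 * (ν : ℝ) + 5 ≤ 8 * ν := by linarith
  set S : ℝ := 2 * (k : ℝ) + checkDepth ν (k * ν + 2) with hS
  have hS0 : 0 ≤ S := by rw [hS]; positivity
  have hST : S ≤ (7 * (k : ℝ) + 9) * ν := by
    have : S ≤ T := by rw [hT]; linarith
    linarith
  have hB : 2 * (k : ℝ) * N + S * (2 * numChecks k ν * (3 * ν + 5)) ≤
      (2 * (k : ℝ) + (7 * (k : ℝ) + 9) * (2 * (2 * (k : ℝ) + 3)) * 8) * ((ν : ℝ) ^ 3 * N) := by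
    have h1 : S * (2 * numChecks k ν * (3 * ν + 5)) ≤
        ((7 * (k : ℝ) + 9) * ν) * (2 * ((2 * (k : ℝ) + 3) * ν * N) * (8 * ν)) := by
      apply mul_le_mul hST _ (by positivity) (by positivity)
      apply mul_le_mul _ h35 (by positivity) (by positivity)
      linarith
    have h2 : (ν : ℝ) ^ 3 ≥ 1 := one_le_pow₀ hν'
    have h3 : 2 * (k : ℝ) * N ≤ 2 * (k : ℝ) * ((ν : ℝ) ^ 3 * N) := by
      apply mul_le_mul_of_nonneg_left _ (by positivity)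
      nlinarith
    calc 2 * (k : ℝ) * N + S * (2 * numChecks k ν * (3 * ν + 5))
        ≤ 2 * (k : ℝ) * ((ν : ℝ) ^ 3 * N) +
          ((7 * (k : ℝ) + 9) * ν) * (2 * ((2 * (k : ℝ) + 3) * ν * N) * (8 * ν)) := by linarith
      _ = _ := by ring
  have hB0 : 0 ≤ 2 * (k : ℝ) * N + S * (2 * numChecks k ν * (3 * ν + 5)) := by positivity
  have hexp : 2 * k + 2 = (2 * (k - 1) + 1) + 3 := by omega
  have hAB : T / thetaOf C₀ k ν ^ 2 * (2 * (k : ℝ) * N + S * (2 * numChecks k ν * (3 * ν + 5))) ≤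
      ((4 * (7 * (k : ℝ) + 9) * C₀ ^ (2 * (k - 1))) *
        (2 * (k : ℝ) + (7 * (k : ℝ) + 9) * (2 * (2 * (k : ℝ) + 3)) * 8)) *
        ((ν : ℝ) ^ (2 * k + 2) * N) := by
    rw [hexp, pow_add]
    calc _ ≤ ((4 * (7 * (k : ℝ) + 9) * C₀ ^ (2 * (k - 1))) * (ν : ℝ) ^ (2 * (k - 1) + 1)) *
          ((2 * (k : ℝ) + (7 * (k : ℝ) + 9) * (2 * (2 * (k : ℝ) + 3)) * 8) * ((ν : ℝ) ^ 3 * N)) :=
          mul_le_mul hA hB hB0 (by positivity)
      _ = _ := by ring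
  have hprod : (1 : ℝ) ≤ (ν : ℝ) ^ (2 * k + 2) * N :=
    one_le_mul_of_one_le_of_one_le (one_le_pow₀ hν') hN
  unfold constK
  nlinarith

/-- The whole theorem. -/
theorem main (k : ℕ) (hk : 2 ≤ k) :
    ∃ (c C b : ℝ), 0 < c ∧ 0 < C ∧ 0 < b ∧ ∃ m₀ : ℕ, ∀ m : ℕ, m₀ ≤ m → (∃ j : ℕ, m = 4 ^ j) →
      ∃ (n : ℕ) (F : (Fin n → Bool) → Bool),
        (∃ q : ℕ, (q : ℝ) ≤ C * Real.sqrt m * Real.log m ^ b ∧ QuantumComputes F q) ∧
        (∀ r : ℕ, RandomizedComputes F r →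
          c * (m : ℝ) ^ (2 - 1 / (k : ℝ)) / Real.log m ^ 2 ≤ r) := by
  obtain ⟨C₀, c₀, ν₀, hC₀, hc₀, hard⟩ := exists_hard k hk
  have : NeZero k := ⟨by omega⟩
  have hlog2 : 0 < Real.log 2 := Real.log_pos (by norm_num)
  have hk1 : (1 : ℝ) ≤ k := by exact_mod_cast (by omega : 1 ≤ k)
  have hk2 : (2 : ℝ) ≤ k := by exact_mod_cast hk
  -- the threshold for `0 < d`
  have hs2 : (1 : ℝ) < Real.sqrt 2 := by
    rw [show (1 : ℝ) = Real.sqrt 1 by simp]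
    exact Real.sqrt_lt_sqrt (by norm_num) (by norm_num)
  have hev : ∀ᶠ n : ℕ in Filter.atTop, (n : ℝ) ^ 1 / Real.sqrt 2 ^ n < c₀ :=
    (tendsto_pow_const_div_const_pow_of_one_lt 1 hs2).eventually (gt_mem_nhds hc₀)
  obtain ⟨ν₂, hν₂⟩ := Filter.eventually_atTop.1 hev
  obtain ⟨ν₃, hν₃⟩ := exists_nat_ge (100 * c₀)
  refine ⟨c₀ * Real.log 2 / 8, 2 * Real.sqrt (constK C₀ k) / Real.log 2 ^ (k + 1),
    (k : ℝ) + 1, by positivity, ?_, by positivity, 4 ^ (ν₀ + ν₂ + ν₃ + 2), ?_⟩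
  · have : 0 < Real.sqrt (constK C₀ k) :=
      Real.sqrt_pos.2 (by linarith [constK_ge hC₀ k])
    positivity
  intro m hm ⟨j, hj⟩
  -- parameters
  have hjge : ν₀ + ν₂ + ν₃ + 2 ≤ j := by
    rw [hj] at hm
    exact (Nat.pow_le_pow_iff_right (by norm_num)).1 hm
  set ν : ℕ := 2 * j with hνdef
  have hmν : (m : ℝ) = 2 ^ ν := by
    rw [hj, hνdef, pow_mul]; norm_num
  have hν1 : 1 ≤ ν := by omega
  have hν2 : 2 ≤ ν := by omega
  have hνr : (2 : ℝ) ≤ ν := by exact_mod_cast hν2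
  have hν0 : (0 : ℝ) < ν := by linarith
  have hlogm : Real.log m = ν * Real.log 2 := by
    rw [hmν, Real.log_pow]
  have hlogmpos : 0 < Real.log m := by rw [hlogm]; positivity
  obtain ⟨D, hD⟩ := hard ν (by omega)
  set θ : ℝ := thetaOf C₀ k ν with hθdef
  have hθ : 0 < θ := by
    rw [hθdef]; unfold thetaOf; positivity
  set b : ℕ := k * ν + 2 with hbdef
  let e : Fin (Fintype.card (Idx k ν b)) ≃ Idx k ν b := (Fintype.equivFin _).symm
  refine ⟨Fintype.card (Idx k ν b), fun x => F θ (fun i => x (e.symm i)), ?_, ?_⟩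
  · -- quantum side
    set K : ℝ := constK C₀ k with hK
    have hK3 : 3 ≤ K := constK_ge hC₀ k
    have hadv := adv_bound hC₀ (k := k) (ν := ν) (by omega) hν1
    set X : ℝ := K * ((ν : ℝ) ^ (2 * k + 2) * 2 ^ ν) with hX
    have hX1 : 1 ≤ X := by
      have h1 : (1 : ℝ) ≤ (ν : ℝ) ^ (2 * k + 2) := one_le_pow₀ (by linarith)
      have h2 : (1 : ℝ) ≤ 2 ^ ν := one_le_pow₀ (by norm_num)
      have : (1 : ℝ) ≤ (ν : ℝ) ^ (2 * k + 2) * 2 ^ ν := one_le_mul_of_one_le_of_one_le h1 h2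
      rw [hX]; nlinarith
    refine ⟨⌈Real.sqrt X⌉₊, ?_, ?_⟩
    · have hs1 : 1 ≤ Real.sqrt X := by
        rw [show (1 : ℝ) = Real.sqrt 1 by simp]; exact Real.sqrt_le_sqrt hX1
      have hceil : (⌈Real.sqrt X⌉₊ : ℝ) ≤ 2 * Real.sqrt X := by
        have := (Nat.ceil_lt_add_one (Real.sqrt_nonneg X)).le
        linarith
      refine hceil.trans (le_of_eq ?_)
      have hsX : Real.sqrt X = Real.sqrt K * (ν : ℝ) ^ (k + 1) * Real.sqrt m := by
        rw [hX, hmν, Real.sqrt_mul (by linarith), Real.sqrt_mul (by positivity)]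
        have : Real.sqrt ((ν : ℝ) ^ (2 * k + 2)) = (ν : ℝ) ^ (k + 1) := by
          rw [show 2 * k + 2 = (k + 1) * 2 by ring, pow_mul]
          exact Real.sqrt_sq (by positivity)
        rw [this]; ring
      have hlp : Real.log m ^ ((k : ℝ) + 1) = (ν : ℝ) ^ (k + 1) * Real.log 2 ^ (k + 1) := by
        rw [show (k : ℝ) + 1 = ((k + 1 : ℕ) : ℝ) by push_cast; ring, Real.rpow_natCast, hlogm,
          mul_pow]
      rw [hsX, hlp]
      have : Real.log 2 ^ (k + 1) ≠ 0 := by positivity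
      field_simp
    · apply quantumComputes_of_rep e (F θ)
        ((2 * (k : ℝ) + (2 * k + checkDepth ν b)) / θ ^ 2)
        (2 * (k : ℝ) * 2 ^ ν + (2 * k + checkDepth ν b) * (2 * numChecks k ν * (3 * ν + 5)))
        (by positivity) (by positivity) (rep_final θ hθ)
      have hsq : X ≤ ((⌈Real.sqrt X⌉₊ : ℕ) : ℝ) ^ 2 := by
        have h0 : Real.sqrt X ≤ (⌈Real.sqrt X⌉₊ : ℝ) := Nat.le_ceil _
        have h1 : Real.sqrt X ^ 2 = X := Real.sq_sqrt (by linarith)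
        nlinarith [Real.sqrt_nonneg X]
      exact hadv.trans hsq
  · -- randomized side
    intro r hr
    set Y : ℝ := c₀ * ((2 : ℝ) ^ ν) ^ (1 - 1 / (k : ℝ)) / ν with hY
    have h1k : 0 ≤ 1 - 1 / (k : ℝ) := by
      rw [sub_nonneg, div_le_one (by linarith)]; exact hk1
    have h1k' : 1 - 1 / (k : ℝ) ≤ 1 := by
      have : 0 ≤ 1 / (k : ℝ) := by positivity
      linarith
    have h12 : 1 / 2 ≤ 1 - 1 / (k : ℝ) := by
      have : 1 / (k : ℝ) ≤ 1 / 2 := one_div_le_one_div_of_le (by norm_num) hk2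
      linarith
    have hN1 : (1 : ℝ) ≤ 2 ^ ν := one_le_pow₀ (by norm_num)
    have hpow_le : ((2 : ℝ) ^ ν) ^ (1 - 1 / (k : ℝ)) ≤ 2 ^ ν := by
      calc ((2 : ℝ) ^ ν) ^ (1 - 1 / (k : ℝ)) ≤ ((2 : ℝ) ^ ν) ^ (1 : ℝ) :=
            Real.rpow_le_rpow_of_exponent_le hN1 h1k'
        _ = 2 ^ ν := Real.rpow_one _
    have hpow_ge : Real.sqrt 2 ^ ν ≤ ((2 : ℝ) ^ ν) ^ (1 - 1 / (k : ℝ)) := by
      have h2 : Real.sqrt 2 ^ ν = ((2 : ℝ) ^ ν) ^ (1 / 2 : ℝ) := by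
        rw [← Real.sqrt_eq_rpow, Real.sqrt_eq_rpow, Real.sqrt_eq_rpow]
        rw [← Real.rpow_natCast, ← Real.rpow_mul (by norm_num), mul_comm,
          Real.rpow_mul (by norm_num), Real.rpow_natCast]
      rw [h2]
      exact Real.rpow_le_rpow_of_exponent_le hN1 h12
    have hY1 : 1 ≤ Y := by
      have h := hν₂ ν (by omega)
      have hsp : 0 < Real.sqrt 2 ^ ν := by positivity
      rw [pow_one, div_lt_iff₀ hsp] at h
      rw [hY, le_div_iff₀ hν0]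
      have : c₀ * Real.sqrt 2 ^ ν ≤ c₀ * ((2 : ℝ) ^ ν) ^ (1 - 1 / (k : ℝ)) :=
        mul_le_mul_of_nonneg_left hpow_ge hc₀.le
      linarith
    set d : ℕ := ⌊Y⌋₊ with hd
    have hd0 : 0 < d := Nat.floor_pos.2 hY1
    have hdY : (d : ℝ) ≤ Y := Nat.floor_le (by linarith)
    have hYd : Y / 2 ≤ d := by
      have h1 : Y < d + 1 := Nat.lt_floor_add_one Y
      have h2 : (1 : ℝ) ≤ d := by exact_mod_cast hd0
      linarith
    have hν100 : 100 * c₀ ≤ ν := by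
      refine hν₃.trans ?_
      have : ν₃ ≤ ν := by omega
      exact_mod_cast this
    have h100 : 100 * d ≤ 2 ^ ν := by
      have : (100 : ℝ) * d ≤ 2 ^ ν := by
        have h1 : 100 * Y ≤ 2 ^ ν := by
          rw [hY, ← mul_div_assoc, div_le_iff₀ hν0]
          have hc : 100 * c₀ * ((2 : ℝ) ^ ν) ^ (1 - 1 / (k : ℝ)) ≤ ν * 2 ^ ν :=
            mul_le_mul hν100 hpow_le (by positivity) (by positivity)
          nlinarith
        linarith
      exact_mod_cast this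
    have hlow := randomized_lower (k := k) (ν := ν) (b := b) (le_refl _) θ D d hD h100 hd0 e r hr
    -- numerics
    have hrY : Y * 2 ^ ν / 8 ≤ r := by
      have : Y / 2 * 2 ^ ν ≤ (d : ℝ) * 2 ^ ν := by
        apply mul_le_mul_of_nonneg_right hYd (by positivity)
      linarith
    have hprod : (m : ℝ) ^ (2 - 1 / (k : ℝ)) = ((2 : ℝ) ^ ν) ^ (1 - 1 / (k : ℝ)) * 2 ^ ν := by
      rw [hmν, show 2 - 1 / (k : ℝ) = (1 - 1 / (k : ℝ)) + 1 by ring,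
        Real.rpow_add (by positivity), Real.rpow_one]
    refine le_trans ?_ hrY
    rw [hprod, hY, hlogm]
    have hP : 0 ≤ ((2 : ℝ) ^ ν) ^ (1 - 1 / (k : ℝ)) * 2 ^ ν := by positivity
    have hνlog : 1 ≤ (ν : ℝ) * Real.log 2 := by
      have := Real.log_two_gt_d9
      nlinarith
    set P : ℝ := ((2 : ℝ) ^ ν) ^ (1 - 1 / (k : ℝ)) with hPdef
    have hl : 0 < (ν : ℝ) * Real.log 2 := by positivity
    rw [div_le_iff₀ (by positivity)]
    have hmain : c₀ * Real.log 2 / 8 * (P * 2 ^ ν) ≤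
        c₀ * P / ν * 2 ^ ν / 8 * ((ν : ℝ) * Real.log 2) ^ 2 := by
      have e1 : c₀ * P / ν * 2 ^ ν / 8 * ((ν : ℝ) * Real.log 2) ^ 2 =
          (c₀ * Real.log 2 / 8 * (P * 2 ^ ν)) * ((ν : ℝ) * Real.log 2) := by
        field_simp
      rw [e1]
      have : 0 ≤ c₀ * Real.log 2 / 8 * (P * 2 ^ ν) := by positivity
      nlinarith
    exact hmain

end Crest.Agent.QuartSep
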